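import Mathlib

open MeasureTheory Set Filter Topology Module
open scoped ENNReal ContDiff

namespace Vale.Agent.P219.Coarea

variable {V : Type*} [NormedAddCommGroup V] [InnerProductSpace ℝ V] [FiniteDimensional ℝ V]
  [MeasurableSpace V] [BorelSpace V]

theorem lintegral_line {ν : V} (hν : ‖ν‖ = 1) (G : V → ℝ≥0∞) (hG : Measurable G) :
    ∫⁻ x, G x = ∫⁻ y : (ℝ ∙ ν)ᗮ, ∫⁻ t : ℝ, G (t • ν + y) := by
  have h1 := ((ℝ ∙ ν).measurePreserving_measurableEquivProd (0 : V)).symm
  rw [InnerProductSpace.euclideanHausdorffMeasure_eq_volume] at h1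
  rw [← h1.lintegral_comp_emb (MeasurableEquiv.measurableEmbedding _)]
  rw [Measure.volume_eq_prod, lintegral_prod_symm]
  · congr 1
    ext y
    have h2 := (LinearIsometryEquiv.toSpanUnitSingleton ν hν).measurePreserving
    rw [← h2.lintegral_comp_emb
      (LinearIsometryEquiv.toSpanUnitSingleton ν hν).toHomeomorph.measurableEmbedding]
    congr 1
    ext t
    simp
  · exact (hG.comp (MeasurableEquiv.measurable _)).aemeasurable

/-- derivative of the smooth transition -/
noncomputable def chi' (t : ℝ) : ℝ := deriv Real.smoothTransition t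

theorem continuous_chi' : Continuous chi' :=
  (Real.smoothTransition.contDiff (n := 1)).continuous_deriv le_rfl

theorem hasDerivAt_chi (t : ℝ) : HasDerivAt Real.smoothTransition (chi' t) t :=
  ((Real.smoothTransition.contDiff (n := 1)).differentiable one_ne_zero t).hasDerivAt

theorem chi'_nonneg (t : ℝ) : 0 ≤ chi' t := Real.smoothTransition.monotone.deriv_nonneg

theorem chi'_eq_zero_of_lt {t : ℝ} (h : t < 0) : chi' t = 0 := by
  have : Real.smoothTransition =ᶠ[𝓝 t] fun _ => 0 := by
    filter_upwards [Iio_mem_nhds h] with s hs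
    exact Real.smoothTransition.zero_of_nonpos hs.le
  rw [chi', this.deriv_eq]; simp

theorem chi'_eq_zero_of_gt {t : ℝ} (h : 1 < t) : chi' t = 0 := by
  have : Real.smoothTransition =ᶠ[𝓝 t] fun _ => 1 := by
    filter_upwards [Ioi_mem_nhds h] with s hs
    exact Real.smoothTransition.one_of_one_le (le_of_lt hs)
  rw [chi', this.deriv_eq]; simp

theorem one_dim {s s' : ℝ → ℝ} (hs : ∀ t, HasDerivAt s (s' t) t) (hs' : Continuous s')
    {α β a ε : ℝ} (hαβ : α ≤ β) (ha : 0 < a) (hε : 0 < ε) (hsa : ∀ t ∈ Icc α β, a ≤ s' t) :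
    ∫ t in α..β, ε⁻¹ * chi' (-s t / ε) ≤ 1 / a := by
  have hsc : Continuous s := continuous_iff_continuousAt.2 fun t => (hs t).continuousAt
  have key : ∫ t in α..β, chi' (-s t / ε) * (-s' t / ε) =
      Real.smoothTransition (-s β / ε) - Real.smoothTransition (-s α / ε) := by
    apply intervalIntegral.integral_eq_sub_of_hasDerivAt
    · intro t _
      exact (hasDerivAt_chi _).comp t ((hs t).neg.div_const ε)
    · apply Continuous.intervalIntegrable
      exact (continuous_chi'.comp (by fun_prop)).mul (by fun_prop)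
  have h1 : ∫ t in α..β, a * (ε⁻¹ * chi' (-s t / ε)) ≤
      ∫ t in α..β, -(chi' (-s t / ε) * (-s' t / ε)) := by
    apply intervalIntegral.integral_mono_on hαβ
    · apply Continuous.intervalIntegrable
      exact continuous_const.mul (continuous_const.mul (continuous_chi'.comp (by fun_prop)))
    · apply Continuous.intervalIntegrable
      exact ((continuous_chi'.comp (by fun_prop)).mul (by fun_prop)).neg
    · intro t ht
      have h2 := hsa t ht
      have h3 : 0 ≤ ε⁻¹ * chi' (-s t / ε) := mul_nonneg (inv_nonneg.2 hε.le) (chi'_nonneg _)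
      calc a * (ε⁻¹ * chi' (-s t / ε)) ≤ s' t * (ε⁻¹ * chi' (-s t / ε)) :=
            mul_le_mul_of_nonneg_right h2 h3
        _ = -(chi' (-s t / ε) * (-s' t / ε)) := by field_simp
  rw [intervalIntegral.integral_neg, key, intervalIntegral.integral_const_mul] at h1
  rw [le_div_iff₀' ha]
  have h4 := Real.smoothTransition.le_one (-s α / ε)
  have h5 := Real.smoothTransition.nonneg (-s β / ε)
  linarith


omit [MeasurableSpace V] [BorelSpace V] in
theorem exists_unit {φ : V →L[ℝ] ℝ} (hφ : φ ≠ 0) : ∃ ν : V, ‖ν‖ = 1 ∧ φ ν = ‖φ‖ := by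
  set w := (InnerProductSpace.toDual ℝ V).symm φ with hw
  have hwn : ‖w‖ = ‖φ‖ := by simp [hw]
  have hw0 : ‖w‖ ≠ 0 := by rw [hwn]; exact norm_ne_zero_iff.2 hφ
  refine ⟨‖w‖⁻¹ • w, ?_, ?_⟩
  · rw [norm_smul, norm_inv, norm_norm, inv_mul_cancel₀ hw0]
  · have : φ w = ‖w‖ * ‖w‖ := by
      rw [← real_inner_self_eq_norm_mul_norm, hw, InnerProductSpace.toDual_symm_apply]
    rw [map_smul, this, smul_eq_mul, ← hwn]
    field_simp

/-- the hyperplane orthogonal to `ν` -/
noncomputable abbrev Hyp (ν : V) : Submodule ℝ V := (ℝ ∙ ν)ᗮ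

omit [FiniteDimensional ℝ V] [MeasurableSpace V] [BorelSpace V] in
theorem proj_aux {ν : V} (hν : ‖ν‖ = 1) (t : ℝ) (y : Hyp ν) :
    (Hyp ν).orthogonalProjectionOnto (t • ν + (y : V)) = y ∧ inner ℝ ν (t • ν + (y : V)) = t := by
  have hν' : (Hyp ν).orthogonalProjectionOnto ν = 0 :=
    Submodule.orthogonalProjectionOnto_orthogonalComplement_singleton_eq_zero ν
  constructor
  · rw [map_add, map_smul, hν', smul_zero, zero_add, Submodule.orthogonalProjectionOnto_mem_subspace_eq_self]
  · have h1 : inner ℝ ν (y : V) = 0 := Submodule.mem_orthogonal_singleton_iff_inner_right.1 y.2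
    rw [inner_add_right, inner_smul_right, real_inner_self_eq_norm_sq, hν, h1]
    ring

omit [FiniteDimensional ℝ V] [MeasurableSpace V] [BorelSpace V] in
theorem decomp_aux {ν : V} (hν : ‖ν‖ = 1) (x : V) :
    (inner ℝ ν x) • ν + ((Hyp ν).orthogonalProjectionOnto x : V) = x := by
  have h := (ℝ ∙ ν).starProjection_add_starProjection_orthogonal x
  rw [Submodule.starProjection_unit_singleton ℝ hν] at h
  exact h

theorem local_bound (ρ : V → ℝ) (hρ : ContDiff ℝ 1 ρ) (p : V) (hp : ρ p = 0)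
    (hdp : fderiv ℝ ρ p ≠ 0) (δ : ℝ) (hδ : 0 < δ) :
    ∃ U : Set V, IsOpen U ∧ p ∈ U ∧ ∀ φ : V → ℝ, Continuous φ → (∀ x, 0 ≤ φ x) →
      HasCompactSupport φ → tsupport φ ⊆ U → ∀ η > 0, ∀ᶠ ε in 𝓝[>] (0 : ℝ),
      ∫⁻ x, ENNReal.ofReal (ε⁻¹ * chi' (-ρ x / ε) * φ x) ≤
        ENNReal.ofReal (1 + δ) * (∫⁻ x in {x | ρ x = 0},
          ENNReal.ofReal (φ x / ‖fderiv ℝ ρ x‖) ∂(μHE[finrank ℝ V - 1] : Measure V)) +
        ENNReal.ofReal η := by
  obtain ⟨ν, hν, hνG⟩ := exists_unit hdp
  set G := ‖fderiv ℝ ρ p‖ with hG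
  have hG0 : 0 < G := norm_pos_iff.2 hdp
  have hcont : Continuous (fderiv ℝ ρ) := hρ.continuous_fderiv one_ne_zero
  -- choose a
  obtain ⟨a, ha1, ha2⟩ : ∃ a, G / (1 + δ) < a ∧ a < G :=
    exists_between (by rw [div_lt_iff₀ (by linarith)]; nlinarith)
  have ha : 0 < a := lt_trans (by positivity) ha1
  have haG : G < (1 + δ) * a := by
    rw [div_lt_iff₀ (by linarith)] at ha1; linarith
  have hWo : IsOpen {x | a < fderiv ℝ ρ x ν ∧ ‖fderiv ℝ ρ x‖ < (1 + δ) * a} := by
    exact (isOpen_lt continuous_const (hcont.clm_apply continuous_const)).inter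
      (isOpen_lt hcont.norm continuous_const)
  have hpW : p ∈ {x | a < fderiv ℝ ρ x ν ∧ ‖fderiv ℝ ρ x‖ < (1 + δ) * a} := ⟨by rw [hνG]; exact ha2, haG⟩
  obtain ⟨R, hR, hball⟩ := Metric.isOpen_iff.1 hWo p hpW
  set r := R / 3 with hr
  have hr0 : 0 < r := by positivity
  -- points of the cylinder are in the ball
  have hcyl : ∀ (t : ℝ) (y : Hyp ν), |t| ≤ r → ‖y‖ ≤ r →
      a < fderiv ℝ ρ (p + (t • ν + y)) ν ∧ ‖fderiv ℝ ρ (p + (t • ν + y))‖ < (1 + δ) * a := by
    intro t y ht hy
    apply hball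
    rw [Metric.mem_ball, dist_eq_norm, add_sub_cancel_left]
    calc ‖t • ν + (y : V)‖ ≤ ‖t • ν‖ + ‖(y : V)‖ := norm_add_le _ _
      _ = |t| + ‖y‖ := by rw [norm_smul, hν, mul_one, Real.norm_eq_abs]; rfl
      _ ≤ r + r := add_le_add ht hy
      _ < R := by rw [hr]; linarith
  -- derivative along lines
  have hder : ∀ (y : V) (t : ℝ), HasDerivAt (fun t : ℝ => ρ (p + (t • ν + y)))
      (fderiv ℝ ρ (p + (t • ν + y)) ν) t := by
    intro y t
    have h1 : HasDerivAt (fun t : ℝ => p + (t • ν + y)) ν t := by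
      have := (((hasDerivAt_id t).smul_const ν).add_const y).const_add p
      simpa using this
    exact ((hρ.differentiable one_ne_zero _).hasFDerivAt).comp_hasDerivAt t h1
  have hdc : ∀ y : V, Continuous fun t : ℝ => fderiv ℝ ρ (p + (t • ν + y)) ν := by
    intro y
    exact (hcont.comp (by fun_prop : Continuous fun t : ℝ => p + (t • ν + y))).clm_apply
      continuous_const
  have hmono : ∀ y : Hyp ν, ‖y‖ ≤ r → ∀ t₁ t₂ : ℝ, t₁ ∈ Icc (-r) r → t₂ ∈ Icc (-r) r → t₁ ≤ t₂ →
      a * (t₂ - t₁) ≤ ρ (p + (t₂ • ν + y)) - ρ (p + (t₁ • ν + y)) := by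
    intro y hy t₁ t₂ h1 h2 h12
    apply (convex_Icc (-r) r).mul_sub_le_image_sub_of_le_deriv
      (f := fun t : ℝ => ρ (p + (t • ν + y))) _ _ _ t₁ h1 t₂ h2 h12
    · exact fun t _ => (hder y t).continuousAt.continuousWithinAt
    · exact fun t _ => (hder y t).differentiableAt.differentiableWithinAt
    · intro t ht
      rw [(hder y t).deriv]
      have ht' : t ∈ Icc (-r) r := interior_subset ht
      exact (hcyl t y (abs_le.2 ht') hy).1.le
  -- signs at the ends
  have hend : ∃ r' > 0, r' ≤ r ∧ ∀ y : Hyp ν, ‖y‖ < r' →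
      0 < ρ (p + (r • ν + y)) ∧ ρ (p + ((-r) • ν + y)) < 0 := by
    have h0 : ρ (p + ((0 : ℝ) • ν + ((0 : Hyp ν) : V))) = 0 := by simp [hp]
    have h1 := hmono 0 (by simpa using hr0.le) 0 r ⟨by linarith, hr0.le⟩ ⟨by linarith, le_rfl⟩ hr0.le
    have h2 := hmono 0 (by simpa using hr0.le) (-r) 0 ⟨le_rfl, by linarith⟩ ⟨by linarith, hr0.le⟩ (by linarith)
    rw [h0] at h1 h2
    have h1' : 0 < ρ (p + (r • ν + ((0 : Hyp ν) : V))) := by nlinarith
    have h2' : ρ (p + ((-r) • ν + ((0 : Hyp ν) : V))) < 0 := by nlinarith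
    have hc1 : Continuous fun y : Hyp ν => ρ (p + (r • ν + y)) :=
      hρ.continuous.comp (by fun_prop)
    have hc2 : Continuous fun y : Hyp ν => ρ (p + ((-r) • ν + y)) :=
      hρ.continuous.comp (by fun_prop)
    have hev : ∀ᶠ y : Hyp ν in 𝓝 0, 0 < ρ (p + (r • ν + y)) ∧ ρ (p + ((-r) • ν + y)) < 0 :=
      (hc1.continuousAt.eventually (lt_mem_nhds h1')).and
        (hc2.continuousAt.eventually (gt_mem_nhds h2'))
    obtain ⟨r', hr', hr'2⟩ := Metric.eventually_nhds_iff.1 hev
    refine ⟨min r' r, lt_min hr' hr0, min_le_right _ _, fun y hy => hr'2 ?_⟩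
    rw [dist_zero_right]
    exact lt_of_lt_of_le hy (min_le_left _ _)
  obtain ⟨r', hr'0, hr'r, hsign⟩ := hend
  have hzero : ∀ y : Hyp ν, ∃ t : ℝ, ‖y‖ < r' → t ∈ Ioo (-r) r ∧ ρ (p + (t • ν + y)) = 0 := by
    intro y
    by_cases hy : ‖y‖ < r'
    · have hc : ContinuousOn (fun t : ℝ => ρ (p + (t • ν + y))) (Icc (-r) r) :=
        fun t _ => (hder y t).continuousAt.continuousWithinAt
      obtain ⟨t, ht, ht0⟩ := intermediate_value_Ioo (by linarith : -r ≤ r) hc
        ⟨(hsign y hy).2, (hsign y hy).1⟩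
      exact ⟨t, fun _ => ⟨ht, ht0⟩⟩
    · exact ⟨0, fun h => absurd h hy⟩
  choose τ hτ using hzero
  set P : V → Hyp ν := fun x => (Hyp ν).orthogonalProjectionOnto (x - p) with hP
  set U : Set V := {x | |inner ℝ ν (x - p)| < r ∧ ‖P x‖ < r'} with hU
  have hPc : Continuous P := by fun_prop
  have hUo : IsOpen U := by
    have h1 : Continuous fun x : V => |inner ℝ ν (x - p)| := by fun_prop
    exact (isOpen_lt h1 continuous_const).inter (isOpen_lt hPc.norm continuous_const)
  refine ⟨U, hUo, ?_, ?_⟩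
  · simp [hU, hP, hr0, hr'0]
  intro φ hφc hφ0 hφs hφU η hη
  -- the height function on U
  have hmemU : ∀ (t : ℝ) (y : Hyp ν), p + (t • ν + (y : V)) ∈ U ↔ |t| < r ∧ ‖y‖ < r' := by
    intro t y
    have h := proj_aux hν t y
    simp only [hU, hP, mem_ofPred_eq, add_sub_cancel_left, h.1, h.2]
  have hφ_out : ∀ (t : ℝ) (y : Hyp ν), ¬ (|t| < r ∧ ‖y‖ < r') → φ (p + (t • ν + (y : V))) = 0 := by
    intro t y h
    by_contra hne
    exact h ((hmemU t y).1 (hφU (subset_tsupport φ hne)))
  have huniq : ∀ (y : Hyp ν), ‖y‖ < r' → ∀ t : ℝ, |t| ≤ r → ρ (p + (t • ν + (y : V))) = 0 →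
      t = τ y := by
    intro y hy t ht h0
    obtain ⟨hτ1, hτ2⟩ := hτ y hy
    have hτ1' : τ y ∈ Icc (-r) r := Ioo_subset_Icc_self hτ1
    have ht' : t ∈ Icc (-r) r := abs_le.1 ht
    rcases le_total t (τ y) with h | h
    · have := hmono y (hy.le.trans hr'r) t (τ y) ht' hτ1' h
      rw [h0, hτ2] at this
      nlinarith
    · have := hmono y (hy.le.trans hr'r) (τ y) t hτ1' ht' h
      rw [h0, hτ2] at this
      nlinarith
  set q : Hyp ν → V := fun y => p + (τ y • ν + (y : V)) with hq
  set B : Set (Hyp ν) := Metric.ball 0 r' with hB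
  -- error size
  set vB : ℝ := (volume B).toReal with hvB
  have hvB0 : 0 ≤ vB := ENNReal.toReal_nonneg
  set η₁ : ℝ := η * a / (vB + 1) with hη₁
  have hη₁0 : 0 < η₁ := by positivity
  have huc : UniformContinuous φ := hφs.uniformContinuous_of_continuous hφc
  obtain ⟨d, hd, hdφ⟩ := Metric.uniformContinuous_iff.1 huc η₁ hη₁0
  have hev : ∀ᶠ ε in 𝓝[>] (0 : ℝ), ε < a * d ∧ 0 < ε := by
    have h1 : ∀ᶠ ε in 𝓝[>] (0 : ℝ), ε < a * d :=
      (eventually_lt_nhds (by positivity)).filter_mono nhdsWithin_le_nhds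
    exact h1.and self_mem_nhdsWithin
  filter_upwards [hev] with ε hε
  obtain ⟨hεd, hε0⟩ := hε
  -- inner estimate
  have hinner : ∀ y : Hyp ν, ∫⁻ t : ℝ, ENNReal.ofReal (ε⁻¹ *
      chi' (-ρ (p + (t • ν + (y : V))) / ε) * φ (p + (t • ν + (y : V)))) ≤
      B.indicator (fun y => ENNReal.ofReal (1 / a) * ENNReal.ofReal (φ (q y)) +
        ENNReal.ofReal (η₁ / a)) y := by
    intro y
    by_cases hy : ‖y‖ < r'
    · have hyB : y ∈ B := by simpa [hB] using hy
      rw [indicator_of_mem hyB]
      obtain ⟨hτ1, hτ2⟩ := hτ y hy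
      have hτ1' : τ y ∈ Icc (-r) r := Ioo_subset_Icc_self hτ1
      have hφq : 0 ≤ φ (q y) + η₁ := add_nonneg (hφ0 _) hη₁0.le
      have hpt : ∀ t : ℝ, ENNReal.ofReal (ε⁻¹ *
          chi' (-ρ (p + (t • ν + (y : V))) / ε) * φ (p + (t • ν + (y : V)))) ≤
          (Icc (-r) r).indicator (fun t => ENNReal.ofReal ((φ (q y) + η₁) *
            (ε⁻¹ * chi' (-ρ (p + (t • ν + (y : V))) / ε)))) t := by
        intro t
        by_cases ht : t ∈ Icc (-r) r
        · rw [indicator_of_mem ht]
          apply ENNReal.ofReal_le_ofReal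
          rw [mul_comm]
          have hchi : 0 ≤ ε⁻¹ * chi' (-ρ (p + (t • ν + (y : V))) / ε) :=
            mul_nonneg (inv_nonneg.2 hε0.le) (chi'_nonneg _)
          by_cases hz : chi' (-ρ (p + (t • ν + (y : V))) / ε) = 0
          · simp [hz]
          · apply mul_le_mul_of_nonneg_right _ hchi
            have h1 : 0 ≤ -ρ (p + (t • ν + (y : V))) / ε := by
              by_contra h; exact hz (chi'_eq_zero_of_lt (not_le.1 h))
            have h2 : -ρ (p + (t • ν + (y : V))) / ε ≤ 1 := by
              by_contra h; exact hz (chi'_eq_zero_of_gt (not_le.1 h))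
            have h3 : ρ (p + (t • ν + (y : V))) ≤ 0 := by
              have := mul_nonneg h1 hε0.le
              rw [div_mul_cancel₀ _ hε0.ne'] at this
              linarith
            have h4 : -ε ≤ ρ (p + (t • ν + (y : V))) := by
              rw [div_le_one hε0] at h2; linarith
            have h5 : |t - τ y| < d := by
              rcases le_total t (τ y) with h | h
              · have := hmono y (hy.le.trans hr'r) t (τ y) ht hτ1' h
                rw [hτ2] at this
                rw [abs_of_nonpos (by linarith)]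
                by_contra hcon
                have : a * d ≤ a * (τ y - t) := mul_le_mul_of_nonneg_left (by linarith) ha.le
                linarith
              · have := hmono y (hy.le.trans hr'r) (τ y) t hτ1' ht h
                rw [hτ2] at this
                rw [abs_of_nonneg (by linarith)]
                by_contra hcon
                have : a * d ≤ a * (t - τ y) := mul_le_mul_of_nonneg_left (by linarith) ha.le
                linarith
            have h6 : dist (p + (t • ν + (y : V))) (q y) < d := by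
              rw [hq, dist_eq_norm]
              have : p + (t • ν + (y : V)) - (p + (τ y • ν + (y : V))) = (t - τ y) • ν := by
                rw [sub_smul]; abel
              rw [this, norm_smul, hν, mul_one, Real.norm_eq_abs]
              exact h5
            have h7 := hdφ h6
            rw [Real.dist_eq] at h7
            linarith [(abs_lt.1 h7).2]
        · rw [indicator_of_notMem ht, hφ_out t y]
          · simp
          · intro h
            exact ht (abs_le.1 h.1.le)
      calc ∫⁻ t : ℝ, ENNReal.ofReal (ε⁻¹ *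
            chi' (-ρ (p + (t • ν + (y : V))) / ε) * φ (p + (t • ν + (y : V))))
          ≤ ∫⁻ t in Icc (-r) r, ENNReal.ofReal ((φ (q y) + η₁) *
            (ε⁻¹ * chi' (-ρ (p + (t • ν + (y : V))) / ε))) := by
            rw [← lintegral_indicator measurableSet_Icc]
            exact lintegral_mono hpt
        _ = ENNReal.ofReal (∫ t in Icc (-r) r, (φ (q y) + η₁) *
            (ε⁻¹ * chi' (-ρ (p + (t • ν + (y : V))) / ε))) := by
            rw [ofReal_integral_eq_lintegral_ofReal]
            · apply Continuous.integrableOn_Icc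
              have h1 : Continuous fun t : ℝ => ρ (p + (t • ν + (y : V))) :=
                hρ.continuous.comp (by fun_prop)
              exact continuous_const.mul (continuous_const.mul
                (continuous_chi'.comp (h1.neg.div_const ε)))
            · exact ae_of_all _ fun t => mul_nonneg hφq
                (mul_nonneg (inv_nonneg.2 hε0.le) (chi'_nonneg _))
        _ ≤ ENNReal.ofReal ((φ (q y) + η₁) * (1 / a)) := by
            apply ENNReal.ofReal_le_ofReal
            rw [integral_const_mul]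
            apply mul_le_mul_of_nonneg_left _ hφq
            rw [integral_Icc_eq_integral_Ioc, ← intervalIntegral.integral_of_le (by linarith)]
            exact one_dim (hder y) (hdc y) (by linarith) ha hε0
              fun t ht => (hcyl t y (abs_le.2 ht) (hy.le.trans hr'r)).1.le
        _ = ENNReal.ofReal (1 / a) * ENNReal.ofReal (φ (q y)) + ENNReal.ofReal (η₁ / a) := by
            rw [← ENNReal.ofReal_mul (by positivity), ← ENNReal.ofReal_add (by
              have := hφ0 (q y); positivity) (by positivity)]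
            congr 1; ring
    · have hyB : y ∉ B := by simpa [hB] using hy
      rw [indicator_of_notMem hyB]
      have : ∀ t : ℝ, φ (p + (t • ν + (y : V))) = 0 := fun t => hφ_out t y fun h => hy h.2
      simp [this]
  -- comparison of measures
  set K : Set V := {x | ρ x = 0} with hK
  have hKc : IsClosed K := isClosed_eq hρ.continuous continuous_const
  have hKU : MeasurableSet (K ∩ U) := hKc.measurableSet.inter hUo.measurableSet
  have hPm : Measurable P := hPc.measurable
  have hqU : ∀ y ∈ B, q y ∈ K ∩ U ∧ P (q y) = y := by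
    intro y hy
    have hy' : ‖y‖ < r' := by simpa [hB] using hy
    obtain ⟨hτ1, hτ2⟩ := hτ y hy'
    refine ⟨⟨hτ2, (hmemU _ _).2 ⟨abs_lt.2 hτ1, hy'⟩⟩, ?_⟩
    simp only [hP, hq, add_sub_cancel_left]
    exact (proj_aux hν _ _).1
  have hqP : ∀ x ∈ K ∩ U, q (P x) = x := by
    intro x hx
    have hx2 := hx.2
    have hdec := decomp_aux hν (x - p)
    have hx' : x = p + (inner ℝ ν (x - p) • ν + (P x : V)) := by
      simp only [hP]; rw [hdec]; abel
    have hx3 : |inner ℝ ν (x - p)| < r ∧ ‖P x‖ < r' := hx2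
    have h0 : ρ (p + (inner ℝ ν (x - p) • ν + (P x : V))) = 0 := by
      rw [← hx']; exact hx.1
    have := huniq (P x) hx3.2 _ hx3.1.le h0
    simp only [hq]
    rw [← this]
    exact hx'.symm
  have hfr : finrank ℝ (Hyp ν) = finrank ℝ V - 1 := by
    have h1 : finrank ℝ (ℝ ∙ ν) + finrank ℝ (Hyp ν) = finrank ℝ V :=
      (ℝ ∙ ν).finrank_add_finrank_orthogonal
    have h2 : finrank ℝ (ℝ ∙ ν) = 1 := finrank_span_singleton (by
      intro h; rw [h, norm_zero] at hν; exact one_ne_zero hν.symm)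
    rw [h2] at h1
    omega
  have hLip : LipschitzWith 1 P := by
    have h1 : LipschitzWith 1 fun x : V => x - p := by
      apply LipschitzWith.of_dist_le_mul
      intro x y
      simp
    have h2 := (Hyp ν).lipschitzWith_orthogonalProjectionOnto.comp h1
    rw [one_mul] at h2
    exact h2
  have himage : ∀ S : Set V, (volume (P '' S) : ℝ≥0∞) ≤ (μHE[finrank ℝ V - 1] : Measure V) S := by
    intro S
    rw [← InnerProductSpace.euclideanHausdorffMeasure_eq_volume, hfr,
      Measure.euclideanHausdorffMeasure_def, Measure.euclideanHausdorffMeasure_def,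
      Measure.smul_apply, Measure.smul_apply]
    have := hLip.hausdorffMeasure_image_le (d := ((finrank ℝ V - 1 : ℕ) : ℝ)) (by positivity) S
    simp only [ENNReal.coe_one, ENNReal.one_rpow, one_mul] at this
    gcongr
  have hmeas : (volume.restrict B : Measure (Hyp ν)) ≤
      ((μHE[finrank ℝ V - 1] : Measure V).restrict (K ∩ U)).map P := by
    rw [Measure.le_iff]
    intro A hA
    rw [Measure.restrict_apply hA, Measure.map_apply hPm hA, Measure.restrict_apply (hPm hA)]
    refine le_trans (measure_mono ?_) (himage _)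
    rintro y ⟨hyA, hyB⟩
    obtain ⟨h1, h2⟩ := hqU y hyB
    refine ⟨q y, ⟨?_, h1⟩, h2⟩
    rw [mem_preimage, h2]; exact hyA
  have hcomp : ∫⁻ y in B, ENNReal.ofReal (φ (q y)) ≤
      ∫⁻ x in K ∩ U, ENNReal.ofReal (φ x) ∂(μHE[finrank ℝ V - 1] : Measure V) := by
    calc ∫⁻ y in B, ENNReal.ofReal (φ (q y))
        ≤ ∫⁻ y, ENNReal.ofReal (φ (q y)) ∂(((μHE[finrank ℝ V - 1] : Measure V).restrict (K ∩ U)).map P) :=
          lintegral_mono' hmeas le_rfl
      _ ≤ ∫⁻ x in K ∩ U, ENNReal.ofReal (φ (q (P x))) ∂(μHE[finrank ℝ V - 1] : Measure V) :=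
          lintegral_map_le _ _
      _ = ∫⁻ x in K ∩ U, ENNReal.ofReal (φ x) ∂(μHE[finrank ℝ V - 1] : Measure V) := by
          apply setLIntegral_congr_fun hKU
          intro x hx
          simp only [hqP x hx]
  have hGm : Measurable fun x : V => ENNReal.ofReal (ε⁻¹ * chi' (-ρ x / ε) * φ x) := by
    apply ENNReal.measurable_ofReal.comp
    apply Continuous.measurable
    exact (continuous_const.mul (continuous_chi'.comp (hρ.continuous.neg.div_const ε))).mul hφc
  calc ∫⁻ x, ENNReal.ofReal (ε⁻¹ * chi' (-ρ x / ε) * φ x)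
      = ∫⁻ x, ENNReal.ofReal (ε⁻¹ * chi' (-ρ (p + x) / ε) * φ (p + x)) :=
        (lintegral_add_left_eq_self (fun x => ENNReal.ofReal (ε⁻¹ * chi' (-ρ x / ε) * φ x)) p).symm
    _ = ∫⁻ y : Hyp ν, ∫⁻ t : ℝ, ENNReal.ofReal (ε⁻¹ *
          chi' (-ρ (p + (t • ν + (y : V))) / ε) * φ (p + (t • ν + (y : V)))) :=
        lintegral_line hν (fun x => ENNReal.ofReal (ε⁻¹ * chi' (-ρ (p + x) / ε) * φ (p + x)))
          (hGm.comp (measurable_const_add p))
    _ ≤ ∫⁻ y : Hyp ν, B.indicator (fun y => ENNReal.ofReal (1 / a) * ENNReal.ofReal (φ (q y)) +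
        ENNReal.ofReal (η₁ / a)) y := lintegral_mono hinner
    _ = ENNReal.ofReal (1 / a) * (∫⁻ y in B, ENNReal.ofReal (φ (q y))) +
        ENNReal.ofReal (η₁ / a) * volume B := by
        rw [lintegral_indicator Metric.isOpen_ball.measurableSet, lintegral_add_right _ measurable_const,
          lintegral_const_mul' _ _ ENNReal.ofReal_ne_top, lintegral_const, Measure.restrict_apply_univ]
    _ ≤ ENNReal.ofReal (1 + δ) * (∫⁻ x in K,
          ENNReal.ofReal (φ x / ‖fderiv ℝ ρ x‖) ∂(μHE[finrank ℝ V - 1] : Measure V)) +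
        ENNReal.ofReal η := by
        apply add_le_add
        · calc ENNReal.ofReal (1 / a) * (∫⁻ y in B, ENNReal.ofReal (φ (q y)))
              ≤ ENNReal.ofReal (1 / a) * ∫⁻ x in K ∩ U, ENNReal.ofReal (φ x)
                ∂(μHE[finrank ℝ V - 1] : Measure V) := by gcongr
            _ = ∫⁻ x in K ∩ U, ENNReal.ofReal (1 / a) * ENNReal.ofReal (φ x)
                ∂(μHE[finrank ℝ V - 1] : Measure V) :=
                (lintegral_const_mul' _ _ ENNReal.ofReal_ne_top).symm
            _ ≤ ∫⁻ x in K ∩ U, ENNReal.ofReal (1 + δ) * ENNReal.ofReal (φ x / ‖fderiv ℝ ρ x‖)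
                ∂(μHE[finrank ℝ V - 1] : Measure V) := by
                apply setLIntegral_mono' hKU
                intro x hx
                rw [← ENNReal.ofReal_mul (by positivity), ← ENNReal.ofReal_mul (by positivity)]
                apply ENNReal.ofReal_le_ofReal
                have hx2 : |inner ℝ ν (x - p)| < r ∧ ‖P x‖ < r' := hx.2
                have hx' : x = p + (inner ℝ ν (x - p) • ν + (P x : V)) := by
                  simp only [hP]; rw [decomp_aux hν (x - p)]; abel
                have h1 := hcyl (inner ℝ ν (x - p)) (P x) hx2.1.le (hx2.2.le.trans hr'r)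
                rw [← hx'] at h1
                have h2 : 0 < ‖fderiv ℝ ρ x‖ := by
                  rw [norm_pos_iff]
                  intro h0
                  rw [h0] at h1
                  simp at h1
                  linarith [h1.1]
                have h3 : 1 / a ≤ (1 + δ) / ‖fderiv ℝ ρ x‖ := by
                  rw [div_le_div_iff₀ ha h2]
                  linarith [h1.2]
                calc 1 / a * φ x ≤ (1 + δ) / ‖fderiv ℝ ρ x‖ * φ x :=
                      mul_le_mul_of_nonneg_right h3 (hφ0 x)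
                  _ = (1 + δ) * (φ x / ‖fderiv ℝ ρ x‖) := by ring
            _ = ENNReal.ofReal (1 + δ) * ∫⁻ x in K ∩ U, ENNReal.ofReal (φ x / ‖fderiv ℝ ρ x‖)
                ∂(μHE[finrank ℝ V - 1] : Measure V) := lintegral_const_mul' _ _ ENNReal.ofReal_ne_top
            _ ≤ _ := by
                gcongr
                exact inter_subset_left
        · have hvBt : volume B ≠ ⊤ := measure_ball_lt_top.ne
          rw [← ENNReal.ofReal_toReal hvBt, ← ENNReal.ofReal_mul (by positivity)]
          apply ENNReal.ofReal_le_ofReal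
          rw [← hvB, hη₁]
          have : η * a / (vB + 1) / a * vB = η * (vB / (vB + 1)) := by field_simp
          rw [this]
          have h5 : vB / (vB + 1) ≤ 1 := by rw [div_le_one (by positivity)]; linarith
          nlinarith


omit [FiniteDimensional ℝ V] [MeasurableSpace V] [BorelSpace V] in
theorem zero_subset_closure {ρ : V → ℝ} (hreg : ∀ x, ρ x = 0 → fderiv ℝ ρ x ≠ 0) :
    {x | ρ x = 0} ⊆ closure {x | ρ x < 0} := by
  intro x hx
  by_contra hcl
  apply hreg x hx
  apply IsLocalMin.fderiv_eq_zero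
  have h1 : (closure {x | ρ x < 0})ᶜ ∈ 𝓝 x := isClosed_closure.isOpen_compl.mem_nhds hcl
  filter_upwards [h1] with y hy
  have hy2 : ¬ ρ y < 0 := fun h => hy (subset_closure h)
  have hx' : ρ x = 0 := hx
  rw [hx']
  exact not_lt.1 hy2

theorem coarea_limsup (ρ : V → ℝ) (hρ : ContDiff ℝ 1 ρ) (hbdd : Bornology.IsBounded {x | ρ x < 0})
    (hreg : ∀ x, ρ x = 0 → fderiv ℝ ρ x ≠ 0) (h : V → ℝ) (hh : Continuous h)
    (hh0 : ∀ x, 0 ≤ h x) (η : ℝ) (hη : 0 < η) :
    ∀ᶠ ε in 𝓝[>] (0 : ℝ), ∫⁻ x, ENNReal.ofReal (ε⁻¹ * chi' (-ρ x / ε) * h x) ≤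
        (∫⁻ x in {x | ρ x = 0},
          ENNReal.ofReal (h x / ‖fderiv ℝ ρ x‖) ∂(μHE[finrank ℝ V - 1] : Measure V)) +
        ENNReal.ofReal η := by
  set K : Set V := {x | ρ x = 0} with hK
  set Ω : Set V := {x | ρ x < 0} with hΩ
  set A : ℝ≥0∞ := ∫⁻ x in K, ENNReal.ofReal (h x / ‖fderiv ℝ ρ x‖)
    ∂(μHE[finrank ℝ V - 1] : Measure V) with hA
  by_cases hAt : A = ⊤
  · rw [hAt]; simp
  have hcont : Continuous (fderiv ℝ ρ) := hρ.continuous_fderiv one_ne_zero
  have hKclosed : IsClosed K := isClosed_eq hρ.continuous continuous_const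
  have hKcl : K ⊆ closure Ω := zero_subset_closure hreg
  have hclc : IsCompact (closure Ω) := hbdd.isCompact_closure
  have hKcomp : IsCompact K := hclc.of_isClosed_subset hKclosed hKcl
  have hclle : ∀ x ∈ closure Ω, ρ x ≤ 0 := by
    intro x hx
    exact closure_minimal (fun y hy => le_of_lt hy) (isClosed_le hρ.continuous continuous_const) hx
  -- δ
  set δ : ℝ := η / (2 * (A.toReal + 1)) with hδ
  have hA0 : 0 ≤ A.toReal := ENNReal.toReal_nonneg
  have hδ0 : 0 < δ := by positivity
  have hloc : ∀ p : K, ∃ U : Set V, IsOpen U ∧ (p : V) ∈ U ∧ ∀ φ : V → ℝ, Continuous φ →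
      (∀ x, 0 ≤ φ x) → HasCompactSupport φ → tsupport φ ⊆ U → ∀ η > 0, ∀ᶠ ε in 𝓝[>] (0 : ℝ),
      ∫⁻ x, ENNReal.ofReal (ε⁻¹ * chi' (-ρ x / ε) * φ x) ≤
        ENNReal.ofReal (1 + δ) * (∫⁻ x in {x | ρ x = 0},
          ENNReal.ofReal (φ x / ‖fderiv ℝ ρ x‖) ∂(μHE[finrank ℝ V - 1] : Measure V)) +
        ENNReal.ofReal η := fun p => local_bound ρ hρ p p.2 (hreg p p.2) δ hδ0
  choose U hUo hpU hU using hloc
  obtain ⟨t, ht⟩ := hKcomp.elim_finite_subcover U hUo
    (fun x hx => mem_iUnion.2 ⟨⟨x, hx⟩, hpU ⟨x, hx⟩⟩)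
  set N := t.card with hN
  set eqv := t.equivFin.symm with heqv
  set W : Fin N → Set V := fun i => U (eqv i) with hW
  have hWo : ∀ i, IsOpen (W i) := fun i => hUo _
  have hKW : K ⊆ ⋃ i, W i := by
    intro x hx
    obtain ⟨p, hp, hxp⟩ := mem_iUnion₂.1 (ht hx)
    refine mem_iUnion.2 ⟨t.equivFin ⟨p, hp⟩, ?_⟩
    simp only [hW, heqv, Equiv.symm_apply_apply]
    exact hxp
  obtain ⟨K', hK'c, hKK', hK'W⟩ := exists_compact_between hKcomp (isOpen_iUnion hWo) hKW
  obtain ⟨f, hfs, hf1, hf01, hfc⟩ := exists_continuous_sum_one_of_isOpen_isCompact hWo hK'c hK'W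
  -- small ε: support in K'
  obtain ⟨ε₀, hε₀, hε₀K⟩ : ∃ ε₀ > 0, ∀ x, x ∉ K' → ρ x ≤ 0 → ρ x ≤ -ε₀ := by
    have hc : IsCompact (closure Ω \ interior K') := hclc.diff isOpen_interior
    rcases (closure Ω \ interior K').eq_empty_or_nonempty with he | hne
    · refine ⟨1, one_pos, fun x hx hx0 => ?_⟩
      exfalso
      have hxcl : x ∈ closure Ω := by
        rcases lt_or_eq_of_le hx0 with h' | h'
        · exact subset_closure h'
        · exact hKcl h'
      have : x ∈ closure Ω \ interior K' := ⟨hxcl, fun hi => hx (interior_subset hi)⟩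
      rw [he] at this
      exact this
    · obtain ⟨z, hz, hzmax⟩ := hc.exists_isMaxOn hne hρ.continuous.continuousOn
      have hz0 : ρ z < 0 := by
        rcases lt_or_eq_of_le (hclle z hz.1) with h' | h'
        · exact h'
        · exact absurd (hKK' h') hz.2
      refine ⟨-ρ z, by linarith, fun x hx hx0 => ?_⟩
      have hxcl : x ∈ closure Ω := by
        rcases lt_or_eq_of_le hx0 with h' | h'
        · exact subset_closure h'
        · exact hKcl h'
      have : x ∈ closure Ω \ interior K' := ⟨hxcl, fun hi => hx (interior_subset hi)⟩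
      have := hzmax this
      simp only [mem_ofPred_eq] at this
      linarith
  set φ : Fin N → V → ℝ := fun i x => h x * f i x with hφ
  have hφc : ∀ i, Continuous (φ i) := fun i => hh.mul (f i).continuous
  have hφ0 : ∀ i x, 0 ≤ φ i x := fun i x => mul_nonneg (hh0 x) (hf01 i x).1
  have hφcs : ∀ i, HasCompactSupport (φ i) := fun i => (hfc i).mul_left
  have hφts : ∀ i, tsupport (φ i) ⊆ W i := fun i =>
    (tsupport_mul_subset_right (f := h) (g := f i)).trans (hfs i)
  obtain ⟨η', hη'0, hη'⟩ : ∃ η' : ℝ, 0 < η' ∧ (N : ℝ) * η' ≤ η / 2 := by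
    have hN0 : (0 : ℝ) ≤ (N : ℝ) := Nat.cast_nonneg N
    generalize (N : ℝ) = Nr at hN0
    refine ⟨η / (2 * (Nr + 1)), by positivity, ?_⟩
    have : Nr * (η / (2 * (Nr + 1))) = η / 2 * (Nr / (Nr + 1)) := by field_simp
    rw [this]
    have h5 : Nr / (Nr + 1) ≤ 1 := by rw [div_le_one (by positivity)]; linarith
    nlinarith
  have hev : ∀ᶠ ε in 𝓝[>] (0 : ℝ), ∀ i : Fin N,
      ∫⁻ x, ENNReal.ofReal (ε⁻¹ * chi' (-ρ x / ε) * φ i x) ≤
        ENNReal.ofReal (1 + δ) * (∫⁻ x in {x | ρ x = 0},
          ENNReal.ofReal (φ i x / ‖fderiv ℝ ρ x‖) ∂(μHE[finrank ℝ V - 1] : Measure V)) +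
        ENNReal.ofReal η' := by
    rw [eventually_all]
    intro i
    exact hU (eqv i) (φ i) (hφc i) (hφ0 i) (hφcs i) (hφts i) _ hη'0
  have hev2 : ∀ᶠ ε in 𝓝[>] (0 : ℝ), ε < ε₀ ∧ 0 < ε := by
    have h1 : ∀ᶠ ε in 𝓝[>] (0 : ℝ), ε < ε₀ :=
      (eventually_lt_nhds hε₀).filter_mono nhdsWithin_le_nhds
    exact h1.and self_mem_nhdsWithin
  filter_upwards [hev, hev2] with ε hε hε2
  obtain ⟨hεε₀, hε0⟩ := hε2
  have hsum : ∀ x, ENNReal.ofReal (ε⁻¹ * chi' (-ρ x / ε) * h x) =
      ∑ i, ENNReal.ofReal (ε⁻¹ * chi' (-ρ x / ε) * φ i x) := by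
    intro x
    have hchi : 0 ≤ ε⁻¹ * chi' (-ρ x / ε) :=
      mul_nonneg (inv_nonneg.2 hε0.le) (chi'_nonneg _)
    rw [← ENNReal.ofReal_sum_of_nonneg (fun i _ => mul_nonneg hchi (hφ0 i x)), ← Finset.mul_sum]
    by_cases hz : chi' (-ρ x / ε) = 0
    · simp [hz]
    · have h1 : 0 ≤ -ρ x / ε := by
        by_contra h; exact hz (chi'_eq_zero_of_lt (not_le.1 h))
      have h2 : -ρ x / ε ≤ 1 := by
        by_contra h; exact hz (chi'_eq_zero_of_gt (not_le.1 h))
      have h3 : ρ x ≤ 0 := by
        have := mul_nonneg h1 hε0.le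
        rw [div_mul_cancel₀ _ hε0.ne'] at this
        linarith
      have h4 : -ε ≤ ρ x := by
        rw [div_le_one hε0] at h2; linarith
      have hxK : x ∈ K' := by
        by_contra hx
        have := hε₀K x hx h3
        linarith
      have h5 := hf1 hxK
      simp only [Finset.sum_apply, Pi.one_apply] at h5
      have h6 : ∑ i, φ i x = h x := by
        simp only [hφ]
        rw [← Finset.mul_sum]
        have : ∑ i, (f i) x = 1 := by simpa using h5
        rw [this, mul_one]
      rw [h6]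
  have hmeas : ∀ i, Measurable fun x => ENNReal.ofReal (ε⁻¹ * chi' (-ρ x / ε) * φ i x) := by
    intro i
    apply ENNReal.measurable_ofReal.comp
    apply Continuous.measurable
    exact (continuous_const.mul (continuous_chi'.comp (hρ.continuous.neg.div_const ε))).mul (hφc i)
  calc ∫⁻ x, ENNReal.ofReal (ε⁻¹ * chi' (-ρ x / ε) * h x)
      = ∫⁻ x, ∑ i, ENNReal.ofReal (ε⁻¹ * chi' (-ρ x / ε) * φ i x) := lintegral_congr hsum
    _ = ∑ i, ∫⁻ x, ENNReal.ofReal (ε⁻¹ * chi' (-ρ x / ε) * φ i x) :=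
        lintegral_finsetSum _ fun i _ => hmeas i
    _ ≤ ∑ i, (ENNReal.ofReal (1 + δ) * (∫⁻ x in K,
          ENNReal.ofReal (φ i x / ‖fderiv ℝ ρ x‖) ∂(μHE[finrank ℝ V - 1] : Measure V)) +
        ENNReal.ofReal η') := Finset.sum_le_sum fun i _ => hε i
    _ = ENNReal.ofReal (1 + δ) * (∑ i, ∫⁻ x in K,
          ENNReal.ofReal (φ i x / ‖fderiv ℝ ρ x‖) ∂(μHE[finrank ℝ V - 1] : Measure V)) +
        N * ENNReal.ofReal η' := by
        rw [Finset.sum_add_distrib, Finset.mul_sum]
        simp
    _ = ENNReal.ofReal (1 + δ) * A + N * ENNReal.ofReal η' := by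
        congr 2
        rw [hA, ← lintegral_finsetSum]
        · apply setLIntegral_congr_fun hKclosed.measurableSet
          intro x hx
          have hxK : x ∈ K' := interior_subset (hKK' hx)
          have h5 := hf1 hxK
          simp only [Finset.sum_apply, Pi.one_apply] at h5
          have h7 : ∑ i, (f i) x = 1 := by simpa using h5
          simp only
          rw [← ENNReal.ofReal_sum_of_nonneg
            (fun i _ => div_nonneg (hφ0 i x) (norm_nonneg _)), ← Finset.sum_div]
          simp only [hφ]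
          rw [← Finset.mul_sum, h7, mul_one]
        · intro i _
          exact ENNReal.measurable_ofReal.comp ((hφc i).measurable.div hcont.norm.measurable)
    _ ≤ A + ENNReal.ofReal η := by
        have hAe : A = ENNReal.ofReal A.toReal := (ENNReal.ofReal_toReal hAt).symm
        have hNe : (N : ℝ≥0∞) = ENNReal.ofReal (N : ℝ) := by simp
        have hN0 : (0 : ℝ) ≤ (N : ℝ) := Nat.cast_nonneg N
        have h0 : 0 ≤ (1 + δ) * A.toReal := mul_nonneg (by linarith) hA0
        rw [hAe, hNe, ← ENNReal.ofReal_mul (by linarith), ← ENNReal.ofReal_mul hN0,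
          ← ENNReal.ofReal_add h0 (mul_nonneg hN0 hη'0.le),
          ← ENNReal.ofReal_add ENNReal.toReal_nonneg hη.le]
        apply ENNReal.ofReal_le_ofReal
        have h1 : δ * A.toReal ≤ η / 2 := by
          rw [hδ]
          have : η / (2 * (A.toReal + 1)) * A.toReal = η / 2 * (A.toReal / (A.toReal + 1)) := by
            field_simp
          rw [this]
          have h5 : A.toReal / (A.toReal + 1) ≤ 1 := by
            rw [div_le_one (by positivity)]; linarith
          nlinarith
        linarith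


end Vale.Agent.P219.Coarea
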