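import Vale.Agent.P219.FrameBasic
import Vale.Agent.P219.Coarea

open MeasureTheory Set Filter Topology
open scoped ENNReal ContDiff

namespace Vale.Agent.P219

variable {n : ℕ}

/-- Smooth functions increasing to the indicator function of a domain. -/
noncomputable def Feps (D : SmoothDomain n) (ε : ℝ) (x : E n) : ℝ :=
  Real.smoothTransition (-D.ρ x / ε)

theorem Feps_smooth (D : SmoothDomain n) (ε : ℝ) : ContDiff ℝ ∞ (Feps D ε) :=
  (Real.smoothTransition.contDiff (n := ⊤)).comp (D.smooth.neg.div_const ε)

theorem Feps_nonneg (D : SmoothDomain n) (ε : ℝ) (x : E n) : 0 ≤ Feps D ε x :=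
  Real.smoothTransition.nonneg _

theorem Feps_le_one (D : SmoothDomain n) (ε : ℝ) (x : E n) : Feps D ε x ≤ 1 :=
  Real.smoothTransition.le_one _

theorem Feps_eq_zero (D : SmoothDomain n) {ε : ℝ} (hε : 0 < ε) {x : E n} (hx : x ∉ D.carrier) :
    Feps D ε x = 0 := by
  apply Real.smoothTransition.zero_of_nonpos
  have : 0 ≤ D.ρ x := not_lt.1 hx
  exact div_nonpos_of_nonpos_of_nonneg (by linarith) hε.le

theorem Feps_compact (D : SmoothDomain n) {ε : ℝ} (hε : 0 < ε) :
    HasCompactSupport (Feps D ε) := by
  have hK : IsCompact (closure D.carrier) := D.bdd.isCompact_closure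
  apply HasCompactSupport.of_support_subset_isCompact hK
  intro x hx
  by_contra h
  exact hx (Feps_eq_zero D hε fun h' => h (subset_closure h'))

theorem Feps_tendsto (D : SmoothDomain n) (x : E n) :
    Tendsto (fun ε => Feps D ε x) (𝓝[>] 0) (𝓝 (D.carrier.indicator (fun _ => 1) x)) := by
  by_cases hx : x ∈ D.carrier
  · rw [indicator_of_mem hx]
    apply tendsto_const_nhds.congr'
    have hρ : D.ρ x < 0 := hx
    have h1 : ∀ᶠ ε in 𝓝[>] (0 : ℝ), ε < -D.ρ x := by
      filter_upwards [Ioo_mem_nhdsGT (show (0 : ℝ) < -D.ρ x by linarith)] with ε hε using hε.2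
    filter_upwards [h1, self_mem_nhdsWithin] with ε h1 h2
    have h2 : 0 < ε := h2
    symm
    apply Real.smoothTransition.one_of_one_le
    rw [le_div_iff₀ h2]
    linarith
  · rw [indicator_of_notMem hx]
    apply tendsto_const_nhds.congr'
    filter_upwards [self_mem_nhdsWithin] with ε h2
    exact (Feps_eq_zero D h2 hx).symm

theorem Feps_fderiv (D : SmoothDomain n) (ε : ℝ) (x : E n) :
    fderiv ℝ (Feps D ε) x = (-(ε⁻¹ * Coarea.chi' (-D.ρ x / ε))) • fderiv ℝ D.ρ x := by
  have h1 : HasFDerivAt D.ρ (fderiv ℝ D.ρ x) x :=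
    (D.smooth.differentiable (by simp) x).hasFDerivAt
  have h2 : HasFDerivAt (fun x => -D.ρ x / ε) ((-ε⁻¹) • fderiv ℝ D.ρ x) x := by
    have := (h1.neg).const_mul ε⁻¹
    refine (this.congr_fderiv ?_).congr_of_eventuallyEq ?_
    · simp
    · filter_upwards with y
      simp
      ring
  have h3 := (Coarea.hasDerivAt_chi (-D.ρ x / ε)).comp_hasFDerivAt x h2
  have h4 := h3.fderiv
  have h5 : fderiv ℝ (Feps D ε) x =
      Coarea.chi' (-D.ρ x / ε) • ((-ε⁻¹) • fderiv ℝ D.ρ x) := h4
  rw [h5, smul_smul]
  congr 1
  ring

variable (M : RiemMetric n) (e : Fin n → E n → E n) (he : TriangularFrame M e)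

include he

theorem coord_smooth (a i : Fin n) : ContDiff ℝ ∞ fun x => e a x i := by
  have := (contDiff_euclidean (𝕜 := ℝ)).1 (he.smooth a)
  exact this i

theorem volDensity_smooth : ContDiff ℝ ∞ (volDensity M) := by
  have : volDensity M = fun x => (∏ a, e a x a)⁻¹ := by
    funext x; exact volDensity_prod M e he x
  rw [this]
  exact ContDiff.inv (contDiff_prod fun a _ => coord_smooth M e he a a)
    fun x => (prod_pos M e he x).ne'

theorem covNorm_smul (x : E n) (c : ℝ) (φ : E n →L[ℝ] ℝ) :
    covNorm M x (c • φ) = |c| * covNorm M x φ := by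
  rw [covNorm_sum M e he, covNorm_sum M e he, ← Real.sqrt_sq_eq_abs, ← Real.sqrt_mul (sq_nonneg _),
    Finset.mul_sum]
  congr 1
  refine Finset.sum_congr rfl fun a _ => ?_
  simp
  ring

theorem covNorm_nonneg (x : E n) (φ : E n →L[ℝ] ℝ) : 0 ≤ covNorm M x φ := by
  rw [covNorm_sum M e he]; exact Real.sqrt_nonneg _

theorem covNorm_fderiv_continuous {f : E n → ℝ} (hf : ContDiff ℝ 1 f) :
    Continuous fun x => covNorm M x (fderiv ℝ f x) := by
  have : (fun x => covNorm M x (fderiv ℝ f x)) = fun x => √(∑ a, fderiv ℝ f x (e a x) ^ 2) := by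
    funext x; exact covNorm_sum M e he x _
  rw [this]
  refine (continuous_finsetSum _ fun a _ => ?_).sqrt
  exact ((hf.continuous_fderiv one_ne_zero).clm_apply (he.smooth a).continuous).pow 2

/-- The gradient integrals of the approximating functions are asymptotically bounded by the
area. -/
theorem Feps_area (D : SmoothDomain n) {η : ℝ} (hη : 0 < η) :
    ∀ᶠ ε in 𝓝[>] (0 : ℝ),
      ∫⁻ x, ENNReal.ofReal (covNorm M x (fderiv ℝ (Feps D ε) x) * volDensity M x) ≤
        riemArea M D + ENNReal.ofReal η := by
  have hρ1 : ContDiff ℝ 1 D.ρ := D.smooth.of_le (by simp)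
  have hc : Continuous fun x => volDensity M x * covNorm M x (fderiv ℝ D.ρ x) :=
    (volDensity_smooth M e he).continuous.mul (covNorm_fderiv_continuous M e he hρ1)
  have h0 : ∀ x, 0 ≤ volDensity M x * covNorm M x (fderiv ℝ D.ρ x) := fun x =>
    mul_nonneg (volDensity_gt M e he x).le (covNorm_nonneg M e he x _)
  have key := Coarea.coarea_limsup D.ρ hρ1 D.bdd D.regular _ hc h0 η hη
  filter_upwards [key, self_mem_nhdsWithin] with ε h1 h2
  have h2 : 0 < ε := h2
  have e1 : ∀ x, covNorm M x (fderiv ℝ (Feps D ε) x) * volDensity M x =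
      ε⁻¹ * Coarea.chi' (-D.ρ x / ε) * (volDensity M x * covNorm M x (fderiv ℝ D.ρ x)) := by
    intro x
    rw [Feps_fderiv, covNorm_smul M e he, abs_neg, abs_of_nonneg]
    · ring
    · exact mul_nonneg (inv_pos.2 h2).le (Coarea.chi'_nonneg _)
  simp only [e1]
  refine h1.trans (le_of_eq ?_)
  unfold riemArea
  rw [finrank_euclideanSpace_fin]
  congr 1
  refine lintegral_congr fun x => ?_
  rw [mul_div_assoc]

/-- The mass of the approximating functions. -/
theorem Feps_mass (D : SmoothDomain n) :
    Tendsto (fun ε => ∫ x, Feps D ε x * volDensity M x) (𝓝[>] 0)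
      (𝓝 (∫ x in D.carrier, volDensity M x)) := by
  have hmeas : MeasurableSet D.carrier :=
    (isOpen_lt D.smooth.continuous continuous_const).measurableSet
  have hvc := (volDensity_smooth M e he).continuous
  have hint : IntegrableOn (volDensity M) D.carrier :=
    (hvc.continuousOn.integrableOn_compact D.bdd.isCompact_closure).mono_set subset_closure
  rw [← integral_indicator hmeas]
  have hconv : ∀ x, Tendsto (fun ε => Feps D ε x * volDensity M x) (𝓝[>] 0)
      (𝓝 (D.carrier.indicator (volDensity M) x)) := by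
    intro x
    have := (Feps_tendsto D x).mul_const (volDensity M x)
    have h2 : D.carrier.indicator (fun _ => (1 : ℝ)) x * volDensity M x =
        D.carrier.indicator (volDensity M) x := by
      by_cases hx : x ∈ D.carrier
      · rw [indicator_of_mem hx, indicator_of_mem hx, one_mul]
      · rw [indicator_of_notMem hx, indicator_of_notMem hx, zero_mul]
    rwa [h2] at this
  apply tendsto_integral_filter_of_dominated_convergence (D.carrier.indicator (volDensity M))
  · filter_upwards with ε
    exact ((Feps_smooth D ε).continuous.mul hvc).aestronglyMeasurable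
  · filter_upwards [self_mem_nhdsWithin] with ε hε
    filter_upwards with x
    have hv := volDensity_gt M e he x
    by_cases hx : x ∈ D.carrier
    · rw [indicator_of_mem hx, Real.norm_eq_abs, abs_of_nonneg (mul_nonneg (Feps_nonneg D ε x) hv.le)]
      have := Feps_le_one D ε x
      nlinarith
    · rw [indicator_of_notMem hx, Feps_eq_zero D hε hx]
      simp
  · exact hint.integrable_indicator hmeas
  · filter_upwards with x
    exact hconv x

/-- Errors of the form `∫ (F - F F^p)` vanish in the limit. -/
theorem Feps_error (D : SmoothDomain n) {p : ℝ} (hp : 0 < p) :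
    Tendsto (fun ε => ∫ x, (Feps D ε x - Feps D ε x * Feps D ε x ^ p) * volDensity M x) (𝓝[>] 0)
      (𝓝 0) := by
  have hmeas : MeasurableSet D.carrier :=
    (isOpen_lt D.smooth.continuous continuous_const).measurableSet
  have hvc := (volDensity_smooth M e he).continuous
  have hint : IntegrableOn (volDensity M) D.carrier :=
    (hvc.continuousOn.integrableOn_compact D.bdd.isCompact_closure).mono_set subset_closure
  suffices H : Tendsto (fun ε => ∫ x, (Feps D ε x - Feps D ε x * Feps D ε x ^ p) *
      volDensity M x) (𝓝[>] 0) (𝓝 (∫ _ : E n, (0 : ℝ))) by simpa using H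
  apply tendsto_integral_filter_of_dominated_convergence (D.carrier.indicator (volDensity M))
  · filter_upwards with ε
    have hFc := (Feps_smooth D ε).continuous
    exact ((hFc.sub (hFc.mul (hFc.rpow_const fun x => Or.inr hp.le))).mul hvc).aestronglyMeasurable
  · filter_upwards [self_mem_nhdsWithin] with ε hε
    filter_upwards with x
    have hv := volDensity_gt M e he x
    by_cases hx : x ∈ D.carrier
    · rw [indicator_of_mem hx, Real.norm_eq_abs, abs_mul, abs_of_pos hv]
      have h1 := Feps_le_one D ε x
      have h2 := Feps_nonneg D ε x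
      have h3 := Real.rpow_le_one h2 h1 hp.le
      have h4 := Real.rpow_nonneg h2 p
      have h5 : |Feps D ε x - Feps D ε x * Feps D ε x ^ p| ≤ 1 := by
        rw [abs_le]
        constructor <;> nlinarith
      nlinarith
    · rw [indicator_of_notMem hx, Feps_eq_zero D hε hx]
      simp
  · exact hint.integrable_indicator hmeas
  · filter_upwards with x
    have h1 := Feps_tendsto D x
    set c := D.carrier.indicator (fun _ => (1 : ℝ)) x with hc
    have h2 : Tendsto (fun ε => (Feps D ε x - Feps D ε x * Feps D ε x ^ p) * volDensity M x)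
        (𝓝[>] 0) (𝓝 ((c - c * c ^ p) * volDensity M x)) :=
      (h1.sub (h1.mul (h1.rpow_const (Or.inr hp.le)))).mul_const _
    have h3 : (c - c * c ^ p) = 0 := by
      by_cases hx : x ∈ D.carrier
      · rw [hc, indicator_of_mem hx]; simp
      · rw [hc, indicator_of_notMem hx]; simp
    rwa [h3, zero_mul] at h2

theorem riemVol_eq (D : SmoothDomain n) :
    riemVol M D.carrier = ENNReal.ofReal (∫ x in D.carrier, volDensity M x) := by
  have hvc := (volDensity_smooth M e he).continuous
  have hint : IntegrableOn (volDensity M) D.carrier :=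
    (hvc.continuousOn.integrableOn_compact D.bdd.isCompact_closure).mono_set subset_closure
  unfold riemVol
  rw [ofReal_integral_eq_lintegral_ofReal hint]
  exact Eventually.of_forall fun x => (volDensity_gt M e he x).le

end Vale.Agent.P219
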