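import Vale.Agent.P219.Defs

open MeasureTheory
open scoped ENNReal ContDiff

namespace Vale.Agent.P219

/-- recursively defined volume of the unit ball -/
noncomputable def om : ℕ → ℝ
  | 0 => 1
  | (k + 1) => om k * ∫ τ in (-1 : ℝ)..1, (1 - τ ^ 2) ^ ((k : ℝ) / 2)

/-- Koszul coefficients `⟨∇_{e_a} e_b, e_k⟩` -/
noncomputable def koszul {n : ℕ} (c : Fin n → Fin n → Fin n → ℝ) (a b k : Fin n) : ℝ :=
  (c a b k - c b k a + c k a b) / 2

/-- `∇_u v` for left-invariant vector fields -/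
noncomputable def nabla {n : ℕ} (c : Fin n → Fin n → Fin n → ℝ) (u v : Fin n → ℝ) (k : Fin n) : ℝ :=
  ∑ a, ∑ b, u a * v b * koszul c a b k

/-- the bracket of left-invariant vector fields -/
def brack {n : ℕ} (c : Fin n → Fin n → Fin n → ℝ) (u v : Fin n → ℝ) (k : Fin n) : ℝ :=
  ∑ a, ∑ b, u a * v b * c a b k

/-- `⟨R(u,v)v,u⟩` -/
noncomputable def curvForm {n : ℕ} (c : Fin n → Fin n → Fin n → ℝ) (u v : Fin n → ℝ) : ℝ :=
  ∑ k, (nabla c u (nabla c v v) k - nabla c v (nabla c u v) k - nabla c (brack c u v) v k) * u k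

end Vale.Agent.P219
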