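import Mathlib

open MeasureTheory Matrix
open scoped ENNReal ContDiff

namespace Vale.Agent.P219.Co

/-- Euclidean space `ℝⁿ`, used as a global chart. -/
abbrev E (n : ℕ) := EuclideanSpace ℝ (Fin n)

/-- Smooth real functions. -/
def Smooth {n : ℕ} (f : E n → ℝ) : Prop := ContDiff ℝ ∞ f

/-- The partial derivative `∂ᵢ f (x)`. -/
noncomputable def pd {n : ℕ} (i : Fin n) (f : E n → ℝ) (x : E n) : ℝ :=
  lineDeriv ℝ f x (EuclideanSpace.single i 1)

/-- A smooth Riemannian metric on the manifold `ℝⁿ`, given by the matrix `(gᵢⱼ)`. -/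
structure RiemMetric (n : ℕ) where
  /-- the metric tensor -/
  g : E n → Matrix (Fin n) (Fin n) ℝ
  smooth : ∀ i j, Smooth fun x => g x i j
  pos : ∀ x, (g x).PosDef

/-- The Riemannian volume density `√(det gᵢⱼ)`. -/
noncomputable def volDensity {n : ℕ} (M : RiemMetric n) (x : E n) : ℝ := √(M.g x).det

/-- Lebesgue measure. -/
noncomputable def leb (n : ℕ) : Measure (E n) := volume

/-- The Riemannian volume of a set. -/
noncomputable def riemVol {n : ℕ} (M : RiemMetric n) (S : Set (E n)) : ℝ≥0∞ :=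
  ∫⁻ x in S, ENNReal.ofReal (volDensity M x) ∂leb n

/-- A domain: a bounded open set with smooth boundary, given by a global defining function. -/
structure SmoothDomain (n : ℕ) where
  /-- the defining function -/
  ρ : E n → ℝ
  smooth : Smooth ρ
  bdd : ∃ R : ℝ, ∀ x, ρ x < 0 → ∀ i, |x i| ≤ R
  regular : ∀ x, ρ x = 0 → ∃ i, pd i ρ x ≠ 0

/-- The underlying open set of a domain. -/
def SmoothDomain.carrier {n : ℕ} (D : SmoothDomain n) : Set (E n) := {x | D.ρ x < 0}

/-- The norm `√(gⁱʲ pᵢ pⱼ)` of the covector `p = df (x)`. -/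
noncomputable def gradNorm {n : ℕ} (M : RiemMetric n) (f : E n → ℝ) (x : E n) : ℝ :=
  √((fun i => pd i f x) ⬝ᵥ (M.g x)⁻¹ *ᵥ fun i => pd i f x)

/-- The Riemannian area (the `(n-1)`-dimensional Riemannian measure) of the boundary `{ρ = 0}`:
the integral of `√(det g) |ν|_g` against the Euclidean `(n-1)`-dimensional Hausdorff measure,
where `ν = dρ / |dρ|` is the Euclidean unit conormal and `|·|_g` is the norm of covectors. -/
noncomputable def riemArea {n : ℕ} (M : RiemMetric n) (D : SmoothDomain n) : ℝ≥0∞ :=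
  ∫⁻ x in {x | D.ρ x = 0}, ENNReal.ofReal
    (volDensity M x * gradNorm M D.ρ x / √(∑ i, pd i D.ρ x ^ 2)) ∂(μHE[n - 1] : Measure (E n))

/-- `ω_n`, the volume of the unit ball of `ℝⁿ`. -/
noncomputable def omega (n : ℕ) : ℝ := (leb n {x | ∑ i, x i ^ 2 < 1}).toReal

/-- `sn_b(r)`, equal to `r` if `b = 0` and to `sinh (b r) / b` otherwise. -/
noncomputable def sn (b r : ℝ) : ℝ := if b = 0 then r else Real.sinh (b * r) / b

/-- Boundary area of a geodesic ball of radius `r` in the space form of curvature `κ`. -/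
noncomputable def modelArea (n : ℕ) (κ r : ℝ) : ℝ := n * omega n * sn √(-κ) r ^ (n - 1)

/-- Volume of a geodesic ball of radius `r` in the space form of curvature `κ`. -/
noncomputable def modelVol (n : ℕ) (κ r : ℝ) : ℝ :=
  n * omega n * ∫ t in (0 : ℝ)..r, sn √(-κ) t ^ (n - 1)

/-- The conclusion of the generalized Cartan-Hadamard conjecture for the Riemannian manifold
`(ℝⁿ, g)`: every domain `D` satisfies `area (∂ D) ≥ I_κ (vol D)`. -/
def IsoperimetricIneq {n : ℕ} (M : RiemMetric n) (κ : ℝ) : Prop :=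
  ∀ D : SmoothDomain n, ∃ r : ℝ, 0 ≤ r ∧
    riemVol M D.carrier = ENNReal.ofReal (modelVol n κ r) ∧
    ENNReal.ofReal (modelArea n κ r) ≤ riemArea M D

/-- The Riemannian divergence `(√det g)⁻¹ ∑ᵢ ∂ᵢ (√det g Xⁱ)` of a vector field. -/
noncomputable def divg {n : ℕ} (M : RiemMetric n) (X : E n → Fin n → ℝ) (x : E n) : ℝ :=
  (volDensity M x)⁻¹ * ∑ i, pd i (fun y => volDensity M y * X y i) x

/-- `e` is a smooth orthonormal frame field, triangular with respect to the coordinates: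
`eₐ` lies in the span of `∂ₐ, …, ∂ₙ`, with positive `∂ₐ` component. -/
structure TriangularFrame {n : ℕ} (M : RiemMetric n) (e : Fin n → E n → Fin n → ℝ) : Prop where
  smooth : ∀ a i, Smooth fun x => e a x i
  orthonormal : ∀ x a b, e a x ⬝ᵥ M.g x *ᵥ e b x = if a = b then 1 else 0
  triangular : ∀ a x i, i < a → e a x i = 0
  positive : ∀ a x, 0 < e a x a

/-- The Christoffel symbols `Γᵏᵢⱼ`. -/
noncomputable def christoffel {n : ℕ} (M : RiemMetric n) (k i j : Fin n) (x : E n) : ℝ :=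
  2⁻¹ * ∑ l, (M.g x)⁻¹ k l * (pd i (fun y => M.g y j l) x + pd j (fun y => M.g y i l) x -
    pd l (fun y => M.g y i j) x)

/-- The curvature `⟨R(∂ᵢ,∂ⱼ)∂ₖ, ∂ₘ⟩`, where `R(∂ᵢ,∂ⱼ)∂ₖ = ∇ᵢ∇ⱼ∂ₖ - ∇ⱼ∇ᵢ∂ₖ`. -/
noncomputable def riem {n : ℕ} (M : RiemMetric n) (i j k m : Fin n) (x : E n) : ℝ :=
  ∑ l, M.g x l m * (pd i (christoffel M l j k) x - pd j (christoffel M l i k) x +
    ∑ p, (christoffel M l i p x * christoffel M p j k x -
      christoffel M l j p x * christoffel M p i k x))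

/-- `Sec ≤ κ`. -/
def SecLE {n : ℕ} (M : RiemMetric n) (κ : ℝ) : Prop :=
  ∀ (x : E n) (u v : Fin n → ℝ), ∑ i, ∑ j, ∑ k, ∑ m, u i * v j * v k * u m * riem M i j k m x ≤
    κ * ((u ⬝ᵥ M.g x *ᵥ u) * (v ⬝ᵥ M.g x *ᵥ v) - (u ⬝ᵥ M.g x *ᵥ v) ^ 2)

/-- The frame `e` is left-invariant for a Lie group structure with structure constants `c`:
`[e_a, e_b] = ∑ₖ c a b k • e_k` with constant coefficients. -/
def HasStructure {n : ℕ} (e : Fin n → E n → Fin n → ℝ) (c : Fin n → Fin n → Fin n → ℝ) : Prop :=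
  ∀ a b x i, ∑ j, (e a x j * pd j (fun y => e b y i) x - e b x j * pd j (fun y => e a y i) x) =
    ∑ k, c a b k * e k x i

/-- The span of all frame vectors but the first one is a nilpotent ideal of the Lie algebra with
structure constants `c`, and the basis is adapted to a central series of it. -/
def NilpotentIdeal {n : ℕ} (c : Fin n → Fin n → Fin n → ℝ) : Prop :=
  (∀ a b k : Fin n, k.val = 0 → c a b k = 0) ∧
  (∀ a b k : Fin n, a.val ≠ 0 → b.val ≠ 0 → (k ≤ a ∨ k ≤ b) → c a b k = 0)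

end Vale.Agent.P219.Co
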