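import Vale.Agent.P219.CoDefs

/-! # Domains isometric to geodesic balls of space forms -/

open scoped ContDiff

namespace Vale.Agent.P219.Co

/-- `D`, with the metric induced by `M`, is isometric to a geodesic ball of radius `r` in the space
form of curvature `K ≤ 0`. The space form (hyperboloid model, projected orthogonally to `ℝⁿ`) is `ℝⁿ`
with the metric `δᵢⱼ + K yᵢ yⱼ / (1 - K |y|²)`; the geodesic ball of radius `r` about `0` is
`{|y| < sn r}`. For `K = 0` this is the Euclidean ball. -/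
def IsometricToBallK {n : ℕ} (M : RiemMetric n) (K : ℝ) (D : SmoothDomain n) (r : ℝ) : Prop :=
  ∃ φ : E n → E n, (∀ k, ContDiffOn ℝ ∞ (fun y => φ y k) {y | ∑ i, y i ^ 2 < sn √(-K) r ^ 2}) ∧
    Set.InjOn φ {y | ∑ i, y i ^ 2 < sn √(-K) r ^ 2} ∧
    φ '' {y | ∑ i, y i ^ 2 < sn √(-K) r ^ 2} = D.carrier ∧
    ∀ y, ∑ i, y i ^ 2 < sn √(-K) r ^ 2 → ∀ i j, ∑ k, ∑ l, M.g (φ y) k l *
      pd i (fun z => φ z k) y * pd j (fun z => φ z l) y =
        (if i = j then 1 else 0) + K * y i * y j / (1 - K * ∑ m, y m ^ 2)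

end Vale.Agent.P219.Co
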