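import Vale.Agent.P219.Frames

set_option maxSynthPendingDepth 3

namespace Vale.Agent.P219

open scoped ContDiff

variable {n : ℕ}

/-- The covariant derivative determined by a Christoffel tensor. -/
noncomputable def nab (Γ : E n → E n →L[ℝ] E n →L[ℝ] E n) (X Y : E n → E n) (x : E n) : E n :=
  fderiv ℝ Y x (X x) + Γ x (X x) (Y x)

theorem hasFDerivAt_nab {Γ : E n → E n →L[ℝ] E n →L[ℝ] E n} {X Y : E n → E n} {x : E n}
    (hΓ : DifferentiableAt ℝ Γ x) (hX : DifferentiableAt ℝ X x) (hY : DifferentiableAt ℝ Y x)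
    (hY2 : DifferentiableAt ℝ (fderiv ℝ Y) x) (v : E n) :
    fderiv ℝ (nab Γ X Y) x v = fderiv ℝ (fderiv ℝ Y) x v (X x) + fderiv ℝ Y x (fderiv ℝ X x v) +
      (fderiv ℝ Γ x v (X x) (Y x) + Γ x (fderiv ℝ X x v) (Y x) + Γ x (X x) (fderiv ℝ Y x v)) := by
  have h1 : HasFDerivAt (fun y => fderiv ℝ Y y (X y)) _ x :=
    hY2.hasFDerivAt.clm_apply hX.hasFDerivAt
  have h2 : HasFDerivAt (fun y => Γ y (X y)) _ x := hΓ.hasFDerivAt.clm_apply hX.hasFDerivAt
  have h3 : HasFDerivAt (fun y => Γ y (X y) (Y y)) _ x := h2.clm_apply hY.hasFDerivAt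
  have h4 : HasFDerivAt (nab Γ X Y) _ x := h1.add h3
  rw [h4.fderiv]
  simp
  abel

theorem curv_formula {Γ : E n → E n →L[ℝ] E n →L[ℝ] E n} {X Y W : E n → E n} {x : E n}
    (hΓ : DifferentiableAt ℝ Γ x) (hX : DifferentiableAt ℝ X x) (hY : DifferentiableAt ℝ Y x)
    (hW : ContDiff ℝ 2 W) :
    nab Γ X (nab Γ Y W) x - nab Γ Y (nab Γ X W) x - nab Γ (VectorField.lieBracket ℝ X Y) W x =
      fderiv ℝ Γ x (X x) (Y x) (W x) - fderiv ℝ Γ x (Y x) (X x) (W x) +
      Γ x (X x) (Γ x (Y x) (W x)) - Γ x (Y x) (Γ x (X x) (W x)) := by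
  have hW1 : DifferentiableAt ℝ W x := hW.differentiable (by norm_num) x
  have hW2 : DifferentiableAt ℝ (fderiv ℝ W) x :=
    (hW.fderiv_right (m := 1) (by norm_num)).differentiable (by norm_num) x
  have hsymm : fderiv ℝ (fderiv ℝ W) x (X x) (Y x) = fderiv ℝ (fderiv ℝ W) x (Y x) (X x) := by
    have := (hW.contDiffAt (x := x)).isSymmSndFDerivAt (by simp)
    exact this (X x) (Y x)
  conv_lhs => rw [nab, nab, nab]
  rw [hasFDerivAt_nab hΓ hY hW1 hW2, hasFDerivAt_nab hΓ hX hW1 hW2, hsymm]
  simp only [nab, VectorField.lieBracket, map_sub, map_add, _root_.sub_apply]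
  abel

section

variable {M : RiemMetric n} {Γ : E n → E n →L[ℝ] E n →L[ℝ] E n}

theorem g_diff (M : RiemMetric n) : Differentiable ℝ M.g := M.smooth.differentiable (by norm_num)

theorem fderiv_g_apply (M : RiemMetric n) (x u v w : E n) :
    fderiv ℝ (fun y => M.g y u v) x w = fderiv ℝ M.g x w u v := by
  have h1 : HasFDerivAt (fun y => M.g y u) _ x :=
    (g_diff M x).hasFDerivAt.clm_apply (hasFDerivAt_const u x)
  have h2 : HasFDerivAt (fun y => M.g y u v) _ x := h1.clm_apply (hasFDerivAt_const v x)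
  rw [h2.fderiv]
  simp

theorem fderiv_g_symm (M : RiemMetric n) (x u v w : E n) :
    fderiv ℝ M.g x w u v = fderiv ℝ M.g x w v u := by
  rw [← fderiv_g_apply, ← fderiv_g_apply]
  congr 2
  funext y
  exact M.symm y u v

theorem metric_compat (hK : ∀ x u v w, 2 * M.g x (Γ x u v) w =
      fderiv ℝ M.g x u v w + fderiv ℝ M.g x v u w - fderiv ℝ M.g x w u v) (x w u v : E n) :
    M.g x (Γ x w u) v + M.g x u (Γ x w v) = fderiv ℝ M.g x w u v := by
  have h1 := hK x w u v
  have h2 := hK x w v u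
  rw [M.symm x u (Γ x w v)]
  rw [fderiv_g_symm M x v u w] at h2
  have h3 := fderiv_g_symm M x w u v
  linarith

variable {e : Fin n → E n → E n}

theorem frame_deriv (he : TriangularFrame M e) (a b : Fin n) (x w : E n) :
    fderiv ℝ M.g x w (e a x) (e b x) + M.g x (fderiv ℝ (e a) x w) (e b x) +
      M.g x (e a x) (fderiv ℝ (e b) x w) = 0 := by
  have h1 : HasFDerivAt (fun y => M.g y (e a y)) _ x :=
    (g_diff M x).hasFDerivAt.clm_apply (e_diff he a x).hasFDerivAt
  have h2 : HasFDerivAt (fun y => M.g y (e a y) (e b y)) _ x :=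
    h1.clm_apply (e_diff he b x).hasFDerivAt
  have h3 : (fun y => M.g y (e a y) (e b y)) = fun _ => if a = b then 1 else 0 := by
    funext y; exact he.orthonormal y a b
  have h4 := h2.fderiv
  rw [h3] at h4
  have h5 := congrArg (fun L : E n →L[ℝ] ℝ => L w) h4
  simp at h5
  linarith

theorem nab_antisymm (he : TriangularFrame M e)
    (hK : ∀ x u v w, 2 * M.g x (Γ x u v) w =
      fderiv ℝ M.g x u v w + fderiv ℝ M.g x v u w - fderiv ℝ M.g x w u v)
    (a b k : Fin n) (x : E n) :
    M.g x (nab Γ (e a) (e b) x) (e k x) = -M.g x (nab Γ (e a) (e k) x) (e b x) := by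
  have h1 := frame_deriv he b k x (e a x)
  have h2 := metric_compat hK x (e a x) (e b x) (e k x)
  simp only [nab, map_add, _root_.add_apply]
  rw [M.symm x (fderiv ℝ (e k) x (e a x)) (e b x), M.symm x (Γ x (e a x) (e k x)) (e b x)]
  linarith

theorem gamma_symm (hK : ∀ x u v w, 2 * M.g x (Γ x u v) w =
      fderiv ℝ M.g x u v w + fderiv ℝ M.g x v u w - fderiv ℝ M.g x w u v) (x u v : E n) :
    Γ x u v = Γ x v u := by
  have h : ∀ w, M.g x (Γ x u v - Γ x v u) w = 0 := by
    intro w
    have h1 := hK x u v w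
    have h2 := hK x v u w
    rw [map_sub, _root_.sub_apply]
    have h3 := fderiv_g_symm M x u v w
    linarith
  by_contra hne
  have hne' : Γ x u v - Γ x v u ≠ 0 := sub_ne_zero.2 hne
  exact absurd (h _) (M.pos x _ hne').ne'

theorem nab_torsion (hK : ∀ x u v w, 2 * M.g x (Γ x u v) w =
      fderiv ℝ M.g x u v w + fderiv ℝ M.g x v u w - fderiv ℝ M.g x w u v)
    {c : Fin n → Fin n → Fin n → ℝ} (hc : HasStructure e c) (a b : Fin n) (x : E n) :
    nab Γ (e a) (e b) x - nab Γ (e b) (e a) x = ∑ k, c a b k • e k x := by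
  rw [← hc a b x]
  simp only [nab, VectorField.lieBracket]
  rw [gamma_symm hK x (e b x) (e a x)]
  abel

theorem nab_koszul (he : TriangularFrame M e)
    (hK : ∀ x u v w, 2 * M.g x (Γ x u v) w =
      fderiv ℝ M.g x u v w + fderiv ℝ M.g x v u w - fderiv ℝ M.g x w u v)
    {c : Fin n → Fin n → Fin n → ℝ} (hc : HasStructure e c) (a b k : Fin n) (x : E n) :
    M.g x (nab Γ (e a) (e b) x) (e k x) = koszul c a b k := by
  have hT : ∀ a b k, M.g x (nab Γ (e a) (e b) x) (e k x) - M.g x (nab Γ (e b) (e a) x) (e k x) =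
      c a b k := by
    intro a b k
    have h := congrArg (fun v => M.g x v (e k x)) (nab_torsion hK hc a b x)
    simp only [map_sub, _root_.sub_apply] at h
    rw [h]
    simp only [map_sum, map_smul, _root_.sum_apply, _root_.smul_apply, smul_eq_mul,
      he.orthonormal]
    simp
  have hA := nab_antisymm he hK (x := x)
  unfold koszul
  have t1 := hT a b k
  have t2 := hT b k a
  have t3 := hT k a b
  have a1 := hA b a k
  have a2 := hA k b a
  have a3 := hA a k b
  linarith

theorem nab_frame (he : TriangularFrame M e)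
    (hK : ∀ x u v w, 2 * M.g x (Γ x u v) w =
      fderiv ℝ M.g x u v w + fderiv ℝ M.g x v u w - fderiv ℝ M.g x w u v)
    {c : Fin n → Fin n → Fin n → ℝ} (hc : HasStructure e c) (a b : Fin n) (x : E n) :
    nab Γ (e a) (e b) x = ∑ k, koszul c a b k • e k x := by
  conv_lhs => rw [frame_complete he x (nab Γ (e a) (e b) x)]
  simp only [nab_koszul he hK hc]

/-- The left-invariant field with constant coefficients `u`. -/
noncomputable def linv (e : Fin n → E n → E n) (u : Fin n → ℝ) (x : E n) : E n :=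
  ∑ a, u a • e a x

theorem linv_smooth (he : TriangularFrame M e) (u : Fin n → ℝ) : ContDiff ℝ ∞ (linv e u) := by
  unfold linv
  exact ContDiff.sum fun a _ => (he.smooth a).const_smul (u a)

theorem fderiv_linv (he : TriangularFrame M e) (u : Fin n → ℝ) (x w : E n) :
    fderiv ℝ (linv e u) x w = ∑ a, u a • fderiv ℝ (e a) x w := by
  have h : HasFDerivAt (linv e u) (∑ a, u a • fderiv ℝ (e a) x) x := by
    unfold linv
    exact HasFDerivAt.fun_sum fun a _ => (e_diff he a x).hasFDerivAt.const_smul (u a)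
  rw [h.fderiv]
  simp [_root_.sum_apply]

theorem nab_linv (he : TriangularFrame M e)
    (hK : ∀ x u v w, 2 * M.g x (Γ x u v) w =
      fderiv ℝ M.g x u v w + fderiv ℝ M.g x v u w - fderiv ℝ M.g x w u v)
    {c : Fin n → Fin n → Fin n → ℝ} (hc : HasStructure e c) (u v : Fin n → ℝ) :
    nab Γ (linv e u) (linv e v) = linv e (nabla c u v) := by
  funext x
  have h1 : nab Γ (linv e u) (linv e v) x = ∑ a, ∑ b, (u a * v b) • nab Γ (e a) (e b) x := by
    unfold nab
    rw [fderiv_linv he]
    simp only [linv, map_sum, map_smul, _root_.sum_apply, _root_.smul_apply, smul_add, mul_smul,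
      Finset.sum_add_distrib, Finset.smul_sum]
    congr 1
    · rw [Finset.sum_comm]
      refine Finset.sum_congr rfl fun a _ => Finset.sum_congr rfl fun b _ => ?_
      rw [smul_comm]
    · rw [Finset.sum_comm]
      refine Finset.sum_congr rfl fun a _ => Finset.sum_congr rfl fun b _ => ?_
      rw [smul_comm]
  rw [h1]
  simp only [nab_frame he hK hc, linv, nabla, Finset.smul_sum, Finset.sum_smul, smul_smul]
  have h2 : ∀ a, ∑ b, ∑ k, (u a * v b * koszul c a b k) • e k x =
      ∑ k, ∑ b, (u a * v b * koszul c a b k) • e k x := fun a => Finset.sum_comm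
  simp only [h2]
  rw [Finset.sum_comm]

theorem bracket_linv (he : TriangularFrame M e)
    {c : Fin n → Fin n → Fin n → ℝ} (hc : HasStructure e c) (u v : Fin n → ℝ) :
    VectorField.lieBracket ℝ (linv e u) (linv e v) = linv e (brack c u v) := by
  funext x
  have h1 : VectorField.lieBracket ℝ (linv e u) (linv e v) x =
      ∑ a, ∑ b, (u a * v b) • VectorField.lieBracket ℝ (e a) (e b) x := by
    simp only [VectorField.lieBracket]
    rw [fderiv_linv he, fderiv_linv he]
    simp only [linv, map_sum, map_smul, smul_sub, mul_smul,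
      Finset.sum_sub_distrib, Finset.smul_sum]
    congr 1
    · rw [Finset.sum_comm]
      refine Finset.sum_congr rfl fun a _ => Finset.sum_congr rfl fun b _ => ?_
      rw [smul_comm]
  rw [h1]
  have h3 : ∀ a b, VectorField.lieBracket ℝ (e a) (e b) x = ∑ k, c a b k • e k x :=
    fun a b => hc a b x
  simp only [h3, linv, brack, Finset.smul_sum, Finset.sum_smul, smul_smul]
  have h2 : ∀ a, ∑ b, ∑ k, (u a * v b * c a b k) • e k x =
      ∑ k, ∑ b, (u a * v b * c a b k) • e k x := fun a => Finset.sum_comm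
  simp only [h2]
  rw [Finset.sum_comm]

theorem g_linv (he : TriangularFrame M e) (u v : Fin n → ℝ) (x : E n) :
    M.g x (linv e u x) (linv e v x) = ∑ a, u a * v a := by
  simp only [linv, map_sum, map_smul, _root_.sum_apply, _root_.smul_apply, smul_eq_mul,
    he.orthonormal]
  simp [mul_comm]

theorem curv_of_secLE (he : TriangularFrame M e)
    {c : Fin n → Fin n → Fin n → ℝ} (hc : HasStructure e c) {κ : ℝ} (h : SecLE M κ)
    (u v : Fin n → ℝ) :
    curvForm c u v ≤ κ * ((∑ i, u i ^ 2) * (∑ i, v i ^ 2) - (∑ i, u i * v i) ^ 2) := by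
  obtain ⟨Γ, hΓs, hK, hsec⟩ := h
  have h1 := hsec 0 (linv e u 0) (linv e v 0)
  have hf := curv_formula (Γ := Γ) (X := linv e u) (Y := linv e v) (W := linv e v) (x := 0)
    (hΓs.differentiable (by norm_num) 0) ((linv_smooth he u).differentiable (by norm_num) 0)
    ((linv_smooth he v).differentiable (by norm_num) 0)
    ((contDiff_infty.1 (linv_smooth he v)) 2)
  rw [← hf, nab_linv he hK hc, nab_linv he hK hc, nab_linv he hK hc, nab_linv he hK hc,
    bracket_linv he hc, nab_linv he hK hc] at h1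
  simp only [map_sub, _root_.sub_apply, g_linv he] at h1
  have e1 : ∀ w : Fin n → ℝ, ∑ a, w a * w a = ∑ i, w i ^ 2 := fun w =>
    Finset.sum_congr rfl fun i _ => by ring
  rw [e1, e1] at h1
  refine le_trans (le_of_eq ?_) h1
  unfold curvForm
  rw [← Finset.sum_sub_distrib, ← Finset.sum_sub_distrib]
  refine Finset.sum_congr rfl fun k _ => ?_
  ring

end

end Vale.Agent.P219
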