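import Vale.Agent.P219.CoBridge
import Vale.Agent.P219.Curv

open MeasureTheory Matrix
open scoped ENNReal ContDiff

namespace Vale.Agent.P219.Co

variable {n : ℕ}

theorem vec_sum (v : E n) : v = ∑ i, v i • (basisVec i : E n) := by
  ext j
  simp [basisVec, Finset.sum_apply, Pi.single_apply]

theorem fderiv_eq_sum {f : E n → ℝ} {x : E n} (hf : DifferentiableAt ℝ f x) (v : E n) :
    fderiv ℝ f x v = ∑ i, v i * pd i f x := by
  conv_lhs => rw [vec_sum v]
  rw [map_sum]
  refine Finset.sum_congr rfl fun i _ => ?_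
  rw [map_smul, pd_eq hf, smul_eq_mul]

theorem structure_old {M : RiemMetric n} {e : Fin n → E n → Fin n → ℝ}
    (he : TriangularFrame M e) {c : Fin n → Fin n → Fin n → ℝ} (h : HasStructure e c) :
    Vale.Agent.P219.HasStructure (oldFrame e) c := by
  have hd : ∀ a x, DifferentiableAt ℝ (oldFrame e a) x := fun a x =>
    ((old_frame he).smooth a).differentiable (by simp) x
  have hdi : ∀ a i x, DifferentiableAt ℝ (fun y => e a y i) x := fun a i x =>
    (he.smooth a i).differentiable (by simp) x
  have key : ∀ a b x i, fderiv ℝ (oldFrame e b) x (oldFrame e a x) i =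
      ∑ j, e a x j * pd j (fun y => e b y i) x := by
    intro a b x i
    have h1 : HasFDerivAt (fun y => oldFrame e b y i)
        ((EuclideanSpace.proj i : E n →L[ℝ] ℝ).comp (fderiv ℝ (oldFrame e b) x)) x :=
      ((EuclideanSpace.proj i : E n →L[ℝ] ℝ).hasFDerivAt).comp x (hd b x).hasFDerivAt
    have h2 := fderiv_eq_sum (hdi b i x) (oldFrame e a x)
    have h3 : fderiv ℝ (fun y => e b y i) x = _ := h1.fderiv
    rw [h3] at h2
    exact h2
  intro a b x
  ext i
  have h1 := h a b x i
  simp only [VectorField.lieBracket, PiLp.sub_apply, key]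
  rw [← Finset.sum_sub_distrib, h1]
  simp [oldFrame]

theorem inv_eq {M : RiemMetric n} {e : Fin n → E n → Fin n → ℝ} (he : TriangularFrame M e)
    (x : E n) (k l : Fin n) : (M.g x)⁻¹ k l = ∑ a, e a x k * e a x l := by
  set A : Matrix (Fin n) (Fin n) ℝ := Matrix.of fun a i => e a x i with hA
  have h1 : A * (M.g x * A.transpose) = 1 := by
    ext a b
    rw [Matrix.mul_apply, Matrix.one_apply, ← he.orthonormal x a b]
    rfl
  have h2 : M.g x * (A.transpose * A) = 1 := by
    rw [← Matrix.mul_assoc]
    exact mul_eq_one_comm.1 h1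
  rw [Matrix.inv_eq_right_inv h2, Matrix.mul_apply]
  rfl

theorem g_symm (M : RiemMetric n) (x : E n) (i j : Fin n) : M.g x i j = M.g x j i := by
  have := (M.pos x).isHermitian.apply j i
  simpa using this

theorem smooth_pd {f : E n → ℝ} (hf : Smooth f) (i : Fin n) : Smooth fun x => pd i f x := by
  have h1 : (fun x => pd i f x) = fun x => fderiv ℝ f x (basisVec i) := by
    funext x
    exact pd_eq (hf.differentiable (by simp) x) i
  rw [h1]
  exact ((hf.fderiv_right (m := ∞) (by simp)).clm_apply contDiff_const)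

theorem christoffel_smooth {M : RiemMetric n} {e : Fin n → E n → Fin n → ℝ}
    (he : TriangularFrame M e) (k i j : Fin n) : Smooth fun x => christoffel M k i j x := by
  unfold christoffel
  refine contDiff_const.mul (ContDiff.sum fun l _ => ContDiff.mul ?_ ?_)
  · have : (fun x => (M.g x)⁻¹ k l) = fun x => ∑ a, e a x k * e a x l := by
      funext x
      exact inv_eq he x k l
    rw [this]
    exact ContDiff.sum fun a _ => (he.smooth a k).mul (he.smooth a l)
  · exact ((smooth_pd (M.smooth j l) i).add (smooth_pd (M.smooth i l) j)).sub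
      (smooth_pd (M.smooth i j) l)

/-- the elementary bilinear map -/
noncomputable def gb (i j k : Fin n) : E n →L[ℝ] E n →L[ℝ] E n :=
  (EuclideanSpace.proj i : E n →L[ℝ] ℝ).smulRight
    ((EuclideanSpace.proj j : E n →L[ℝ] ℝ).smulRight (basisVec k))

theorem gb_apply (i j k : Fin n) (u v : E n) (l : Fin n) :
    gb i j k u v l = if l = k then u i * v j else 0 := by
  simp [gb, basisVec]

/-- The Christoffel tensor. -/
noncomputable def oldGam (M : RiemMetric n) (x : E n) : E n →L[ℝ] E n →L[ℝ] E n :=
  ∑ i, ∑ j, ∑ k, christoffel M k i j x • gb i j k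

theorem gam_sum_apply (A : Fin n → Fin n → Fin n → ℝ) (u v : E n) (l : Fin n) :
    (∑ i, ∑ j, ∑ k, A k i j • gb i j k) u v l = ∑ i, ∑ j, u i * v j * A l i j := by
  simp only [_root_.sum_apply, _root_.smul_apply, PiLp.smul_apply, WithLp.ofLp_sum,
    Finset.sum_apply, smul_eq_mul, gb_apply]
  refine Finset.sum_congr rfl fun i _ => Finset.sum_congr rfl fun j _ => ?_
  rw [Finset.sum_eq_single l]
  · simp; ring
  · intro b _ hb
    rw [if_neg (Ne.symm hb), mul_zero]
  · simp

theorem oldGam_apply (M : RiemMetric n) (x u v : E n) (l : Fin n) :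
    oldGam M x u v l = ∑ i, ∑ j, u i * v j * christoffel M l i j x :=
  gam_sum_apply (fun k i j => christoffel M k i j x) u v l

theorem oldGam_smooth {M : RiemMetric n} {e : Fin n → E n → Fin n → ℝ}
    (he : TriangularFrame M e) : ContDiff ℝ ∞ (oldGam M) := by
  refine ContDiff.sum fun i _ => ContDiff.sum fun j _ => ContDiff.sum fun k _ => ?_
  exact smooth_smul _ (gb i j k) (christoffel_smooth he k i j)

section generic

variable {V W : Type*} [NormedAddCommGroup V] [NormedSpace ℝ V] [NormedAddCommGroup W]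
  [NormedSpace ℝ W]

theorem fderiv_sum2 {ι κ : Type*} [Fintype ι] [Fintype κ] (f : ι → κ → V → ℝ) (B : ι → κ → W)
    {x : V} (hf : ∀ i j, DifferentiableAt ℝ (f i j) x) (w : V) :
    fderiv ℝ (fun y => ∑ i, ∑ j, f i j y • B i j) x w =
      ∑ i, ∑ j, fderiv ℝ (f i j) x w • B i j := by
  have h1 : HasFDerivAt (fun y => ∑ i, ∑ j, f i j y • B i j)
      (∑ i, ∑ j, (fderiv ℝ (f i j) x).smulRight (B i j)) x :=
    HasFDerivAt.fun_sum fun i _ => HasFDerivAt.fun_sum fun j _ =>
      (hf i j).hasFDerivAt.smul_const (B i j)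
  rw [h1.fderiv]
  simp

theorem fderiv_sum3 {ι κ μ : Type*} [Fintype ι] [Fintype κ] [Fintype μ]
    (f : ι → κ → μ → V → ℝ) (B : ι → κ → μ → W)
    {x : V} (hf : ∀ i j k, DifferentiableAt ℝ (f i j k) x) (w : V) :
    fderiv ℝ (fun y => ∑ i, ∑ j, ∑ k, f i j k y • B i j k) x w =
      ∑ i, ∑ j, ∑ k, fderiv ℝ (f i j k) x w • B i j k := by
  have h1 : HasFDerivAt (fun y => ∑ i, ∑ j, ∑ k, f i j k y • B i j k)
      (∑ i, ∑ j, ∑ k, (fderiv ℝ (f i j k) x).smulRight (B i j k)) x :=
    HasFDerivAt.fun_sum fun i _ => HasFDerivAt.fun_sum fun j _ => HasFDerivAt.fun_sum fun k _ =>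
      (hf i j k).hasFDerivAt.smul_const (B i j k)
  rw [h1.fderiv]
  simp

end generic

theorem oldGam_fderiv {M : RiemMetric n} {e : Fin n → E n → Fin n → ℝ}
    (he : TriangularFrame M e) (x w u v : E n) (l : Fin n) :
    fderiv ℝ (oldGam M) x w u v l =
      ∑ i, ∑ j, u i * v j * ∑ p, w p * pd p (christoffel M l i j) x := by
  have hd : ∀ i j k, DifferentiableAt ℝ (fun y => christoffel M k i j y) x := fun i j k =>
    (christoffel_smooth he k i j).differentiable (by simp) x
  have h1 := fderiv_sum3 (fun i j k y => christoffel M k i j y) gb hd w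
  have h2 : fderiv ℝ (oldGam M) x w = _ := h1
  rw [h2, gam_sum_apply (fun k i j => fderiv ℝ (fun y => christoffel M k i j y) x w)]
  refine Finset.sum_congr rfl fun i _ => Finset.sum_congr rfl fun j _ => ?_
  rw [fderiv_eq_sum (hd i j l)]

theorem g_fderiv (M : RiemMetric n) (x w u v : E n) :
    fderiv ℝ (old M).g x w u v =
      ∑ i, ∑ j, u i * v j * ∑ p, w p * pd p (fun y => M.g y i j) x := by
  have hd : ∀ i j, DifferentiableAt ℝ (fun y => M.g y i j) x := fun i j =>
    (M.smooth i j).differentiable (by simp) x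
  have h1 := fderiv_sum2 (fun i j y => M.g y i j) bil hd w
  have h2 : fderiv ℝ (old M).g x w = _ := h1
  rw [h2]
  simp only [_root_.sum_apply, _root_.smul_apply, bil_apply, smul_eq_mul]
  refine Finset.sum_congr rfl fun i _ => Finset.sum_congr rfl fun j _ => ?_
  rw [fderiv_eq_sum (hd i j), mul_comm]

theorem lower_christoffel (M : RiemMetric n) (x : E n) (m i j : Fin n) :
    ∑ k, M.g x k m * christoffel M k i j x =
      2⁻¹ * (pd i (fun y => M.g y j m) x + pd j (fun y => M.g y i m) x -
        pd m (fun y => M.g y i j) x) := by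
  have h1 : M.g x * (M.g x)⁻¹ = 1 :=
    Matrix.mul_nonsing_inv _ (M.pos x).det_pos.ne'.isUnit
  have h2 : ∀ l, ∑ k, M.g x k m * (M.g x)⁻¹ k l = if m = l then 1 else 0 := by
    intro l
    rw [← Matrix.one_apply, ← h1, Matrix.mul_apply]
    refine Finset.sum_congr rfl fun k _ => ?_
    rw [g_symm M x k m]
  unfold christoffel
  calc ∑ k, M.g x k m * (2⁻¹ * ∑ l, (M.g x)⁻¹ k l * (pd i (fun y => M.g y j l) x +
        pd j (fun y => M.g y i l) x - pd l (fun y => M.g y i j) x))
      = ∑ l, ∑ k, 2⁻¹ * (M.g x k m * (M.g x)⁻¹ k l) * (pd i (fun y => M.g y j l) x +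
        pd j (fun y => M.g y i l) x - pd l (fun y => M.g y i j) x) := by
        rw [Finset.sum_comm]
        refine Finset.sum_congr rfl fun k _ => ?_
        rw [Finset.mul_sum, Finset.mul_sum]
        refine Finset.sum_congr rfl fun l _ => ?_
        ring
    _ = ∑ l, 2⁻¹ * (if m = l then 1 else 0) * (pd i (fun y => M.g y j l) x +
        pd j (fun y => M.g y i l) x - pd l (fun y => M.g y i j) x) := by
        refine Finset.sum_congr rfl fun l _ => ?_
        rw [← Finset.sum_mul, ← Finset.mul_sum, h2]
    _ = _ := by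
        rw [Finset.sum_eq_single m]
        · simp
        · intro b _ hb
          rw [if_neg (Ne.symm hb)]
          ring
        · simp

theorem koszul_old (M : RiemMetric n) (x u v w : E n) :
    2 * (old M).g x (oldGam M x u v) w =
      fderiv ℝ (old M).g x u v w + fderiv ℝ (old M).g x v u w - fderiv ℝ (old M).g x w u v := by
  rw [g_fderiv, g_fderiv, g_fderiv, old_apply]
  have h0 : (oldGam M x u v : E n) ⬝ᵥ M.g x *ᵥ w =
      ∑ m, ∑ i, ∑ j, w m * u i * v j * ∑ k, M.g x k m * christoffel M k i j x := by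
    simp only [dotProduct, mulVec, oldGam_apply]
    calc ∑ k, (∑ i, ∑ j, u i * v j * christoffel M k i j x) * ∑ m, M.g x k m * w m
        = ∑ k, ∑ m, ∑ i, ∑ j, w m * u i * v j * (M.g x k m * christoffel M k i j x) := by
          refine Finset.sum_congr rfl fun k _ => ?_
          rw [Finset.mul_sum]
          refine Finset.sum_congr rfl fun m _ => ?_
          rw [Finset.sum_mul]
          refine Finset.sum_congr rfl fun i _ => ?_
          rw [Finset.sum_mul]
          refine Finset.sum_congr rfl fun j _ => ?_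
          ring
      _ = _ := by
          rw [Finset.sum_comm]
          refine Finset.sum_congr rfl fun m _ => ?_
          rw [Finset.sum_comm]
          refine Finset.sum_congr rfl fun i _ => ?_
          rw [Finset.sum_comm]
          refine Finset.sum_congr rfl fun j _ => ?_
          rw [Finset.mul_sum]
  rw [h0]
  have t1 : ∑ i, ∑ j, v i * w j * ∑ p, u p * pd p (fun y => M.g y i j) x =
      ∑ m, ∑ i, ∑ j, w m * u i * v j * pd i (fun y => M.g y j m) x := by
    rw [Finset.sum_comm]
    refine Finset.sum_congr rfl fun m _ => ?_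
    simp only [Finset.mul_sum]
    rw [Finset.sum_comm]
    refine Finset.sum_congr rfl fun i _ => Finset.sum_congr rfl fun j _ => ?_
    ring
  have t2 : ∑ i, ∑ j, u i * w j * ∑ p, v p * pd p (fun y => M.g y i j) x =
      ∑ m, ∑ i, ∑ j, w m * u i * v j * pd j (fun y => M.g y i m) x := by
    rw [Finset.sum_comm]
    refine Finset.sum_congr rfl fun m _ => ?_
    simp only [Finset.mul_sum]
    refine Finset.sum_congr rfl fun i _ => Finset.sum_congr rfl fun j _ => ?_
    ring
  have t3 : ∑ i, ∑ j, u i * v j * ∑ p, w p * pd p (fun y => M.g y i j) x =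
      ∑ m, ∑ i, ∑ j, w m * u i * v j * pd m (fun y => M.g y i j) x := by
    simp only [Finset.mul_sum]
    rw [Finset.sum_comm (s := Finset.univ) (t := Finset.univ)
      (f := fun m i => ∑ j, w m * u i * v j * pd m (fun y => M.g y i j) x)]
    refine Finset.sum_congr rfl fun i _ => ?_
    rw [Finset.sum_comm]
    refine Finset.sum_congr rfl fun m _ => Finset.sum_congr rfl fun j _ => ?_
    ring
  rw [t1, t2, t3, Finset.mul_sum, ← Finset.sum_add_distrib, ← Finset.sum_sub_distrib]
  refine Finset.sum_congr rfl fun m _ => ?_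
  rw [Finset.mul_sum, ← Finset.sum_add_distrib, ← Finset.sum_sub_distrib]
  refine Finset.sum_congr rfl fun i _ => ?_
  rw [Finset.mul_sum, ← Finset.sum_add_distrib, ← Finset.sum_sub_distrib]
  refine Finset.sum_congr rfl fun j _ => ?_
  rw [lower_christoffel]
  ring

/-- components of the curvature operator -/
noncomputable def curvK (M : RiemMetric n) (x : E n) (l i j k : Fin n) : ℝ :=
  pd i (christoffel M l j k) x - pd j (christoffel M l i k) x +
    ∑ p, (christoffel M l i p x * christoffel M p j k x -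
      christoffel M l j p x * christoffel M p i k x)

theorem curv_comp {M : RiemMetric n} {e : Fin n → E n → Fin n → ℝ}
    (he : TriangularFrame M e) (x u v : E n) (l : Fin n) :
    (fderiv ℝ (oldGam M) x u v v - fderiv ℝ (oldGam M) x v u v + oldGam M x u (oldGam M x v v)
      - oldGam M x v (oldGam M x u v) : E n) l =
      ∑ i, ∑ j, ∑ k, u i * v j * v k * curvK M x l i j k := by
  simp only [PiLp.sub_apply, PiLp.add_apply, oldGam_fderiv he]
  rw [oldGam_apply M x u (oldGam M x v v), oldGam_apply M x v (oldGam M x u v)]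
  simp only [oldGam_apply]
  have t1 : ∑ j, ∑ k, v j * v k * ∑ i, u i * pd i (christoffel M l j k) x =
      ∑ i, ∑ j, ∑ k, u i * v j * v k * pd i (christoffel M l j k) x := by
    simp only [Finset.mul_sum]
    rw [Finset.sum_comm (s := Finset.univ) (t := Finset.univ)
      (f := fun i j => ∑ k, u i * v j * v k * pd i (christoffel M l j k) x)]
    refine Finset.sum_congr rfl fun j _ => ?_
    rw [Finset.sum_comm]
    refine Finset.sum_congr rfl fun i _ => Finset.sum_congr rfl fun k _ => ?_
    ring
  have t2 : ∑ i, ∑ k, u i * v k * ∑ j, v j * pd j (christoffel M l i k) x =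
      ∑ i, ∑ j, ∑ k, u i * v j * v k * pd j (christoffel M l i k) x := by
    simp only [Finset.mul_sum]
    refine Finset.sum_congr rfl fun i _ => ?_
    rw [Finset.sum_comm]
    refine Finset.sum_congr rfl fun j _ => Finset.sum_congr rfl fun k _ => ?_
    ring
  have t3 : ∑ i, ∑ p, u i * (∑ j, ∑ k, v j * v k * christoffel M p j k x) *
      christoffel M l i p x = ∑ i, ∑ j, ∑ k, u i * v j * v k *
        ∑ p, christoffel M l i p x * christoffel M p j k x := by
    refine Finset.sum_congr rfl fun i _ => ?_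
    simp only [Finset.mul_sum, Finset.sum_mul]
    rw [Finset.sum_comm]
    refine Finset.sum_congr rfl fun j _ => ?_
    rw [Finset.sum_comm]
    refine Finset.sum_congr rfl fun k _ => Finset.sum_congr rfl fun p _ => ?_
    ring
  have t4 : ∑ j, ∑ p, v j * (∑ i, ∑ k, u i * v k * christoffel M p i k x) *
      christoffel M l j p x = ∑ i, ∑ j, ∑ k, u i * v j * v k *
        ∑ p, christoffel M l j p x * christoffel M p i k x := by
    rw [Finset.sum_comm (s := Finset.univ) (t := Finset.univ)
      (f := fun i j => ∑ k, u i * v j * v k *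
        ∑ p, christoffel M l j p x * christoffel M p i k x)]
    refine Finset.sum_congr rfl fun j _ => ?_
    simp only [Finset.mul_sum, Finset.sum_mul]
    rw [Finset.sum_comm]
    refine Finset.sum_congr rfl fun i _ => ?_
    rw [Finset.sum_comm]
    refine Finset.sum_congr rfl fun k _ => Finset.sum_congr rfl fun p _ => ?_
    ring
  rw [t1, t2, t3, t4, ← Finset.sum_sub_distrib, ← Finset.sum_add_distrib,
    ← Finset.sum_sub_distrib]
  refine Finset.sum_congr rfl fun i _ => ?_
  rw [← Finset.sum_sub_distrib, ← Finset.sum_add_distrib, ← Finset.sum_sub_distrib]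
  refine Finset.sum_congr rfl fun j _ => ?_
  rw [← Finset.sum_sub_distrib, ← Finset.sum_add_distrib, ← Finset.sum_sub_distrib]
  refine Finset.sum_congr rfl fun k _ => ?_
  unfold curvK
  rw [Finset.sum_sub_distrib]
  ring

theorem reorder (a : Fin n → Fin n → Fin n → ℝ) (K : Fin n → Fin n → Fin n → Fin n → ℝ)
    (G : Fin n → Fin n → ℝ) (u : Fin n → ℝ) :
    ∑ l, (∑ i, ∑ j, ∑ k, a i j k * K l i j k) * ∑ m, G l m * u m =
      ∑ i, ∑ j, ∑ k, ∑ m, a i j k * u m * ∑ l, G l m * K l i j k := by
  simp_rw [Finset.sum_mul, Finset.mul_sum]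
  rw [Finset.sum_comm]
  refine Finset.sum_congr rfl fun i _ => ?_
  rw [Finset.sum_comm]
  refine Finset.sum_congr rfl fun j _ => ?_
  rw [Finset.sum_comm]
  refine Finset.sum_congr rfl fun k _ => ?_
  rw [Finset.sum_comm]
  refine Finset.sum_congr rfl fun m _ => Finset.sum_congr rfl fun l _ => ?_
  ring

theorem secLE_old {M : RiemMetric n} {e : Fin n → E n → Fin n → ℝ}
    (he : TriangularFrame M e) {κ : ℝ} (h : SecLE M κ) : Vale.Agent.P219.SecLE (old M) κ := by
  refine ⟨oldGam M, oldGam_smooth he, koszul_old M, fun x u v => ?_⟩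
  rw [old_apply, old_apply, old_apply, old_apply]
  refine le_trans (le_of_eq ?_) (h x u v)
  simp only [dotProduct, mulVec]
  have h1 : ∀ l, (fderiv ℝ (oldGam M) x u v v - fderiv ℝ (oldGam M) x v u v +
      oldGam M x u (oldGam M x v v) - oldGam M x v (oldGam M x u v) : E n) l =
      ∑ i, ∑ j, ∑ k, u i * v j * v k * curvK M x l i j k := fun l => curv_comp he x u v l
  simp only [h1]
  exact reorder (fun i j k => u i * v j * v k) (curvK M x) (M.g x) u

end Vale.Agent.P219.Co
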