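import Vale.Agent.P219.TopIneq
import Vale.Agent.P219.Base

namespace Vale.Agent.P219

open MeasureTheory Set Filter Topology

/-- the Wallis type integrals -/
noncomputable def wal (k : ℕ) : ℝ := ∫ y in (-1 : ℝ)..1, √(1 - y ^ 2) ^ k

theorem wal_zero : wal 0 = 2 := by norm_num [wal]

theorem wal_one : wal 1 = Real.pi / 2 := by
  rw [wal]; simp only [pow_one]; exact integral_sqrt_one_sub_sq

theorem hasDerivAt_sqrt_pow (k : ℕ) {y : ℝ} (hy : y ∈ Ioo (-1 : ℝ) 1) :
    HasDerivAt (fun y : ℝ => √(1 - y ^ 2) ^ (k + 2)) (-((k + 2) * y * √(1 - y ^ 2) ^ k)) y := by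
  have h1 : 0 < 1 - y ^ 2 := by nlinarith [hy.1, hy.2]
  have h2 : HasDerivAt (fun y : ℝ => 1 - y ^ 2) (-(2 * y)) y := by
    have := (hasDerivAt_pow 2 y).const_sub 1
    simpa using this
  have h3 := (h2.sqrt h1.ne').fun_pow (k + 2)
  have h4 : √(1 - y ^ 2) ≠ 0 := (Real.sqrt_pos.2 h1).ne'
  refine h3.congr_deriv ?_
  push_cast
  have : k + 2 - 1 = k + 1 := by omega
  simp only [pow_succ]
  field_simp

/-- integration by parts with a weight -/
theorem integral_sqrt_pow_deriv (k : ℕ) (g g' : ℝ → ℝ)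
    (hg : ∀ y ∈ Icc (-1 : ℝ) 1, HasDerivAt g (g' y) y) (hg' : ContinuousOn g' (Icc (-1) 1)) :
    ∫ y in (-1 : ℝ)..1, (g' y * √(1 - y ^ 2) ^ 2 - (k + 2) * y * g y) * √(1 - y ^ 2) ^ k = 0 := by
  have hgc : ContinuousOn g (Icc (-1) 1) := fun y hy => (hg y hy).continuousAt.continuousWithinAt
  have hs : Continuous fun y : ℝ => √(1 - y ^ 2) := by fun_prop
  have key := intervalIntegral.integral_eq_sub_of_hasDerivAt_of_le (a := -1) (b := 1)
    (f := fun y => g y * √(1 - y ^ 2) ^ (k + 2))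
    (f' := fun y => (g' y * √(1 - y ^ 2) ^ 2 - (k + 2) * y * g y) * √(1 - y ^ 2) ^ k)
    (by norm_num) (hgc.mul (hs.pow _).continuousOn)
    (by
      intro y hy
      have := (hg y (Ioo_subset_Icc_self hy)).mul (hasDerivAt_sqrt_pow k hy)
      refine this.congr_deriv ?_
      ring)
    (by
      apply ContinuousOn.intervalIntegrable
      rw [uIcc_of_le (by norm_num : (-1 : ℝ) ≤ 1)]
      fun_prop)
  rw [key]
  norm_num

theorem wal_rec (k : ℕ) : ((k : ℝ) + 3) * wal (k + 2) = (k + 2) * wal k := by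
  have h := integral_sqrt_pow_deriv k (fun y => y) (fun _ => 1) (fun y _ => hasDerivAt_id y)
    continuousOn_const
  have hs : Continuous fun y : ℝ => √(1 - y ^ 2) := by fun_prop
  have e : ∀ y ∈ Icc (-1 : ℝ) 1,
      (1 * √(1 - y ^ 2) ^ 2 - (k + 2) * y * y) * √(1 - y ^ 2) ^ k =
      (k + 3) * √(1 - y ^ 2) ^ (k + 2) - (k + 2) * √(1 - y ^ 2) ^ k := by
    intro y hy
    have h1 : 0 ≤ 1 - y ^ 2 := by nlinarith [hy.1, hy.2]
    have h2 := Real.sq_sqrt h1
    rw [pow_add]
    have : y * y = 1 - √(1 - y ^ 2) ^ 2 := by rw [h2]; ring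
    rw [mul_assoc _ y y, this]
    ring
  have h3 : ∫ y in (-1 : ℝ)..1, (1 * √(1 - y ^ 2) ^ 2 - (k + 2) * y * y) * √(1 - y ^ 2) ^ k =
      ∫ y in (-1 : ℝ)..1, ((k + 3) * √(1 - y ^ 2) ^ (k + 2) - (k + 2) * √(1 - y ^ 2) ^ k) := by
    apply intervalIntegral.integral_congr
    intro y hy
    rw [uIcc_of_le (by norm_num : (-1 : ℝ) ≤ 1)] at hy
    exact e y hy
  rw [h3, intervalIntegral.integral_sub (by apply Continuous.intervalIntegrable; fun_prop)
    (by apply Continuous.intervalIntegrable; fun_prop), intervalIntegral.integral_const_mul,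
    intervalIntegral.integral_const_mul] at h
  unfold wal
  linarith

/-- the Gamma quotient -/
noncomputable def gq (k : ℕ) : ℝ := √Real.pi * Real.Gamma (k / 2 + 1) / Real.Gamma (k / 2 + 3 / 2)

theorem gq_rec (k : ℕ) : ((k : ℝ) + 3) * gq (k + 2) = (k + 2) * gq k := by
  unfold gq
  have hk : (0 : ℝ) ≤ k := Nat.cast_nonneg k
  have e1 : (((k + 2 : ℕ) : ℝ) / 2 + 1) = ((k : ℝ) / 2 + 1) + 1 := by push_cast; ring
  have e2 : (((k + 2 : ℕ) : ℝ) / 2 + 3 / 2) = ((k : ℝ) / 2 + 3 / 2) + 1 := by push_cast; ring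
  rw [e1, e2, Real.Gamma_add_one (s := (k : ℝ) / 2 + 1) (by positivity),
    Real.Gamma_add_one (s := (k : ℝ) / 2 + 3 / 2) (by positivity)]
  have h3 : Real.Gamma ((k : ℝ) / 2 + 3 / 2) ≠ 0 := (Real.Gamma_pos_of_pos (by positivity)).ne'
  field_simp

theorem gq_zero : gq 0 = 2 := by
  unfold gq
  have e : ((0 : ℕ) : ℝ) / 2 + 3 / 2 = 1 / 2 + 1 := by norm_num
  rw [e, Real.Gamma_add_one (s := 1 / 2) (by norm_num), Real.Gamma_one_half_eq]
  have : √Real.pi ≠ 0 := (Real.sqrt_pos.2 Real.pi_pos).ne'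
  have e3 : ((0 : ℕ) : ℝ) / 2 + 1 = 1 := by norm_num
  rw [e3, Real.Gamma_one]
  field_simp

theorem gq_one : gq 1 = Real.pi / 2 := by
  unfold gq
  have e : ((1 : ℕ) : ℝ) / 2 + 3 / 2 = 2 := by norm_num
  have e2 : ((1 : ℕ) : ℝ) / 2 + 1 = 1 / 2 + 1 := by norm_num
  rw [e, e2, Real.Gamma_add_one (s := 1 / 2) (by norm_num), Real.Gamma_one_half_eq,
    Real.Gamma_two]
  have := Real.mul_self_sqrt Real.pi_pos.le
  have e3 : √Real.pi * (1 / 2 * √Real.pi) / 1 = (√Real.pi * √Real.pi) / 2 := by ring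
  rw [e3, this]

theorem wal_eq_gq : ∀ k, wal k = gq k
  | 0 => by rw [wal_zero, gq_zero]
  | 1 => by rw [wal_one, gq_one]
  | (k + 2) => by
    have h1 := wal_rec k
    have h2 := gq_rec k
    rw [wal_eq_gq k] at h1
    have : ((k : ℝ) + 3) ≠ 0 := by positivity
    have h3 : ((k : ℝ) + 3) * wal (k + 2) = ((k : ℝ) + 3) * gq (k + 2) := by linarith
    exact mul_left_cancel₀ this h3

theorem omr_formula : ∀ k, omr k = √Real.pi ^ k / Real.Gamma (k / 2 + 1)
  | 0 => by simp [omr]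
  | (k + 1) => by
    have h0 : omr (k + 1) = omr k * wal k := rfl
    rw [h0, omr_formula k, wal_eq_gq k, gq]
    have h3 : Real.Gamma ((k : ℝ) / 2 + 1) ≠ 0 := (Real.Gamma_pos_of_pos (by positivity)).ne'
    have e : (((k + 1 : ℕ) : ℝ) / 2 + 1) = (k : ℝ) / 2 + 3 / 2 := by push_cast; ring
    rw [e, pow_succ]
    field_simp

theorem omr_eq_omega (n : ℕ) : omr n = omega n := by
  unfold omega
  rcases Nat.eq_zero_or_pos n with hn | hn
  · subst hn
    have h1 : Metric.ball (0 : E 0) 1 = univ := by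
      ext x
      simp [Subsingleton.elim x 0]
    rw [h1]
    rw [volume_euclideanSpace_eq_dirac]
    simp [omr]
  · have : Nonempty (Fin n) := ⟨⟨0, hn⟩⟩
    rw [EuclideanSpace.volume_ball, omr_formula]
    have hpos : 0 ≤ √Real.pi ^ n / Real.Gamma (n / 2 + 1) := by
      have := Real.Gamma_pos_of_pos (s := (n : ℝ) / 2 + 1) (by positivity)
      positivity
    simp [ENNReal.toReal_ofReal hpos]

theorem v_pos {β c : ℝ} (hc : 0 < c) (h : c ^ 2 = 1 + β ^ 2) {x : ℝ} (hx : x ∈ Icc (-1 : ℝ) 1) :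
    0 < c + β * x := by
  have hβ : |β| < c := by
    apply abs_lt_of_sq_lt_sq _ hc.le
    linarith
  have h1 : |β * x| ≤ |β| := by
    rw [abs_mul]
    calc |β| * |x| ≤ |β| * 1 := mul_le_mul_of_nonneg_left (abs_le.2 ⟨hx.1, hx.2⟩) (abs_nonneg _)
      _ = |β| := mul_one _
  have h2 := neg_abs_le (β * x)
  linarith

/-- The Moebius substitution. -/
theorem mobius_sub {β c : ℝ} (hc : 0 < c) (h : c ^ 2 = 1 + β ^ 2) {f : ℝ → ℝ}
    (hf : ContinuousOn f (Icc (-1) 1)) :
    ∫ y in (-1 : ℝ)..1, f y =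
      ∫ x in (-1 : ℝ)..1, f ((c * x + β) / (c + β * x)) * (1 / (c + β * x) ^ 2) := by
  have hβ : |β| < c := by
    apply abs_lt_of_sq_lt_sq _ hc.le
    linarith
  have hβ1 := (abs_lt.1 hβ).1
  have hβ2 := (abs_lt.1 hβ).2
  have hv : ∀ x ∈ Icc (-1 : ℝ) 1, 0 < c + β * x := fun x hx => v_pos hc h hx
  have hd : ∀ x ∈ Icc (-1 : ℝ) 1, HasDerivAt (fun x => (c * x + β) / (c + β * x))
      (1 / (c + β * x) ^ 2) x := by
    intro x hx
    have h1 : HasDerivAt (fun x => c * x + β) c x := by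
      simpa using ((hasDerivAt_id x).const_mul c).add_const β
    have h2 : HasDerivAt (fun x => c + β * x) β x := by
      simpa using ((hasDerivAt_id x).const_mul β).const_add c
    refine (h1.div h2 (hv x hx).ne').congr_deriv ?_
    congr 1
    linarith
  have hcont : ContinuousOn (fun x => (c * x + β) / (c + β * x)) (Icc (-1) 1) := fun x hx =>
    (hd x hx).continuousAt.continuousWithinAt
  have himg : ∀ x ∈ Icc (-1 : ℝ) 1, (c * x + β) / (c + β * x) ∈ Icc (-1 : ℝ) 1 := by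
    intro x hx
    have h1 := hv x hx
    constructor
    · rw [le_div_iff₀ h1]
      nlinarith [mul_nonneg (sub_nonneg.2 hx.1) (by linarith : (0 : ℝ) ≤ c + β)]
    · rw [div_le_iff₀ h1]
      nlinarith [mul_nonneg (sub_nonneg.2 hx.2) (sub_nonneg.2 hβ2.le)]
  have key := intervalIntegral.integral_comp_mul_deriv'' (a := -1) (b := 1)
    (f := fun x => (c * x + β) / (c + β * x)) (f' := fun x => 1 / (c + β * x) ^ 2) (g := f)
    (by rwa [uIcc_of_le (by norm_num : (-1 : ℝ) ≤ 1)])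
    (by
      intro x hx
      norm_num at hx
      exact (hd x ⟨hx.1.le, hx.2.le⟩).hasDerivWithinAt)
    (by
      rw [uIcc_of_le (by norm_num : (-1 : ℝ) ≤ 1)]
      refine continuousOn_const.div (by fun_prop) fun x hx => ?_
      exact pow_ne_zero 2 (hv x hx).ne')
    (by
      rw [uIcc_of_le (by norm_num : (-1 : ℝ) ≤ 1)]
      refine hf.mono ?_
      rintro _ ⟨x, hx, rfl⟩
      exact himg x hx)
  have e1 : (c * (-1) + β) / (c + β * (-1)) = -1 := by
    rw [div_eq_iff (by linarith : c + β * (-1) ≠ 0)]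
    ring
  have e2 : (c * 1 + β) / (c + β * 1) = 1 := by
    rw [div_eq_iff (by linarith : c + β * 1 ≠ 0)]
    ring
  simp only [e1, e2] at key
  rw [← key]
  rfl

theorem mobius_alg {β c x : ℝ} (h : c ^ 2 = 1 + β ^ 2) (hv : 0 < c + β * x) :
    c - β * ((c * x + β) / (c + β * x)) = 1 / (c + β * x) ∧
    √(1 - ((c * x + β) / (c + β * x)) ^ 2) = √(1 - x ^ 2) / (c + β * x) := by
  constructor
  · field_simp
    linarith
  · have e : 1 - ((c * x + β) / (c + β * x)) ^ 2 = (1 - x ^ 2) / (c + β * x) ^ 2 := by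
      rw [div_pow, eq_div_iff (by positivity), sub_mul, div_mul_cancel₀ _ (by positivity)]
      linear_combination (1 - x ^ 2) * h
    rw [e, Real.sqrt_div' _ (by positivity), Real.sqrt_sq hv.le]

/-- The key one-dimensional identity. -/
theorem J_identity (k : ℕ) {β c : ℝ} (hc : 0 < c) (h : c ^ 2 = 1 + β ^ 2) :
    ∫ x in (-1 : ℝ)..1, (k * c / (c + β * x) + 1 / (c + β * x) ^ 2) * √(1 - x ^ 2) ^ k =
      (k + 1) * wal k := by
  have hv : ∀ x ∈ Icc (-1 : ℝ) 1, 0 < c + β * x := fun x hx => v_pos hc h hx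
  have hd : ∀ x ∈ Icc (-1 : ℝ) 1, HasDerivAt (fun x => β / (c + β * x))
      (-(β * β) / (c + β * x) ^ 2) x := by
    intro x hx
    have h2 : HasDerivAt (fun x => c + β * x) β x := by
      simpa using ((hasDerivAt_id x).const_mul β).const_add c
    have h1 := (hasDerivAt_const x β).div h2 (hv x hx).ne'
    refine h1.congr_deriv ?_
    congr 1
    ring
  have key := integral_sqrt_pow_deriv k _ _ hd
    (by
      refine continuousOn_const.div (by fun_prop) fun x hx => ?_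
      exact pow_ne_zero 2 (hv x hx).ne')
  have hc1 : ContinuousOn (fun x : ℝ => (k * c / (c + β * x) + 1 / (c + β * x) ^ 2) *
      √(1 - x ^ 2) ^ k) (Icc (-1) 1) := by
    refine ContinuousOn.mul (ContinuousOn.add ?_ ?_) (by fun_prop)
    · exact continuousOn_const.div (by fun_prop) fun x hx => (hv x hx).ne'
    · exact continuousOn_const.div (by fun_prop) fun x hx => pow_ne_zero 2 (hv x hx).ne'
  have hI1 : IntervalIntegrable (fun x : ℝ => (k * c / (c + β * x) + 1 / (c + β * x) ^ 2) *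
      √(1 - x ^ 2) ^ k) volume (-1) 1 := by
    apply ContinuousOn.intervalIntegrable
    rwa [uIcc_of_le (by norm_num : (-1 : ℝ) ≤ 1)]
  have hI2 : IntervalIntegrable (fun x : ℝ => (k + 1) * √(1 - x ^ 2) ^ k) volume (-1) 1 := by
    apply Continuous.intervalIntegrable
    fun_prop
  have e : ∫ x in (-1 : ℝ)..1, (-(β * β) / (c + β * x) ^ 2 * √(1 - x ^ 2) ^ 2 -
      (k + 2) * x * (β / (c + β * x))) * √(1 - x ^ 2) ^ k =
      ∫ x in (-1 : ℝ)..1, ((k * c / (c + β * x) + 1 / (c + β * x) ^ 2) * √(1 - x ^ 2) ^ k -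
        (k + 1) * √(1 - x ^ 2) ^ k) := by
    apply intervalIntegral.integral_congr
    intro x hx
    rw [uIcc_of_le (by norm_num : (-1 : ℝ) ≤ 1)] at hx
    have hvx := hv x hx
    have h1 : 0 ≤ 1 - x ^ 2 := by nlinarith [hx.1, hx.2]
    simp only
    rw [Real.sq_sqrt h1, ← sub_mul]
    congr 1
    field_simp
    have hb : β ^ 2 = c ^ 2 - 1 := by linarith
    ring_nf
    simp only [hb]
    ring
  rw [e, intervalIntegral.integral_sub hI1 hI2, intervalIntegral.integral_const_mul] at key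
  unfold wal
  linarith

theorem cosh_sq_id (b s : ℝ) : √(1 + b ^ 2 * s ^ 2) ^ 2 = 1 + (b * s) ^ 2 := by
  rw [Real.sq_sqrt (by positivity)]
  ring

theorem cosh_pos' (b s : ℝ) : 0 < √(1 + b ^ 2 * s ^ 2) := Real.sqrt_pos.2 (by positivity)

/-- The area identity for the model ball. -/
theorem area_identity (k : ℕ) (b s : ℝ) :
    ∫ y in (-1 : ℝ)..1, (((k : ℝ) + 1) * √(1 + b ^ 2 * s ^ 2) - b * s * y) * dens k (hyp b s) y =
      (k + 1) * omr (k + 1) * s ^ (k + 1) := by
  set c := √(1 + b ^ 2 * s ^ 2) with hcdef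
  have hc : 0 < c := cosh_pos' b s
  have h : c ^ 2 = 1 + (b * s) ^ 2 := cosh_sq_id b s
  have hcont : ContinuousOn (fun y => (((k : ℝ) + 1) * c - b * s * y) * dens k (hyp b s) y)
      (Icc (-1) 1) := ContinuousOn.mul (by fun_prop) (dens_cont k (hyp_cont b s))
  rw [mobius_sub hc h hcont]
  have e : ∫ x in (-1 : ℝ)..1, (((k : ℝ) + 1) * c - b * s * ((c * x + b * s) / (c + b * s * x))) *
      dens k (hyp b s) ((c * x + b * s) / (c + b * s * x)) * (1 / (c + b * s * x) ^ 2) =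
      ∫ x in (-1 : ℝ)..1, omr k * s ^ (k + 1) *
        ((k * c / (c + b * s * x) + 1 / (c + b * s * x) ^ 2) * √(1 - x ^ 2) ^ k) := by
    apply intervalIntegral.integral_congr
    intro x hx
    rw [uIcc_of_le (by norm_num : (-1 : ℝ) ≤ 1)] at hx
    have hvx := v_pos hc h hx
    obtain ⟨m1, m2⟩ := mobius_alg h hvx
    simp only [dens, hyp]
    rw [← hcdef, m1, m2]
    have m3 : ((k : ℝ) + 1) * c - b * s * ((c * x + b * s) / (c + b * s * x)) =
        k * c + 1 / (c + b * s * x) := by rw [← m1]; ring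
    rw [m3, div_pow, div_pow, div_pow, one_pow]
    field_simp
    ring
  rw [e, intervalIntegral.integral_const_mul, J_identity k hc h, omr_succ]
  unfold wal
  ring

/-- The volume of the model ball as an integral over the slices. -/
theorem dens_mobius (k : ℕ) (b s : ℝ) :
    ∫ y in (-1 : ℝ)..1, dens k (hyp b s) y =
      omr k * ∫ x in (-1 : ℝ)..1, s ^ (k + 1) / (√(1 + b ^ 2 * s ^ 2) + b * s * x) *
        √(1 - x ^ 2) ^ k := by
  set c := √(1 + b ^ 2 * s ^ 2) with hcdef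
  have hc : 0 < c := cosh_pos' b s
  have h : c ^ 2 = 1 + (b * s) ^ 2 := cosh_sq_id b s
  rw [mobius_sub hc h (dens_cont k (hyp_cont b s)), ← intervalIntegral.integral_const_mul]
  apply intervalIntegral.integral_congr
  intro x hx
  rw [uIcc_of_le (by norm_num : (-1 : ℝ) ≤ 1)] at hx
  have hvx := v_pos hc h hx
  obtain ⟨m1, m2⟩ := mobius_alg h hvx
  simp only [dens, hyp]
  rw [← hcdef, m1, m2, div_pow, div_pow, div_pow, one_pow]
  field_simp
  ring

theorem hasDerivAt_sn (b r : ℝ) : HasDerivAt (sn b) (Real.cosh (b * r)) r := by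
  by_cases hb : b = 0
  · subst hb
    have : sn 0 = fun r => r := by funext r; simp [sn]
    rw [this]
    simpa using hasDerivAt_id' r
  · have : sn b = fun r => Real.sinh (b * r) / b := by funext r; simp [sn, hb]
    rw [this]
    have h1 : HasDerivAt (fun r => b * r) b r := by simpa using (hasDerivAt_id r).const_mul b
    refine ((h1.sinh).div_const b).congr_deriv ?_
    field_simp

theorem mul_sn (b r : ℝ) : b * sn b r = Real.sinh (b * r) := by
  by_cases hb : b = 0
  · subst hb; simp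
  · simp [sn, hb]
    field_simp

theorem hasDerivAt_cosh_sn (b r : ℝ) :
    HasDerivAt (fun r => Real.cosh (b * r)) (b * (b * sn b r)) r := by
  have h1 : HasDerivAt (fun r => b * r) b r := by simpa using (hasDerivAt_id r).const_mul b
  refine h1.cosh.congr_deriv ?_
  rw [mul_sn]
  ring

theorem cosh_sq_sn (b r : ℝ) : Real.cosh (b * r) ^ 2 = 1 + (b * sn b r) ^ 2 := by
  rw [mul_sn, Real.cosh_sq]
  ring

theorem sqrt_sn (b r : ℝ) : √(1 + b ^ 2 * sn b r ^ 2) = Real.cosh (b * r) := by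
  have : 1 + b ^ 2 * sn b r ^ 2 = Real.cosh (b * r) ^ 2 := by rw [cosh_sq_sn]; ring
  rw [this, Real.sqrt_sq (Real.cosh_pos _).le]

theorem sn_continuous (b : ℝ) : Continuous (sn b) :=
  continuous_iff_continuousAt.2 fun r => (hasDerivAt_sn b r).continuousAt

theorem sn_zero (b : ℝ) : sn b 0 = 0 := by
  by_cases hb : b = 0 <;> simp [sn]

theorem sn_strictMono (b : ℝ) : StrictMono (sn b) :=
  strictMono_of_hasDerivAt_pos (fun r => hasDerivAt_sn b r) fun _ => Real.cosh_pos _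

theorem sn_pos (b : ℝ) {r : ℝ} (hr : 0 < r) : 0 < sn b r := by
  rw [← sn_zero b]; exact sn_strictMono b hr

theorem sn_nonneg (b : ℝ) {r : ℝ} (hr : 0 ≤ r) : 0 ≤ sn b r := by
  rw [← sn_zero b]; exact (sn_strictMono b).monotone hr

theorem sn_neg_left (b r : ℝ) : sn (-b) r = sn b r := by
  unfold sn
  by_cases hb : b = 0
  · simp [hb]
  · simp [hb, Real.sinh_neg]

/-- The volume identity for the model ball. -/
theorem dens_volume (k : ℕ) (b : ℝ) {r : ℝ} (hr : 0 ≤ r) :
    ∫ y in (-1 : ℝ)..1, dens k (hyp b (sn b r)) y =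
      (k + 1) * omr (k + 1) * ∫ t in (0 : ℝ)..r, sn b t ^ k := by
  rw [dens_mobius]
  have hv : ∀ ρ, ∀ x ∈ Icc (-1 : ℝ) 1, 0 < Real.cosh (b * ρ) + b * sn b ρ * x := fun ρ x hx =>
    v_pos (Real.cosh_pos _) (cosh_sq_sn b ρ) hx
  set Φ : ℝ → ℝ → ℝ := fun x ρ => sn b ρ ^ k * ((k * Real.cosh (b * ρ) /
    (Real.cosh (b * ρ) + b * sn b ρ * x) + 1 / (Real.cosh (b * ρ) + b * sn b ρ * x) ^ 2) *
    √(1 - x ^ 2) ^ k) with hΦ
  have hsc := sn_continuous b
  have hΦc : ContinuousOn Φ.uncurry (Icc (-1 : ℝ) 1 ×ˢ univ) := by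
    simp only [hΦ]
    unfold Function.uncurry
    refine ContinuousOn.mul (by fun_prop) (ContinuousOn.mul (ContinuousOn.add ?_ ?_) (by fun_prop))
    · refine ContinuousOn.div (by fun_prop) (by fun_prop) ?_
      rintro ⟨x, ρ⟩ ⟨hx, _⟩
      exact (hv ρ x hx).ne'
    · refine ContinuousOn.div (by fun_prop) (by fun_prop) ?_
      rintro ⟨x, ρ⟩ ⟨hx, _⟩
      exact pow_ne_zero 2 (hv ρ x hx).ne'
  have hd : ∀ x ∈ Icc (-1 : ℝ) 1, ∀ ρ, HasDerivAt (fun ρ => sn b ρ ^ (k + 1) /
      (Real.cosh (b * ρ) + b * sn b ρ * x) * √(1 - x ^ 2) ^ k) (Φ x ρ) ρ := by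
    intro x hx ρ
    have h1 : HasDerivAt (fun ρ => sn b ρ ^ (k + 1)) ((k + 1) * sn b ρ ^ k * Real.cosh (b * ρ)) ρ := by
      have := (hasDerivAt_sn b ρ).fun_pow (k + 1)
      refine this.congr_deriv ?_
      push_cast
      simp
    have h2 : HasDerivAt (fun ρ => Real.cosh (b * ρ) + b * sn b ρ * x)
        (b * (b * sn b ρ) + b * Real.cosh (b * ρ) * x) ρ :=
      (hasDerivAt_cosh_sn b ρ).add (((hasDerivAt_sn b ρ).const_mul b).mul_const x)
    have h3 := (h1.div h2 (hv ρ x hx).ne').mul_const (√(1 - x ^ 2) ^ k)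
    refine h3.congr_deriv ?_
    have hvx := hv ρ x hx
    have hsq := cosh_sq_sn b ρ
    have e : (k * Real.cosh (b * ρ) / (Real.cosh (b * ρ) + b * sn b ρ * x) +
        1 / (Real.cosh (b * ρ) + b * sn b ρ * x) ^ 2) *
        (Real.cosh (b * ρ) + b * sn b ρ * x) ^ 2 =
        k * Real.cosh (b * ρ) * (Real.cosh (b * ρ) + b * sn b ρ * x) + 1 := by
      field_simp
    have key : ((k + 1) * sn b ρ ^ k * Real.cosh (b * ρ) *
          (Real.cosh (b * ρ) + b * sn b ρ * x) -
          sn b ρ ^ (k + 1) * (b * (b * sn b ρ) + b * Real.cosh (b * ρ) * x)) /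
        (Real.cosh (b * ρ) + b * sn b ρ * x) ^ 2 =
        sn b ρ ^ k * (k * Real.cosh (b * ρ) / (Real.cosh (b * ρ) + b * sn b ρ * x) +
        1 / (Real.cosh (b * ρ) + b * sn b ρ * x) ^ 2) := by
      rw [div_eq_iff (pow_ne_zero 2 hvx.ne'), mul_assoc (sn b ρ ^ k), e]
      linear_combination (sn b ρ ^ k) * hsq
    rw [key, mul_assoc]
  have h1 : ∀ x ∈ Icc (-1 : ℝ) 1, sn b r ^ (k + 1) /
      (√(1 + b ^ 2 * sn b r ^ 2) + b * sn b r * x) * √(1 - x ^ 2) ^ k =
      ∫ ρ in (0 : ℝ)..r, Φ x ρ := by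
    intro x hx
    have hcx : Continuous (Φ x) := by
      have := hΦc.comp_continuous (f := fun ρ : ℝ => (x, ρ)) (by fun_prop) fun ρ => ⟨hx, trivial⟩
      exact this
    rw [intervalIntegral.integral_eq_sub_of_hasDerivAt (fun ρ _ => hd x hx ρ)
      (hcx.intervalIntegrable _ _), sqrt_sn]
    simp [sn_zero]
  have h2 : ∫ x in (-1 : ℝ)..1, sn b r ^ (k + 1) /
      (√(1 + b ^ 2 * sn b r ^ 2) + b * sn b r * x) * √(1 - x ^ 2) ^ k =
      ∫ x in (-1 : ℝ)..1, ∫ ρ in (0 : ℝ)..r, Φ x ρ := by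
    apply intervalIntegral.integral_congr
    intro x hx
    rw [uIcc_of_le (by norm_num : (-1 : ℝ) ≤ 1)] at hx
    exact h1 x hx
  rw [h2, intervalIntegral_intervalIntegral_swap]
  · have h3 : ∀ ρ, ∫ x in (-1 : ℝ)..1, Φ x ρ = sn b ρ ^ k * ((k + 1) * wal k) := by
      intro ρ
      simp only [hΦ]
      rw [intervalIntegral.integral_const_mul, J_identity k (Real.cosh_pos _) (cosh_sq_sn b ρ)]
    simp only [h3]
    rw [intervalIntegral.integral_mul_const, omr_succ]
    unfold wal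
    ring
  · rw [uIoc_of_le (by norm_num : (-1 : ℝ) ≤ 1), uIoc_of_le hr]
    have hK : IsCompact (Icc (-1 : ℝ) 1 ×ˢ Icc 0 r) := isCompact_Icc.prod isCompact_Icc
    exact ((hΦc.mono (prod_mono_right (subset_univ _))).integrableOn_compact hK).mono_set
      (prod_mono Ioc_subset_Icc_self Ioc_subset_Icc_self)

theorem modelVol_eq (k : ℕ) (κ : ℝ) {r : ℝ} (hr : 0 ≤ r) :
    modelVol (k + 1) κ r = ∫ y in (-1 : ℝ)..1, dens k (hyp √(-κ) (sn √(-κ) r)) y := by
  rw [dens_volume k _ hr, modelVol, ← omr_eq_omega]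
  simp

theorem modelArea_eq (k : ℕ) (κ : ℝ) (r : ℝ) :
    sn √(-κ) r * modelArea (k + 1) κ r = ∫ y in (-1 : ℝ)..1,
      (((k : ℝ) + 1) * √(1 + √(-κ) ^ 2 * sn √(-κ) r ^ 2) - √(-κ) * sn √(-κ) r * y) *
        dens k (hyp √(-κ) (sn √(-κ) r)) y := by
  rw [area_identity, modelArea, ← omr_eq_omega]
  simp only [Nat.add_sub_cancel]
  push_cast
  ring

theorem omega_pos (n : ℕ) : 0 < omega n := by rw [← omr_eq_omega]; exact omr_pos n

theorem modelVol_continuous (n : ℕ) (κ : ℝ) : Continuous (modelVol n κ) := by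
  unfold modelVol
  have : Continuous fun t => sn √(-κ) t ^ (n - 1) := (sn_continuous _).pow _
  exact continuous_const.mul (intervalIntegral.continuous_primitive
    (fun a b => this.intervalIntegrable a b) 0)

theorem modelArea_continuous (n : ℕ) (κ : ℝ) : Continuous (modelArea n κ) := by
  unfold modelArea
  exact continuous_const.mul ((sn_continuous _).pow _)

theorem modelVol_zero (n : ℕ) (κ : ℝ) : modelVol n κ 0 = 0 := by simp [modelVol]

theorem hasDerivAt_modelVol (n : ℕ) (κ r : ℝ) :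
    HasDerivAt (modelVol n κ) (modelArea n κ r) r := by
  have hc : Continuous fun t => sn √(-κ) t ^ (n - 1) := (sn_continuous _).pow _
  have h1 := intervalIntegral.integral_hasDerivAt_right (hc.intervalIntegrable 0 r)
    (hc.stronglyMeasurableAtFilter _ _) hc.continuousAt
  exact h1.const_mul _

theorem modelVol_strictMonoOn (n : ℕ) (hn : 1 ≤ n) (κ : ℝ) :
    StrictMonoOn (modelVol n κ) (Ici 0) := by
  apply strictMonoOn_of_deriv_pos (convex_Ici 0) (modelVol_continuous n κ).continuousOn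
  intro r hr
  rw [interior_Ici] at hr
  rw [(hasDerivAt_modelVol n κ r).deriv, modelArea]
  have h1 := sn_pos √(-κ) hr
  have h2 := omega_pos n
  have h3 : (0 : ℝ) < n := by exact_mod_cast hn
  positivity

theorem sn_ge (b : ℝ) {r : ℝ} (hr : 0 ≤ r) : r ≤ sn b r := by
  have h : MonotoneOn (fun r => sn b r - r) (Ici 0) := by
    apply monotoneOn_of_deriv_nonneg (convex_Ici 0)
    · exact ((sn_continuous b).sub continuous_id).continuousOn
    · intro x _
      exact ((hasDerivAt_sn b x).sub (hasDerivAt_id x)).differentiableAt.differentiableWithinAt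
    · intro x _
      have := ((hasDerivAt_sn b x).sub (hasDerivAt_id x)).deriv
      have h2 : deriv (fun r => sn b r - r) x = Real.cosh (b * x) - 1 := this
      rw [h2]
      linarith [Real.one_le_cosh (b * x)]
  have := h (mem_Ici.2 le_rfl) (mem_Ici.2 hr) hr
  simp only [sn_zero] at this
  linarith

theorem modelVol_surj (n : ℕ) (hn : 1 ≤ n) (κ : ℝ) (V : ℝ) (hV : 0 ≤ V) :
    ∃ r, 0 ≤ r ∧ modelVol n κ r = V := by
  have hlim : Tendsto (modelVol n κ) atTop atTop := by
    have h1 : ∀ r, 0 ≤ r → omega n * r ^ n ≤ modelVol n κ r := by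
      intro r hr
      have e : omega n * r ^ n = n * omega n * ∫ t in (0 : ℝ)..r, t ^ (n - 1) := by
        rw [integral_pow]
        have : n - 1 + 1 = n := by omega
        rw [this]
        have h3 : ((n - 1 : ℕ) : ℝ) + 1 = n := by exact_mod_cast this
        rw [h3, zero_pow (by omega), sub_zero]
        have h4 : (n : ℝ) ≠ 0 := by positivity
        field_simp
      rw [e, modelVol]
      refine mul_le_mul_of_nonneg_left ?_ (mul_nonneg (Nat.cast_nonneg n) (omega_pos n).le)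
      apply intervalIntegral.integral_mono_on hr
      · exact (continuous_pow _).intervalIntegrable _ _
      · exact ((sn_continuous _).pow _).intervalIntegrable _ _
      · intro x hx
        exact pow_le_pow_left₀ hx.1 (sn_ge _ hx.1) _
    have h2 : Tendsto (fun r : ℝ => omega n * r ^ n) atTop atTop :=
      (tendsto_pow_atTop (by omega)).const_mul_atTop (omega_pos n)
    exact tendsto_atTop_mono' _ (eventually_atTop.2 ⟨0, h1⟩) h2
  obtain ⟨R, hR0, hR⟩ := ((eventually_ge_atTop 0).and (hlim.eventually_ge_atTop V)).exists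
  have := intermediate_value_Icc hR0 (modelVol_continuous n κ).continuousOn
  obtain ⟨r, hr, hrV⟩ := this ⟨by rw [modelVol_zero]; exact hV, hR⟩
  exact ⟨r, hr.1, hrV⟩

end Vale.Agent.P219
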