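import Vale.Agent.P219.CoBridge
import Vale.Agent.P219.Approx
import Vale.Agent.P219.Model

open MeasureTheory Matrix
open scoped ENNReal ContDiff

namespace Vale.Agent.P219.Co

variable {n : ℕ}

theorem Smooth.differentiable {f : E n → ℝ} (hf : Smooth f) : Differentiable ℝ f :=
  ContDiff.differentiable hf (by simp)

theorem gram_old (M : RiemMetric n) (x : E n) : gram (old M) x = M.g x := by
  ext i j
  rw [gram, of_apply, old_apply]
  simp [basisVec]

theorem volDensity_old (M : RiemMetric n) (x : E n) :
    Vale.Agent.P219.volDensity (old M) x = volDensity M x := by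
  have h : Vale.Agent.P219.volDensity (old M) x = √(gram (old M) x).det := rfl
  rw [h, gram_old, volDensity]

theorem inv_eq_fmat {M : RiemMetric n} {e : Fin n → E n → Fin n → ℝ} (he : TriangularFrame M e)
    (x : E n) : (M.g x)⁻¹ = (fmat (oldFrame e) x).transpose * fmat (oldFrame e) x := by
  apply Matrix.inv_eq_left_inv
  have h := fmat_gram (old M) (oldFrame e) (old_frame he) x
  rw [gram_old] at h
  set F := fmat (oldFrame e) x
  -- F * G * Fᵀ = 1 gives Fᵀ * (F * G) = 1
  have h2 : F.transpose * (F * M.g x) = 1 := mul_eq_one_comm.1 h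
  rw [Matrix.mul_assoc]
  exact h2

theorem gradNorm_old {M : RiemMetric n} {e : Fin n → E n → Fin n → ℝ} (he : TriangularFrame M e)
    {f : E n → ℝ} (hf : Differentiable ℝ f) (x : E n) :
    covNorm (old M) x (fderiv ℝ f x) = gradNorm M f x := by
  rw [covNorm_sum (old M) (oldFrame e) (old_frame he), gradNorm, inv_eq_fmat he]
  congr 1
  set p : Fin n → ℝ := fun i => pd i f x with hp
  have h1 : ∀ a, fderiv ℝ f x (oldFrame e a x) = (fmat (oldFrame e) x *ᵥ p) a := by
    intro a
    conv_lhs => rw [vec_eq_sum (oldFrame e a x)]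
    rw [map_sum]
    simp only [map_smul, smul_eq_mul, mulVec, dotProduct, fmat, of_apply, hp]
    refine Finset.sum_congr rfl fun i _ => ?_
    rw [pd_eq (hf x)]
  rw [← mulVec_mulVec, dotProduct_mulVec, vecMul_transpose]
  simp only [dotProduct]
  refine Finset.sum_congr rfl fun a _ => ?_
  rw [h1]
  ring

theorem norm_fderiv_co {f : E n → ℝ} (hf : Differentiable ℝ f) (x : E n) :
    ‖fderiv ℝ f x‖ = √(∑ i, pd i f x ^ 2) := by
  have h1 : ∀ i, pd i f x = ((InnerProductSpace.toDual ℝ (E n)).symm (fderiv ℝ f x)) i := by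
    intro i
    have h2 : inner ℝ ((InnerProductSpace.toDual ℝ (E n)).symm (fderiv ℝ f x))
        (EuclideanSpace.single i (1 : ℝ)) = fderiv ℝ f x (EuclideanSpace.single i 1) :=
      InnerProductSpace.toDual_symm_apply
    rw [pd_eq (hf x), basisVec, ← h2, EuclideanSpace.inner_single_right]
    simp
  rw [← LinearIsometryEquiv.norm_map (InnerProductSpace.toDual ℝ (E n)).symm (fderiv ℝ f x),
    EuclideanSpace.norm_eq]
  congr 1
  refine Finset.sum_congr rfl fun i _ => ?_
  rw [h1 i, Real.norm_eq_abs, sq_abs]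

theorem fderiv_ne_zero {f : E n → ℝ} (hf : Differentiable ℝ f) {x : E n}
    (h : ∃ i, pd i f x ≠ 0) : fderiv ℝ f x ≠ 0 := by
  obtain ⟨i, hi⟩ := h
  intro h0
  apply hi
  rw [pd_eq (hf x), h0]
  simp

/-- The domain in the invariant form. -/
noncomputable def oldDomain (D : SmoothDomain n) : Vale.Agent.P219.SmoothDomain n where
  ρ := D.ρ
  smooth := D.smooth
  bdd := by
    obtain ⟨R, hR⟩ := D.bdd
    rw [isBounded_iff_forall_norm_le]
    refine ⟨√(∑ _i : Fin n, R ^ 2), fun x hx => ?_⟩
    rw [EuclideanSpace.norm_eq]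
    apply Real.sqrt_le_sqrt
    refine Finset.sum_le_sum fun i _ => ?_
    rw [Real.norm_eq_abs]
    exact pow_le_pow_left₀ (abs_nonneg _) (hR x hx i) 2
  regular x hx := fderiv_ne_zero D.smooth.differentiable (D.regular x hx)

theorem riemVol_old (M : RiemMetric n) (S : Set (E n)) :
    Vale.Agent.P219.riemVol (old M) S = riemVol M S := by
  unfold Vale.Agent.P219.riemVol riemVol leb
  simp only [volDensity_old]

theorem riemArea_old {M : RiemMetric n} {e : Fin n → E n → Fin n → ℝ} (he : TriangularFrame M e)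
    (D : SmoothDomain n) : Vale.Agent.P219.riemArea (old M) (oldDomain D) = riemArea M D := by
  unfold Vale.Agent.P219.riemArea riemArea
  have h : ∀ x, Vale.Agent.P219.volDensity (old M) x * (covNorm (old M) x
      (fderiv ℝ (oldDomain D).ρ x) / ‖fderiv ℝ (oldDomain D).ρ x‖) =
      volDensity M x * gradNorm M D.ρ x / √(∑ i, pd i D.ρ x ^ 2) := by
    intro x
    have h1 : (oldDomain D).ρ = D.ρ := rfl
    rw [h1, volDensity_old, gradNorm_old he D.smooth.differentiable,
      norm_fderiv_co D.smooth.differentiable, mul_div_assoc]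
  simp only [h]
  rfl

theorem omega_old (n : ℕ) : Vale.Agent.P219.omega n = omega n := by
  unfold Vale.Agent.P219.omega omega leb
  congr 2
  ext x
  simp only [Metric.mem_ball, dist_zero_right, Set.mem_ofPred_eq]
  rw [EuclideanSpace.norm_eq, Real.sqrt_lt' one_pos]
  simp

theorem modelVol_old (n : ℕ) (κ r : ℝ) : Vale.Agent.P219.modelVol n κ r = modelVol n κ r := by
  unfold Vale.Agent.P219.modelVol modelVol
  rw [omega_old]
  rfl

theorem modelArea_old (n : ℕ) (κ r : ℝ) : Vale.Agent.P219.modelArea n κ r = modelArea n κ r := by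
  unfold Vale.Agent.P219.modelArea modelArea
  rw [omega_old]
  rfl

theorem isop_old {M : RiemMetric n} {e : Fin n → E n → Fin n → ℝ} (he : TriangularFrame M e)
    {κ : ℝ} (h : Vale.Agent.P219.IsoperimetricIneq (old M) κ) : IsoperimetricIneq M κ := by
  intro D
  obtain ⟨r, hr, h1, h2⟩ := h (oldDomain D)
  refine ⟨r, hr, ?_, ?_⟩
  · rw [← modelVol_old, ← h1, ← riemVol_old]
    rfl
  · rw [← modelArea_old, ← riemArea_old he]
    exact h2

theorem divg_old {M : RiemMetric n} {e : Fin n → E n → Fin n → ℝ} (he : TriangularFrame M e)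
    (a : Fin n) (x : E n) :
    Vale.Agent.P219.divg (old M) (oldFrame e a) x = divg M (e a) x := by
  unfold Vale.Agent.P219.divg divg
  rw [volDensity_old]
  congr 1
  refine Finset.sum_congr rfl fun i _ => ?_
  have hv : Vale.Agent.P219.volDensity (old M) = volDensity M := by
    funext y; exact volDensity_old M y
  have hd : Differentiable ℝ fun y => volDensity M y * e a y i := by
    rw [← hv]
    exact ((volDensity_smooth (old M) (oldFrame e) (old_frame he)).mul
      (he.smooth a i)).differentiable (by simp)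
  rw [pd_eq (hd x), hv]
  rfl

end Vale.Agent.P219.Co
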