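import Mathlib

open MeasureTheory
open scoped ENNReal ContDiff

namespace Vale.Agent.P219

/-- Euclidean space `ℝⁿ`, used as a global chart. -/
abbrev E (n : ℕ) := EuclideanSpace ℝ (Fin n)

/-- A smooth Riemannian metric on the manifold `ℝⁿ`. -/
structure RiemMetric (n : ℕ) where
  /-- the metric tensor -/
  g : E n → E n →L[ℝ] E n →L[ℝ] ℝ
  smooth : ContDiff ℝ ∞ g
  symm : ∀ x u v, g x u v = g x v u
  pos : ∀ x v, v ≠ 0 → 0 < g x v v

/-- The `i`-th coordinate vector field `∂ᵢ`. -/
noncomputable def basisVec {n : ℕ} (i : Fin n) : E n := EuclideanSpace.single i 1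

/-- The Riemannian volume density `√(det gᵢⱼ)`. -/
noncomputable def volDensity {n : ℕ} (M : RiemMetric n) (x : E n) : ℝ :=
  √(Matrix.det (Matrix.of fun i j : Fin n => M.g x (basisVec i) (basisVec j)))

/-- The Riemannian volume of a set. -/
noncomputable def riemVol {n : ℕ} (M : RiemMetric n) (S : Set (E n)) : ℝ≥0∞ :=
  ∫⁻ x in S, ENNReal.ofReal (volDensity M x)

/-- The norm of a covector `φ` at the point `x` with respect to the metric. -/
noncomputable def covNorm {n : ℕ} (M : RiemMetric n) (x : E n) (φ : E n →L[ℝ] ℝ) : ℝ :=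
  sSup {t | ∃ v, M.g x v v ≤ 1 ∧ φ v = t}

/-- A domain: a bounded open set with smooth boundary, given by a global defining function. -/
structure SmoothDomain (n : ℕ) where
  /-- the defining function -/
  ρ : E n → ℝ
  smooth : ContDiff ℝ ∞ ρ
  bdd : Bornology.IsBounded {x | ρ x < 0}
  regular : ∀ x, ρ x = 0 → fderiv ℝ ρ x ≠ 0

/-- The underlying open set of a domain. -/
def SmoothDomain.carrier {n : ℕ} (D : SmoothDomain n) : Set (E n) := {x | D.ρ x < 0}

/-- The Riemannian area (the `(n-1)`-dimensional Riemannian measure) of the boundary `{ρ = 0}`: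
the integral of `√(det g) |ν|_g` against the Euclidean `(n-1)`-dimensional Hausdorff measure,
where `ν = dρ / |dρ|` is the Euclidean unit conormal and `|·|_g` is the norm of covectors. -/
noncomputable def riemArea {n : ℕ} (M : RiemMetric n) (D : SmoothDomain n) : ℝ≥0∞ :=
  ∫⁻ x in {x | D.ρ x = 0},
    ENNReal.ofReal (volDensity M x * (covNorm M x (fderiv ℝ D.ρ x) / ‖fderiv ℝ D.ρ x‖))
      ∂(μHE[n - 1] : Measure (E n))

/-- `ω_n`, the volume of the unit ball of `ℝⁿ`. -/
noncomputable def omega (n : ℕ) : ℝ := (volume (Metric.ball (0 : E n) 1)).toReal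

/-- `sn_b(r)`, equal to `r` if `b = 0` and to `sinh (b r) / b` otherwise. -/
noncomputable def sn (b r : ℝ) : ℝ := if b = 0 then r else Real.sinh (b * r) / b

/-- Boundary area of a geodesic ball of radius `r` in the space form of curvature `κ`. -/
noncomputable def modelArea (n : ℕ) (κ r : ℝ) : ℝ := n * omega n * sn √(-κ) r ^ (n - 1)

/-- Volume of a geodesic ball of radius `r` in the space form of curvature `κ`. -/
noncomputable def modelVol (n : ℕ) (κ r : ℝ) : ℝ :=
  n * omega n * ∫ t in (0 : ℝ)..r, sn √(-κ) t ^ (n - 1)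

/-- The conclusion of the generalized Cartan-Hadamard conjecture for the Riemannian manifold
`(ℝⁿ, g)`: every domain `D` satisfies `area (∂ D) ≥ I_κ (vol D)`. -/
def IsoperimetricIneq {n : ℕ} (M : RiemMetric n) (κ : ℝ) : Prop :=
  ∀ D : SmoothDomain n, ∃ r : ℝ, 0 ≤ r ∧
    riemVol M D.carrier = ENNReal.ofReal (modelVol n κ r) ∧
    ENNReal.ofReal (modelArea n κ r) ≤ riemArea M D

/-- The Riemannian divergence `(√det g)⁻¹ ∑ᵢ ∂ᵢ (√det g Xⁱ)` of a vector field. -/
noncomputable def divg {n : ℕ} (M : RiemMetric n) (X : E n → E n) (x : E n) : ℝ :=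
  (volDensity M x)⁻¹ * ∑ i, fderiv ℝ (fun y => volDensity M y * X y i) x (basisVec i)

/-- `e` is a smooth orthonormal frame field, triangular with respect to the coordinates:
`eₐ` lies in the span of `∂ₐ, …, ∂ₙ`, with positive `∂ₐ` component. -/
structure TriangularFrame {n : ℕ} (M : RiemMetric n) (e : Fin n → E n → E n) : Prop where
  smooth : ∀ a, ContDiff ℝ ∞ (e a)
  orthonormal : ∀ x a b, M.g x (e a x) (e b x) = if a = b then 1 else 0
  triangular : ∀ a x i, i < a → e a x i = 0
  positive : ∀ a x, 0 < e a x a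

/-- `Sec ≤ κ`, with the Levi-Civita connection given by its Christoffel tensor `Γ` (determined by
the Koszul formula) and `R(u,v)w = (D_u Γ)(v,w) - (D_v Γ)(u,w) + Γ(u,Γ(v,w)) - Γ(v,Γ(u,w))`. -/
def SecLE {n : ℕ} (M : RiemMetric n) (κ : ℝ) : Prop :=
  ∃ Γ : E n → E n →L[ℝ] E n →L[ℝ] E n, ContDiff ℝ ∞ Γ ∧
    (∀ x u v w, 2 * M.g x (Γ x u v) w =
      fderiv ℝ M.g x u v w + fderiv ℝ M.g x v u w - fderiv ℝ M.g x w u v) ∧
    ∀ x u v, M.g x (fderiv ℝ Γ x u v v - fderiv ℝ Γ x v u v + Γ x u (Γ x v v)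
      - Γ x v (Γ x u v)) u ≤ κ * (M.g x u u * M.g x v v - M.g x u v ^ 2)

/-- The frame `e` is left-invariant for a Lie group structure with structure constants `c`:
`[e_a, e_b] = ∑ₖ c a b k • e_k` with constant coefficients. -/
def HasStructure {n : ℕ} (e : Fin n → E n → E n) (c : Fin n → Fin n → Fin n → ℝ) : Prop :=
  ∀ a b x, VectorField.lieBracket ℝ (e a) (e b) x = ∑ k, c a b k • e k x

/-- The span of all frame vectors but the first one is a nilpotent ideal of the Lie algebra with
structure constants `c`, and the basis is adapted to a central series of it. -/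
def NilpotentIdeal {n : ℕ} (c : Fin n → Fin n → Fin n → ℝ) : Prop :=
  (∀ a b k : Fin n, k.val = 0 → c a b k = 0) ∧
  (∀ a b k : Fin n, a.val ≠ 0 → b.val ≠ 0 → (k ≤ a ∨ k ≤ b) → c a b k = 0)

end Vale.Agent.P219
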