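import Vale.Agent.P219.Defs

open MeasureTheory
open scoped ENNReal ContDiff

namespace Vale.Agent.P219

variable {n : ℕ}

/-- The Gram matrix of the metric. -/
noncomputable def gram (M : RiemMetric n) (x : E n) : Matrix (Fin n) (Fin n) ℝ :=
  Matrix.of fun i j : Fin n => M.g x (basisVec i) (basisVec j)

/-- The matrix of components of the frame. -/
noncomputable def fmat (e : Fin n → E n → E n) (x : E n) : Matrix (Fin n) (Fin n) ℝ :=
  Matrix.of fun a i : Fin n => e a x i

theorem vec_eq_sum (v : E n) : v = ∑ i, v i • basisVec i := by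
  ext j
  have h : ∀ i : Fin n, (v i • (basisVec i : E n)) j = if i = j then v i else 0 := by
    intro i
    by_cases hij : i = j
    · subst hij; simp [basisVec]
    · simp [basisVec, hij, Ne.symm hij]
  rw [WithLp.ofLp_sum, Finset.sum_apply]
  rw [Finset.sum_congr rfl fun i _ => h i]
  simp

theorem g_apply (M : RiemMetric n) (x u v : E n) :
    M.g x u v = ∑ i, ∑ j, u i * v j * gram M x i j := by
  conv_lhs => rw [vec_eq_sum u, vec_eq_sum v]
  simp only [map_sum, map_smul, _root_.sum_apply, _root_.smul_apply,
    smul_eq_mul, gram, Matrix.of_apply, Finset.mul_sum]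
  rw [Finset.sum_comm]
  refine Finset.sum_congr rfl fun i _ => Finset.sum_congr rfl fun j _ => ?_
  ring

theorem fmat_gram (M : RiemMetric n) (e : Fin n → E n → E n) (he : TriangularFrame M e) (x : E n) :
    fmat e x * gram M x * (fmat e x).transpose = 1 := by
  ext a b
  have h := he.orthonormal x a b
  rw [g_apply] at h
  rw [Matrix.mul_apply, Matrix.one_apply, ← h]
  simp only [Matrix.mul_apply, fmat, Matrix.of_apply, Matrix.transpose_apply, Finset.sum_mul]
  rw [Finset.sum_comm]
  refine Finset.sum_congr rfl fun i _ => Finset.sum_congr rfl fun j _ => ?_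
  ring

theorem det_fmat (M : RiemMetric n) (e : Fin n → E n → E n) (he : TriangularFrame M e) (x : E n) :
    (fmat e x).det = ∏ a, e a x a := by
  have h : (fmat e x).BlockTriangular id := by
    intro a i hai
    exact he.triangular a x i hai
  rw [Matrix.det_of_isUpperTriangular h]
  rfl

theorem prod_pos (M : RiemMetric n) (e : Fin n → E n → E n) (he : TriangularFrame M e) (x : E n) :
    0 < ∏ a, e a x a := Finset.prod_pos fun a _ => he.positive a x

theorem volDensity_prod (M : RiemMetric n) (e : Fin n → E n → E n) (he : TriangularFrame M e)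
    (x : E n) : volDensity M x = (∏ a, e a x a)⁻¹ := by
  have h := congrArg Matrix.det (fmat_gram M e he x)
  rw [Matrix.det_mul, Matrix.det_mul, Matrix.det_transpose, Matrix.det_one,
    det_fmat M e he x] at h
  have hp := prod_pos M e he x
  have hg : (gram M x).det = ((∏ a, e a x a)⁻¹) ^ 2 := by
    field_simp
    linarith
  have : volDensity M x = √((gram M x).det) := rfl
  rw [this, hg, Real.sqrt_sq (inv_pos.2 hp).le]

theorem volDensity_gt (M : RiemMetric n) (e : Fin n → E n → E n) (he : TriangularFrame M e)
    (x : E n) : 0 < volDensity M x := by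
  rw [volDensity_prod M e he]; exact inv_pos.2 (prod_pos M e he x)

/-- expansion of a vector in an orthonormal frame -/
theorem frame_expand (M : RiemMetric n) (e : Fin n → E n → E n) (he : TriangularFrame M e)
    (x v : E n) : v = ∑ a, M.g x (e a x) v • e a x := by
  -- linear independence
  have hli : LinearIndependent ℝ fun a => e a x := by
    rw [Fintype.linearIndependent_iff]
    intro c hc a
    have h1 : M.g x (e a x) (∑ b, c b • e b x) = 0 := by rw [hc, map_zero]
    rw [map_sum] at h1
    simp only [map_smul, smul_eq_mul, he.orthonormal] at h1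
    simpa using h1
  have hspan : ⊤ ≤ Submodule.span ℝ (Set.range fun a => e a x) := by
    rw [LinearIndependent.span_eq_top_of_card_eq_finrank' hli (by simp)]
  let B := Module.Basis.mk hli hspan
  have hv := B.sum_repr v
  have hB : ∀ a, B a = e a x := fun a => by simp [B]
  have hc : ∀ a, M.g x (e a x) v = B.repr v a := by
    intro a
    conv_lhs => rw [← hv]
    rw [map_sum]
    simp only [map_smul, smul_eq_mul, hB, he.orthonormal]
    simp
  conv_lhs => rw [← hv]
  refine Finset.sum_congr rfl fun a _ => ?_
  rw [hc, hB]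

theorem g_self (M : RiemMetric n) (e : Fin n → E n → E n) (he : TriangularFrame M e)
    (x v : E n) : M.g x v v = ∑ a, M.g x (e a x) v ^ 2 := by
  conv_lhs => rw [frame_expand M e he x v]
  rw [map_sum]
  simp only [map_smul, smul_eq_mul]
  refine Finset.sum_congr rfl fun a _ => ?_
  rw [sq]
  congr 1
  rw [← frame_expand M e he x v, M.symm]

theorem covNorm_sum (M : RiemMetric n) (e : Fin n → E n → E n) (he : TriangularFrame M e)
    (x : E n) (φ : E n →L[ℝ] ℝ) : covNorm M x φ = √(∑ a, φ (e a x) ^ 2) := by
  set N := √(∑ a, φ (e a x) ^ 2) with hN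
  have hN0 : 0 ≤ N := Real.sqrt_nonneg _
  have hNsq : N ^ 2 = ∑ a, φ (e a x) ^ 2 := Real.sq_sqrt (Finset.sum_nonneg fun a _ => sq_nonneg _)
  have hle : ∀ v, M.g x v v ≤ 1 → φ v ≤ N := by
    intro v hv
    have h1 : φ v = ∑ a, M.g x (e a x) v * φ (e a x) := by
      conv_lhs => rw [frame_expand M e he x v]
      simp
    rw [h1]
    apply Real.le_sqrt_of_sq_le
    have h2 := Finset.sum_mul_sq_le_sq_mul_sq Finset.univ (fun a => M.g x (e a x) v)
      (fun a => φ (e a x))
    rw [← g_self M e he] at h2
    have h3 : 0 ≤ ∑ a, φ (e a x) ^ 2 := Finset.sum_nonneg fun a _ => sq_nonneg _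
    nlinarith
  unfold covNorm
  apply le_antisymm
  · apply csSup_le (show Set.Nonempty {t | ∃ v, M.g x v v ≤ 1 ∧ φ v = t} from ⟨φ 0, 0, by simp, rfl⟩)
    rintro t ⟨v, hv, rfl⟩
    exact hle v hv
  · have hbdd : BddAbove {t | ∃ v, M.g x v v ≤ 1 ∧ φ v = t} := by
      refine ⟨N, ?_⟩
      rintro t ⟨v, hv, rfl⟩
      exact hle v hv
    by_cases h0 : N = 0
    · rw [h0]
      exact le_csSup hbdd ⟨0, by simp, by simp⟩
    · apply le_csSup hbdd
      refine ⟨∑ a, (φ (e a x) / N) • e a x, ?_, ?_⟩
      · rw [g_self M e he]
        have : ∀ a, M.g x (e a x) (∑ b, (φ (e b x) / N) • e b x) = φ (e a x) / N := by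
          intro a
          rw [map_sum]
          simp only [map_smul, smul_eq_mul, he.orthonormal]
          simp
        simp only [this, div_pow, ← Finset.sum_div]
        rw [← hNsq, div_self (pow_ne_zero 2 h0)]
      · rw [map_sum]
        simp only [map_smul, smul_eq_mul]
        have : ∀ a, φ (e a x) / N * φ (e a x) = φ (e a x) ^ 2 / N := fun a => by ring
        simp only [this, ← Finset.sum_div]
        rw [← hNsq]
        field_simp

end Vale.Agent.P219
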