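import Vale.Agent.P219.CoDefs
import Vale.Agent.P219.FrameBasic

open MeasureTheory Matrix
open scoped ENNReal ContDiff

namespace Vale.Agent.P219.Co

variable {n : ℕ}

theorem smooth_smul {V W : Type*} [NormedAddCommGroup V] [NormedSpace ℝ V] [NormedAddCommGroup W]
    [NormedSpace ℝ W] (f : V → ℝ) (B : W) (hf : ContDiff ℝ ∞ f) : ContDiff ℝ ∞ fun x => f x • B :=
  hf.smul contDiff_const

/-- The bilinear form `(u, v) ↦ uᵢ vⱼ`. -/
noncomputable def bil (i j : Fin n) : E n →L[ℝ] E n →L[ℝ] ℝ :=
  (EuclideanSpace.proj i : E n →L[ℝ] ℝ).smulRight (EuclideanSpace.proj j : E n →L[ℝ] ℝ)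

theorem bil_apply (i j : Fin n) (u v : E n) : bil i j u v = u i * v j := by
  simp [bil]

theorem old_g_apply (A : Matrix (Fin n) (Fin n) ℝ) (u v : E n) :
    (∑ i, ∑ j, A i j • bil i j) u v = u ⬝ᵥ A *ᵥ v := by
  simp only [_root_.sum_apply, _root_.smul_apply, bil_apply, smul_eq_mul, dotProduct, mulVec,
    Finset.mul_sum]
  refine Finset.sum_congr rfl fun i _ => Finset.sum_congr rfl fun j _ => ?_
  ring

/-- The metric in the invariant form. -/
noncomputable def old (M : RiemMetric n) : Vale.Agent.P219.RiemMetric n where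
  g x := ∑ i, ∑ j, M.g x i j • bil i j
  smooth := by
    refine ContDiff.sum fun i _ => ContDiff.sum fun j _ => ?_
    exact smooth_smul _ (bil i j) (M.smooth i j)
  symm x u v := by
    rw [old_g_apply, old_g_apply, dotProduct_mulVec, ← mulVec_transpose, dotProduct_comm]
    have h : (M.g x).transpose = M.g x := by
      have := (M.pos x).isHermitian
      simpa [Matrix.IsHermitian, conjTranspose_eq_transpose_of_trivial] using this
    rw [h]
  pos x v hv := by
    rw [old_g_apply]
    have hv' : (v : Fin n → ℝ) ≠ 0 := fun h => hv (by ext i; simpa using congrFun h i)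
    have := (M.pos x).dotProduct_mulVec_pos hv'
    simpa using this

theorem old_apply (M : RiemMetric n) (x u v : E n) : (old M).g x u v = u ⬝ᵥ M.g x *ᵥ v :=
  old_g_apply _ _ _

/-- The frame as a family of vector fields. -/
noncomputable def oldFrame (e : Fin n → E n → Fin n → ℝ) (a : Fin n) (x : E n) : E n :=
  WithLp.toLp 2 (e a x)

theorem old_frame {M : RiemMetric n} {e : Fin n → E n → Fin n → ℝ} (he : TriangularFrame M e) :
    Vale.Agent.P219.TriangularFrame (old M) (oldFrame e) where
  smooth a := by
    rw [contDiff_euclidean]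
    intro i
    exact he.smooth a i
  orthonormal x a b := by
    rw [old_apply]
    exact he.orthonormal x a b
  triangular a x i hi := he.triangular a x i hi
  positive a x := he.positive a x

theorem pd_eq {f : E n → ℝ} {x : E n} (hf : DifferentiableAt ℝ f x) (i : Fin n) :
    pd i f x = fderiv ℝ f x (basisVec i) :=
  hf.lineDeriv_eq_fderiv

end Vale.Agent.P219.Co
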