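import Vale.Agent.P219.CoDefs

/-! # Domains isometric to Euclidean balls -/

namespace Vale.Agent.P219.Co

/-- `D`, with the metric induced by `M`, is isometric to the Euclidean ball of radius `r`: there is a
smooth map from `ℝⁿ` to `ℝⁿ` which maps the ball bijectively onto `D` and pulls the metric `M` back to
the Euclidean one. -/
def IsometricToBall {n : ℕ} (M : RiemMetric n) (D : SmoothDomain n) (r : ℝ) : Prop :=
  ∃ φ : E n → E n, (∀ k, Smooth fun x => φ x k) ∧ Set.InjOn φ {x | ∑ i, x i ^ 2 < r ^ 2} ∧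
    φ '' {x | ∑ i, x i ^ 2 < r ^ 2} = D.carrier ∧
    ∀ x, ∑ i, x i ^ 2 < r ^ 2 → ∀ i j, ∑ k, ∑ l, M.g (φ x) k l *
      pd i (fun y => φ y k) x * pd j (fun y => φ y l) x = if i = j then 1 else 0

end Vale.Agent.P219.Co
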