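import Vale.Agent.P219.TriSys

namespace Vale.Agent.P219

open MeasureTheory Set Filter Topology

variable {k : ℕ}

/-- The transport derivative is integrable. -/
theorem Transport.integrableOn_deriv {f p τ : ℝ → ℝ} {t₀ t₁ : ℝ} (hT : Transport f p τ t₀ t₁)
    (hf0 : ∀ t, 0 ≤ f t) (hp0 : ∀ y ∈ Ioo (-1 : ℝ) 1, 0 < p y) :
    IntegrableOn (fun t => f t / p (τ t)) (Ioo t₀ t₁) := by
  have hτ'0 : ∀ t ∈ Ioo t₀ t₁, 0 ≤ f t / p (τ t) := fun t ht =>
    div_nonneg (hf0 t) (hp0 _ (hT.inside t ht)).le
  exact (intervalIntegral.integrableOn_deriv_of_nonneg hT.cont.continuousOn hT.deriv hτ'0).mono_set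
    Ioo_subset_Ioc_self

/-- Continuous functions with compact support times functions of the first coordinate. -/
theorem integrable_mul_left {G : (Fin (k + 1) → ℝ) → ℝ} (hG : Continuous G)
    (hc : HasCompactSupport G) {h : ℝ → ℝ} (hh : Continuous h) :
    Integrable fun x => h (x 0) * G x :=
  ((hh.comp (continuous_apply 0)).mul hG).integrable_of_hasCompactSupport (hc.mul_left)

/-- The integral of a transversal derivative vanishes. -/
theorem integral_transversal {G : (Fin (k + 1) → ℝ) → ℝ} (hG : ContDiff ℝ 1 G)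
    (hc : HasCompactSupport G) {h : ℝ → ℝ} (hh : Continuous h) (i : Fin k) :
    ∫ x, h (x 0) * fderiv ℝ G x (Pi.single i.succ 1) = 0 := by
  have hd : Continuous fun x => fderiv ℝ G x (Pi.single i.succ 1) :=
    (hG.continuous_fderiv (by norm_num)).clm_apply continuous_const
  have hdc : HasCompactSupport fun x => fderiv ℝ G x (Pi.single i.succ 1) :=
    hc.fderiv_apply ℝ _
  have key := integral_bilinear_hasLineDerivAt_right_eq_neg_left_of_integrable
    (μ := (volume : Measure (Fin (k + 1) → ℝ)))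
    (f := fun x => h (x 0)) (f' := fun _ => 0) (g := G)
    (g' := fun x => fderiv ℝ G x (Pi.single i.succ 1)) (v := Pi.single i.succ 1)
    (B := ContinuousLinearMap.mul ℝ ℝ)
    (by simp) (by simpa using integrable_mul_left hd hdc hh)
    (by simpa using integrable_mul_left hG.continuous hc hh)
    (by
      intro x _
      have : (fun t : ℝ => h ((x + t • (Pi.single i.succ 1 : Fin (k + 1) → ℝ)) 0)) =
          fun _ => h (x 0) := by
        funext t
        simp [Fin.succ_ne_zero, eq_comm]
      unfold HasLineDerivAt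
      rw [this]
      exact hasDerivAt_const _ _)
    (by
      intro x _
      exact ((hG.differentiable (by norm_num)) x).hasFDerivAt.hasLineDerivAt _)
  simpa using key

/-- Integration by parts in the first coordinate. -/
theorem integral_longitudinal {f p τ : ℝ → ℝ} {t₀ t₁ : ℝ} (hT : Transport f p τ t₀ t₁)
    (hf : Continuous f) (hf0 : ∀ t, 0 ≤ f t) (hp : ContinuousOn p (Icc (-1) 1))
    (hp0 : ∀ y ∈ Ioo (-1 : ℝ) 1, 0 < p y)
    {G : (Fin (k + 1) → ℝ) → ℝ} (hG : ContDiff ℝ 1 G) (hc : HasCompactSupport G)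
    (hG0 : ∀ x, 0 ≤ G x) (hGz : ∀ t, t ∉ Ioo t₀ t₁ → ∀ x, G (cs t x) = 0) :
    IntegrableOn (fun t => f t / p (τ t) * ∫ x, G (cs t x)) (Ioo t₀ t₁) ∧
    - ∫ x, τ (x 0) * fderiv ℝ G x (Pi.single 0 1) =
      ∫ t in Ioo t₀ t₁, f t / p (τ t) * ∫ x, G (cs t x) := by
  have hd : Continuous fun x => fderiv ℝ G x (Pi.single 0 1) :=
    (hG.continuous_fderiv (by norm_num)).clm_apply continuous_const
  have hdc : HasCompactSupport fun x => fderiv ℝ G x (Pi.single 0 1) :=
    hc.fderiv_apply ℝ _
  have hint : Integrable fun x => τ (x 0) * fderiv ℝ G x (Pi.single 0 1) :=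
    integrable_mul_left hd hdc hT.cont
  have hprod : Integrable (fun q : ℝ × (Fin k → ℝ) => f q.1 / p (τ q.1) * G (cs q.1 q.2))
      ((volume.restrict (Ioo t₀ t₁)).prod volume) := by
    have hGi : Integrable (fun q : ℝ × (Fin k → ℝ) => G (cs q.1 q.2)) :=
      integrable_cs (hG.continuous.integrable_of_hasCompactSupport hc)
    obtain ⟨C, hC⟩ := hG.continuous.bounded_above_of_compact_support hc
    set s : Set (Fin k → ℝ) :=
      (fun y : Fin (k + 1) → ℝ => fun i => y (Fin.succ i)) '' tsupport G with hsdef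
    have hs : IsCompact s := hc.isCompact.image (by fun_prop)
    have hzero : ∀ t x, x ∉ s → G (cs t x) = 0 := by
      intro t x hx
      by_contra hne
      exact hx ⟨cs t x, subset_tsupport G hne, rfl⟩
    have hbound : Integrable (fun q : ℝ × (Fin k → ℝ) =>
        (f q.1 / p (τ q.1)) * (s.indicator (fun _ => C) q.2))
        ((volume.restrict (Ioo t₀ t₁)).prod volume) := by
      apply Integrable.mul_prod (f := fun t => f t / p (τ t)) (g := s.indicator (fun _ => C))
      · exact hT.integrableOn_deriv hf0 hp0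
      · rw [integrable_indicator_iff hs.measurableSet]
        exact integrableOn_const hs.measure_lt_top.ne
    refine hbound.mono ?_ ?_
    · have hpτ : Continuous fun t => p (τ t) := by
        rw [← continuousOn_univ]
        exact hp.comp hT.cont.continuousOn fun t _ => hT.mem t
      have h1 : Measurable fun q : ℝ × (Fin k → ℝ) => f q.1 / p (τ q.1) * G (cs q.1 q.2) :=
        ((hf.measurable.div hpτ.measurable).comp measurable_fst).mul
          (hG.continuous.comp continuous_cs).measurable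
      exact h1.aestronglyMeasurable
    · refine Eventually.of_forall fun q => ?_
      rw [norm_mul, norm_mul]
      refine mul_le_mul_of_nonneg_left ?_ (norm_nonneg _)
      by_cases hq : q.2 ∈ s
      · rw [indicator_of_mem hq]
        exact (hC _).trans (le_abs_self C)
      · rw [hzero _ _ hq, indicator_of_notMem hq]
  have hswap := integral_integral_swap (μ := volume.restrict (Ioo t₀ t₁)) (ν := volume)
    (f := fun t x => f t / p (τ t) * G (cs t x)) hprod
  constructor
  · have := hprod.integral_prod_left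
    simp only [integral_const_mul] at this
    exact this
  · rw [integral_cs' hint, ← integral_neg]
    simp only [integral_const_mul] at hswap
    rw [hswap]
    congr 1
    funext x
    have hu : ∀ t, HasDerivAt (fun t => G (cs t x)) (fderiv ℝ G (cs t x) (Pi.single 0 1)) t := by
      intro t
      have h1 := ((hG.differentiable (by norm_num)) (cs t x)).hasFDerivAt
      exact h1.comp_hasDerivAt t (hasDerivAt_cs_left x t)
    have := (hT.ibp hf0 hp0 hu (hd.comp (continuous_cs_left x)) (fun t => hG0 _)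
      (fun t ht => hGz t ht x)).2
    simp only [cs_zero]
    exact this.symm

/-- The first field tested against the transport. -/
theorem first_field (S : TriSys (k + 1)) {f p τ : ℝ → ℝ} {t₀ t₁ : ℝ}
    (hT : Transport f p τ t₀ t₁)
    (hf : Continuous f) (hf0 : ∀ t, 0 ≤ f t) (hp : ContinuousOn p (Icc (-1) 1))
    (hp0 : ∀ y ∈ Ioo (-1 : ℝ) 1, 0 < p y)
    {F : (Fin (k + 1) → ℝ) → ℝ} (hF : ContDiff ℝ 1 F) (hc : HasCompactSupport F)
    (hF0 : ∀ x, 0 ≤ F x) (hFz : ∀ t, t ∉ Ioo t₀ t₁ → ∀ x, F (cs t x) = 0) :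
    IntegrableOn (fun t => f t / p (τ t) *
      ∫ x, F (cs t x) * (S.w (cs t x) * S.E 0 (cs t x) 0)) (Ioo t₀ t₁) ∧
    - ∫ x, τ (x 0) * (fderiv ℝ F x (S.E 0 x) * S.w x) =
      (∫ t in Ioo t₀ t₁, f t / p (τ t) * ∫ x, F (cs t x) * (S.w (cs t x) * S.E 0 (cs t x) 0)) +
      ∫ x, τ (x 0) * (S.β 0 x * F x * S.w x) := by
  set G : Fin (k + 1) → (Fin (k + 1) → ℝ) → ℝ := fun i x => F x * (S.w x * S.E 0 x i) with hGdef
  have hG : ∀ i, ContDiff ℝ 1 (G i) := fun i => hF.mul (S.V_c1 0 i)
  have hGc : ∀ i, HasCompactSupport (G i) := fun i => hc.mul_right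
  have hlong := integral_longitudinal hT hf hf0 hp hp0 (hG 0) (hGc 0)
    (fun x => mul_nonneg (hF0 x) (mul_pos (S.w_pos x) (S.diag 0 x)).le)
    (fun t ht x => by simp only [hGdef]; rw [hFz t ht x, zero_mul])
  refine ⟨hlong.1, ?_⟩
  have hpt : ∀ x, ∑ i, fderiv ℝ (G i) x (Pi.single i 1) =
      fderiv ℝ F x (S.E 0 x) * S.w x + S.β 0 x * F x * S.w x := by
    intro x
    have h1 : ∀ i, fderiv ℝ (G i) x (Pi.single i 1) =
        F x * fderiv ℝ (fun y => S.w y * S.E 0 y i) x (Pi.single i 1) +
        (S.w x * S.E 0 x i) * fderiv ℝ F x (Pi.single i 1) := by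
      intro i
      simp only [hGdef]
      rw [fderiv_fun_mul ((hF.differentiable (by norm_num)) x)
        (((S.V_c1 0 i).differentiable (by norm_num)) x)]
      simp
    simp only [h1]
    rw [Finset.sum_add_distrib, ← Finset.mul_sum, S.div 0 x]
    have h2 : fderiv ℝ F x (S.E 0 x) = ∑ i, S.E 0 x i * fderiv ℝ F x (Pi.single i 1) := by
      conv_lhs => rw [← Finset.univ_sum_single (S.E 0 x)]
      rw [map_sum]
      refine Finset.sum_congr rfl fun i _ => ?_
      have : (Pi.single i (S.E 0 x i) : Fin (k + 1) → ℝ) = S.E 0 x i • Pi.single i 1 := by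
        rw [← Pi.single_smul, smul_eq_mul, mul_one]
      rw [this, map_smul, smul_eq_mul]
    rw [h2, Finset.sum_mul]
    rw [add_comm]
    congr 1
    · refine Finset.sum_congr rfl fun i _ => ?_
      ring
    · ring
  have hdcont : ∀ i, Continuous fun x => fderiv ℝ (G i) x (Pi.single i 1) := fun i =>
    ((hG i).continuous_fderiv (by norm_num)).clm_apply continuous_const
  have hdsupp : ∀ i, HasCompactSupport fun x => fderiv ℝ (G i) x (Pi.single i 1) := fun i =>
    (hGc i).fderiv_apply ℝ _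
  have hsum : ∫ x, τ (x 0) * (fderiv ℝ F x (S.E 0 x) * S.w x + S.β 0 x * F x * S.w x) =
      ∫ x, τ (x 0) * fderiv ℝ (G 0) x (Pi.single 0 1) := by
    have h1 : ∀ x : Fin (k + 1) → ℝ, τ (x 0) *
        (fderiv ℝ F x (S.E 0 x) * S.w x + S.β 0 x * F x * S.w x) =
        ∑ i, τ (x 0) * fderiv ℝ (G i) x (Pi.single i 1) := by
      intro x
      rw [← hpt x, Finset.mul_sum]
    simp only [h1]
    rw [integral_finsetSum _ fun i _ => integrable_mul_left (hdcont i) (hdsupp i) hT.cont]
    rw [Fin.sum_univ_succ]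
    rw [Finset.sum_eq_zero, add_zero]
    intro i _
    exact integral_transversal (hG i.succ) (hGc i.succ) hT.cont i
  have hA : Integrable fun x => τ (x 0) * (fderiv ℝ F x (S.E 0 x) * S.w x) := by
    refine integrable_mul_left ((S.dE_cont hF 0).mul S.w_c1.continuous) ?_ hT.cont
    apply HasCompactSupport.mul_right
    apply (hc.fderiv ℝ).mono
    intro x hx h
    apply hx
    simp [h]
  have hB : Integrable fun x => τ (x 0) * (S.β 0 x * F x * S.w x) := by
    refine integrable_mul_left (((S.β_cont 0).mul hF.continuous).mul S.w_c1.continuous) ?_ hT.cont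
    exact (hc.mul_left).mul_right
  have hsplit : ∫ x, τ (x 0) * (fderiv ℝ F x (S.E 0 x) * S.w x + S.β 0 x * F x * S.w x) =
      (∫ x, τ (x 0) * (fderiv ℝ F x (S.E 0 x) * S.w x)) +
      ∫ x, τ (x 0) * (S.β 0 x * F x * S.w x) := by
    rw [← integral_add hA hB]
    simp only [mul_add]
  have h3 := hlong.2
  have h4 : ∫ x, τ (x 0) * fderiv ℝ (G 0) x (Pi.single 0 1) =
      (∫ x, τ (x 0) * (fderiv ℝ F x (S.E 0 x) * S.w x)) +
      ∫ x, τ (x 0) * (S.β 0 x * F x * S.w x) := by
    rw [← hsum, hsplit]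
  rw [h4] at h3
  have h5 : (∫ t in Ioo t₀ t₁, f t / p (τ t) * ∫ x, G 0 (cs t x)) =
    ∫ t in Ioo t₀ t₁, f t / p (τ t) * ∫ x, F (cs t x) * (S.w (cs t x) * S.E 0 (cs t x) 0) := rfl
  rw [h5] at h3
  linarith

end Vale.Agent.P219
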