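import Vale.Agent.P219.SR.AllN
import Vale.Agent.P219.SA.DensField
import Vale.Agent.P219.End.Final

/-! # The generalized Cartan-Hadamard conjecture in all dimensions -/

namespace Vale.Agent.P219.Co

theorem densFieldStmt {n : ℕ} (hn : 2 ≤ n) : SA.DensFieldStmt n := by
  intro G k hk o ρ H hρ hH V _ hV hst hd
  exact SA.dens_field_of G hn hk hρ hH hV hst hd

theorem limSob (n : ℕ) : SA.LimSob n := fun L _ hu h0 => L.sob ⟨hu, h0⟩

/-- The generalized Cartan-Hadamard conjecture, with the equality case. -/
theorem cartanHadamard_all {n : ℕ} (hn : 3 ≤ n) {K : ℝ} (hK : K ≤ 0)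
    (M : RiemMetric n) (hM : GeodesicallyComplete M) (hs : SecLE M K) :
    IsoperimetricIneq M K ∧
      ∀ (D : SmoothDomain n) (r : ℝ), 0 ≤ r →
        riemVol M D.carrier = ENNReal.ofReal (modelVol n K r) →
        riemArea M D = ENNReal.ofReal (modelArea n K r) → IsometricToBallK M K D r :=
  allN_ge_three hn (densFieldStmt (by omega)) (fun _ => limSob n) hK M hM hs

end Vale.Agent.P219.Co
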