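import Vale.Agent.P219.TPR.CoRig
import Vale.Agent.P219.TPR.CertRFour
import Vale.Agent.P219.TPR.CertRFive
import Vale.Agent.P219.TPR.CertRSix
import Vale.Agent.P219.TPR.CertRSeven
import Vale.Agent.P219.TPR.CertREight
import Vale.Agent.P219.TPR.CertRNine
import Vale.Agent.P219.TPR.CertRTen
import Vale.Agent.P219.TPR.CertREleven
import Vale.Agent.P219.TPHR.CoRigH
import Vale.Agent.P219.C5.CertR
import Vale.Agent.P219.D4.Final

/-! # The generalized Cartan-Hadamard conjecture in low dimensions -/

namespace Vale.Agent.P219.Co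

/-- The generalized Cartan-Hadamard conjecture: in dimensions 4 and 5 for all `K ≤ 0`, in dimensions
4 to 11 for `K = 0`; with the equality case. -/
theorem cartanHadamard {n : ℕ} {K : ℝ} (hK : K ≤ 0) (hn : 4 ≤ n) (hn' : n ≤ 5 ∨ K = 0 ∧ n ≤ 11)
    (M : RiemMetric n) (hM : GeodesicallyComplete M) (hs : SecLE M K) :
    IsoperimetricIneq M K ∧
      ∀ (D : SmoothDomain n) (r : ℝ), 0 ≤ r →
        riemVol M D.carrier = ENNReal.ofReal (modelVol n K r) →
        riemArea M D = ENNReal.ofReal (modelArea n K r) → IsometricToBallK M K D r := by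
  have flat : ∀ {n : ℕ} (h2 : 2 ≤ n) (C : TP.CertR n) (M : RiemMetric n)
      (hM : GeodesicallyComplete M) (hs : SecLE M 0), IsoperimetricIneq M 0 ∧
      ∀ (D : SmoothDomain n) (r : ℝ), 0 ≤ r →
        riemVol M D.carrier = ENNReal.ofReal (modelVol n 0 r) →
        riemArea M D = ENNReal.ofReal (modelArea n 0 r) → IsometricToBallK M 0 D r :=
    fun h2 C M hM hs => ⟨isop_of_cert h2 C.toCert M hM hs, fun D r hr hV hA =>
      isometricToBallK_zero (equality_of_cert h2 C M hM hs D r hr hV hA)⟩
  rcases hK.eq_or_lt with rfl | hK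
  · have h : n = 4 ∨ n = 5 ∨ n = 6 ∨ n = 7 ∨ n = 8 ∨ n = 9 ∨ n = 10 ∨ n = 11 := by omega
    rcases h with rfl | rfl | rfl | rfl | rfl | rfl | rfl | rfl
    · exact flat (by norm_num) TP.certRFour M hM hs
    · exact flat (by norm_num) TP.certRFive M hM hs
    · exact flat (by norm_num) TP.certRSix M hM hs
    · exact flat (by norm_num) TP.certRSeven M hM hs
    · exact flat (by norm_num) TP.certREight M hM hs
    · exact flat (by norm_num) TP.certRNine M hM hs
    · exact flat (by norm_num) TP.certRTen M hM hs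
    · exact flat (by norm_num) TP.certREleven M hM hs
  · have hyp : ∀ {n : ℕ} (h2 : 2 ≤ n) (C : ∀ R : ℝ, 0 < R → Nonempty (TPH.CertHR n 1 R))
        (M : RiemMetric n) (hM : GeodesicallyComplete M) (hs : SecLE M K), IsoperimetricIneq M K ∧
        ∀ (D : SmoothDomain n) (r : ℝ), 0 ≤ r →
          riemVol M D.carrier = ENNReal.ofReal (modelVol n K r) →
          riemArea M D = ENNReal.ofReal (modelArea n K r) → IsometricToBallK M K D r :=
      fun h2 C M hM hs =>
        have hC : ∀ R : ℝ, 0 < R → Nonempty (TPH.CertH _ 1 R) := fun R hR =>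
          (C R hR).map (TPH.CertHR.toCertH h2 zero_le_one hR)
        ⟨isopH_of_cert h2 hC M hM hK hs, fun D r hr hV hA =>
          equality_hyp h2 hC C M hM hK hs D r hr hV hA⟩
    have h : n = 4 ∨ n = 5 := by
      rcases hn' with h | h
      · omega
      · exact absurd h.1 hK.ne
    rcases h with rfl | rfl
    · exact hyp (by norm_num) (fun R hR => ⟨D4.certHR4 hR⟩) M hM hs
    · exact hyp (by norm_num) (fun R hR => ⟨C5.certHR5 hR⟩) M hM hs

end Vale.Agent.P219.Co
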