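import Vale.Agent.P219.FinalAll
import Vale.Agent.P219.N2.Main
import Vale.Agent.P219.N2.RigDom

/-! # The generalized Cartan-Hadamard conjecture in all dimensions `n ≥ 2` -/

namespace Vale.Agent.P219.Co

/-- The generalized Cartan-Hadamard conjecture, with the equality case. -/
theorem cartanHadamard_q1 {n : ℕ} (hn : 2 ≤ n) {K : ℝ} (hK : K ≤ 0)
    (M : RiemMetric n) (hM : GeodesicallyComplete M) (hs : SecLE M K) :
    IsoperimetricIneq M K ∧
      ∀ (D : SmoothDomain n) (r : ℝ), 0 ≤ r →
        riemVol M D.carrier = ENNReal.ofReal (modelVol n K r) →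
        riemArea M D = ENNReal.ofReal (modelArea n K r) → IsometricToBallK M K D r := by
  rcases hn.eq_or_lt with rfl | hn
  · exact ⟨isop_of_func le_rfl (fun _ hk => SA.funcIso_two hk) M hM hK hs, fun D r hr hV hA =>
      equality_two M hM hK hs D r hr hV hA⟩
  · exact cartanHadamard_all hn hK M hM hs

end Vale.Agent.P219.Co
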