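import Vale.Agent.P219.Base

namespace Vale.Agent.P219

open Matrix

variable {n : ℕ}

theorem E_expand (v : E n) : v = ∑ i, v i • basisVec i := by
  have := (EuclideanSpace.basisFun (Fin n) ℝ).sum_repr v
  simpa [basisVec] using this.symm

theorem map_expand (φ : E n →L[ℝ] ℝ) (v : E n) : φ v = ∑ i, v i * φ (basisVec i) := by
  conv_lhs => rw [E_expand v]
  simp [map_sum]

section

variable (M : RiemMetric n) (e : Fin n → E n → E n)

/-- components of the frame -/
def frameMat (x : E n) : Matrix (Fin n) (Fin n) ℝ := Matrix.of fun a i => e a x i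

/-- Gram matrix of the metric -/
noncomputable def gramMat (x : E n) : Matrix (Fin n) (Fin n) ℝ :=
  Matrix.of fun i j => M.g x (basisVec i) (basisVec j)

variable {M e}

theorem frame_gram (he : TriangularFrame M e) (x : E n) :
    frameMat e x * gramMat M x * (frameMat e x)ᵀ = 1 := by
  ext a b
  rw [Matrix.one_apply, ← he.orthonormal x a b]
  simp only [Matrix.mul_apply, frameMat, gramMat, Matrix.of_apply, Matrix.transpose_apply]
  rw [map_expand (M.g x (e a x)) (e b x)]
  refine Finset.sum_congr rfl fun j _ => ?_
  rw [mul_comm]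
  congr 1
  have h := map_expand ((M.g x).flip (basisVec j)) (e a x)
  simpa using h.symm

theorem gram_frame (he : TriangularFrame M e) (x : E n) :
    gramMat M x * (frameMat e x)ᵀ * frameMat e x = 1 := by
  rw [mul_eq_one_comm, ← mul_assoc]
  exact frame_gram he x

theorem frame_det (he : TriangularFrame M e) (x : E n) : (frameMat e x).det = ∏ a, e a x a := by
  rw [Matrix.det_of_isUpperTriangular]
  · rfl
  · intro a i hi
    exact he.triangular a x i hi

theorem volDensity_eq (he : TriangularFrame M e) (x : E n) :
    volDensity M x = ∏ a, (e a x a)⁻¹ := by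
  have hdet : (∏ a, e a x a) * (gramMat M x).det * (∏ a, e a x a) = 1 := by
    have := congrArg Matrix.det (frame_gram he x)
    rwa [Matrix.det_mul, Matrix.det_mul, Matrix.det_transpose, Matrix.det_one, frame_det he] at this
  have hpos : 0 < ∏ a, e a x a := Finset.prod_pos fun a _ => he.positive a x
  have hg : (gramMat M x).det = ((∏ a, e a x a)⁻¹) ^ 2 := by
    field_simp
    linarith
  have : volDensity M x = √(gramMat M x).det := rfl
  rw [this, hg, Real.sqrt_sq (by positivity), Finset.prod_inv_distrib]

theorem volDensity_pos (he : TriangularFrame M e) (x : E n) : 0 < volDensity M x := by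
  rw [volDensity_eq he]
  exact Finset.prod_pos fun a _ => inv_pos.2 (he.positive a x)

/-- completeness of the frame -/
theorem frame_complete (he : TriangularFrame M e) (x v : E n) :
    v = ∑ k, M.g x v (e k x) • e k x := by
  have h1 : ∀ i j, ∑ k, M.g x (basisVec i) (e k x) * e k x j = if i = j then 1 else 0 := by
    intro i j
    have := congrFun (congrFun (gram_frame he x) i) j
    rw [Matrix.one_apply] at this
    rw [← this]
    simp only [Matrix.mul_apply, frameMat, gramMat, Matrix.of_apply, Matrix.transpose_apply]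
    refine Finset.sum_congr rfl fun k _ => ?_
    congr 1
    rw [map_expand (M.g x (basisVec i)) (e k x)]
    refine Finset.sum_congr rfl fun l _ => ?_
    ring
  ext j
  have h2 : (∑ k, M.g x v (e k x) • e k x) j = ∑ k, M.g x v (e k x) * e k x j := by
    simp [Finset.sum_apply]
  rw [h2]
  have h3 : ∀ k, M.g x v (e k x) = ∑ i, v i * M.g x (basisVec i) (e k x) := by
    intro k
    have h := map_expand ((M.g x).flip (e k x)) v
    simpa using h
  simp only [h3, Finset.sum_mul]
  rw [Finset.sum_comm]
  have h4 : ∀ i, ∑ k, v i * M.g x (basisVec i) (e k x) * e k x j = v i * if i = j then 1 else 0 := by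
    intro i
    rw [← h1 i j, Finset.mul_sum]
    refine Finset.sum_congr rfl fun k _ => ?_
    ring
  simp only [h4]
  simp

theorem dual_triangular (he : TriangularFrame M e) (x : E n) {i b : Fin n} (hb : b < i) :
    M.g x (basisVec i) (e b x) = 0 := by
  have hinv : gramMat M x * (frameMat e x)ᵀ = (frameMat e x)⁻¹ := by
    rw [eq_comm]
    exact Matrix.inv_eq_left_inv (gram_frame he x)
  have hdet : IsUnit (frameMat e x).det := by
    rw [frame_det he]
    exact (Finset.prod_pos fun a _ => he.positive a x).ne'.isUnit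
  have := (frameMat e x).invertibleOfIsUnitDet hdet
  have htri : (frameMat e x).BlockTriangular id := fun a i hi => he.triangular a x i hi
  have h := Matrix.blockTriangular_inv_of_blockTriangular htri
  rw [← hinv] at h
  have h2 := h (show id b < id i from hb)
  rw [← h2]
  simp only [Matrix.mul_apply, frameMat, gramMat, Matrix.of_apply, Matrix.transpose_apply]
  rw [map_expand (M.g x (basisVec i)) (e b x)]
  refine Finset.sum_congr rfl fun l _ => ?_
  ring

theorem dual_diag (he : TriangularFrame M e) (x : E n) (b : Fin n) :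
    M.g x (basisVec b) (e b x) = (e b x b)⁻¹ := by
  have h1 := he.orthonormal x b b
  rw [if_pos rfl] at h1
  have h := map_expand ((M.g x).flip (e b x)) (e b x)
  simp only [ContinuousLinearMap.flip_apply] at h
  rw [h1, Finset.sum_eq_single b] at h
  · have := (he.positive b x).ne'
    field_simp
    linarith
  · intro i _ hi
    rcases lt_or_gt_of_ne hi with h2 | h2
    · rw [he.triangular b x i h2, zero_mul]
    · rw [dual_triangular he x h2, mul_zero]
  · simp

theorem covNorm_eq (he : TriangularFrame M e) (x : E n) (φ : E n →L[ℝ] ℝ) :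
    covNorm M x φ = √(∑ a, φ (e a x) ^ 2) := by
  have hquad : ∀ v, M.g x v v = ∑ a, M.g x v (e a x) ^ 2 := by
    intro v
    have h := congrArg (M.g x v) (frame_complete he x v)
    rw [map_sum] at h
    rw [h]
    refine Finset.sum_congr rfl fun a _ => ?_
    rw [map_smul, smul_eq_mul, pow_two]
  have hφ : ∀ v, φ v = ∑ a, M.g x v (e a x) * φ (e a x) := by
    intro v
    conv_lhs => rw [frame_complete he x v]
    simp [map_sum]
  have hub : ∀ t ∈ {t | ∃ v, M.g x v v ≤ 1 ∧ φ v = t}, t ≤ √(∑ a, φ (e a x) ^ 2) := by
    rintro t ⟨v, hv, rfl⟩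
    rw [hφ v]
    have h1 := Finset.sum_mul_sq_le_sq_mul_sq Finset.univ (fun a => M.g x v (e a x))
      (fun a => φ (e a x))
    rw [← hquad v] at h1
    apply Real.le_sqrt_of_sq_le
    refine h1.trans ?_
    have h2 : 0 ≤ ∑ a, φ (e a x) ^ 2 := Finset.sum_nonneg fun a _ => sq_nonneg _
    nlinarith
  unfold covNorm
  apply le_antisymm
  · exact csSup_le ⟨0, 0, by simp, by simp⟩ hub
  · set s := √(∑ a, φ (e a x) ^ 2) with hs
    have hs0 : 0 ≤ s := Real.sqrt_nonneg _
    have hs2 : s ^ 2 = ∑ a, φ (e a x) ^ 2 :=
      Real.sq_sqrt (Finset.sum_nonneg fun a _ => sq_nonneg _)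
    rcases hs0.eq_or_lt with h0 | h0
    · rw [← h0]
      exact le_csSup ⟨_, hub⟩ ⟨0, by simp, by simp⟩
    · apply le_csSup ⟨_, hub⟩
      refine ⟨∑ a, (φ (e a x) / s) • e a x, ?_, ?_⟩
      · have h3 : M.g x (∑ a, (φ (e a x) / s) • e a x) (∑ a, (φ (e a x) / s) • e a x) =
            ∑ a, (φ (e a x) / s) ^ 2 := by
          simp only [map_sum, map_smul, _root_.sum_apply,
            _root_.smul_apply, smul_eq_mul, he.orthonormal]
          refine Finset.sum_congr rfl fun a _ => ?_
          simp [pow_two]
        rw [h3]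
        simp only [div_pow]
        rw [← Finset.sum_div, ← hs2, div_self (by positivity)]
      · simp only [map_sum, map_smul, smul_eq_mul]
        have h4 : ∀ a, φ (e a x) / s * φ (e a x) = φ (e a x) ^ 2 / s := fun a => by ring
        simp only [h4]
        rw [← Finset.sum_div, ← hs2]
        field_simp

theorem e_comp_diff (he : TriangularFrame M e) (a i : Fin n) :
    Differentiable ℝ fun y => e a y i := by
  have h : ContDiff ℝ 1 fun y => e a y i := by
    have := (he.smooth a).of_le (by norm_num : (1 : WithTop ℕ∞) ≤ _)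
    exact (EuclideanSpace.proj (𝕜 := ℝ) i).contDiff.comp this
  exact h.differentiable (by norm_num)

theorem e_diff (he : TriangularFrame M e) (a : Fin n) : Differentiable ℝ (e a) :=
  (he.smooth a).differentiable (by norm_num)

theorem fderiv_comp_apply (he : TriangularFrame M e) (a i : Fin n) (x v : E n) :
    fderiv ℝ (fun y => e a y i) x v = (fderiv ℝ (e a) x v) i := by
  have h := ((EuclideanSpace.proj (𝕜 := ℝ) i).hasFDerivAt (x := e a x)).comp x
    ((e_diff he a x).hasFDerivAt)
  have h2 : (fun y => e a y i) = (EuclideanSpace.proj (𝕜 := ℝ) i) ∘ (e a) := rfl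
  rw [h2, h.fderiv]
  rfl

theorem fderiv_volDensity (he : TriangularFrame M e) (x : E n) :
    HasFDerivAt (volDensity M)
      (-(volDensity M x) • ∑ b, (e b x b)⁻¹ • fderiv ℝ (fun y => e b y b) x) x := by
  have h1 : volDensity M = fun y => ∏ a, (e a y a)⁻¹ := by
    funext y; exact volDensity_eq he y
  have h2 : HasFDerivAt (fun y => ∏ a, (e a y a)⁻¹)
      (∑ b, (∏ j ∈ Finset.univ.erase b, (e j x j)⁻¹) •
        (-((e b x b) ^ 2)⁻¹ • fderiv ℝ (fun y => e b y b) x)) x := by
    apply HasFDerivAt.finsetProd
    intro b _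
    have := (e_comp_diff he b b x).hasFDerivAt
    exact (hasDerivAt_inv (he.positive b x).ne').comp_hasFDerivAt x this
  rw [h1]
  refine h2.congr_fderiv ?_
  rw [Finset.smul_sum]
  refine Finset.sum_congr rfl fun b _ => ?_
  rw [smul_smul, smul_smul]
  congr 1
  have h3 : (∏ j ∈ Finset.univ.erase b, (e j x j)⁻¹) * (e b x b)⁻¹ = ∏ j, (e j x j)⁻¹ :=
    Finset.prod_erase_mul _ _ (Finset.mem_univ b)
  beta_reduce
  rw [← h3]
  have := (he.positive b x).ne'
  field_simp

/-- divergence of a frame field -/
theorem divg_frame (he : TriangularFrame M e) (a : Fin n) (x : E n) :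
    divg M (e a) x = (∑ i, (fderiv ℝ (e a) x (basisVec i)) i) -
      ∑ b, (e b x b)⁻¹ * (fderiv ℝ (e b) x (e a x)) b := by
  have hv := volDensity_pos he x
  have h1 : ∀ i, fderiv ℝ (fun y => volDensity M y * e a y i) x (basisVec i) =
      volDensity M x * (fderiv ℝ (e a) x (basisVec i)) i -
      e a x i * (volDensity M x * ∑ b, (e b x b)⁻¹ *
        fderiv ℝ (fun y => e b y b) x (basisVec i)) := by
    intro i
    have h2 := (fderiv_volDensity he x).mul (e_comp_diff he a i x).hasFDerivAt
    have h3 : fderiv ℝ (fun y => volDensity M y * e a y i) x = _ := h2.fderiv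
    rw [h3]
    simp only [_root_.add_apply, _root_.smul_apply, smul_eq_mul, _root_.sum_apply]
    rw [fderiv_comp_apply he]
    ring
  unfold divg
  simp only [h1]
  rw [Finset.sum_sub_distrib, ← Finset.mul_sum]
  have h4 : ∑ i, e a x i * (volDensity M x * ∑ b, (e b x b)⁻¹ *
      fderiv ℝ (fun y => e b y b) x (basisVec i)) =
      volDensity M x * ∑ b, (e b x b)⁻¹ * (fderiv ℝ (e b) x (e a x)) b := by
    simp only [Finset.mul_sum]
    rw [Finset.sum_comm]
    refine Finset.sum_congr rfl fun b _ => ?_
    rw [← fderiv_comp_apply he, map_expand (fderiv ℝ (fun y => e b y b) x) (e a x)]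
    rw [Finset.mul_sum, Finset.mul_sum]
    refine Finset.sum_congr rfl fun i _ => ?_
    ring
  rw [h4, ← mul_sub, ← mul_assoc, inv_mul_cancel₀ hv.ne', one_mul]

theorem divg_of_structure (he : TriangularFrame M e) {c : Fin n → Fin n → Fin n → ℝ}
    (hc : HasStructure e c) (a : Fin n) (x : E n) : divg M (e a) x = ∑ b, c b a b := by
  rw [divg_frame he]
  have h1 : ∀ b, c b a b = M.g x (fderiv ℝ (e a) x (e b x)) (e b x) -
      M.g x (fderiv ℝ (e b) x (e a x)) (e b x) := by
    intro b
    have h2 := congrArg (fun v => M.g x v (e b x)) (hc b a x)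
    simp only [VectorField.lieBracket] at h2
    rw [map_sub, _root_.sub_apply] at h2
    rw [h2]
    simp only [map_sum, map_smul, _root_.sum_apply, _root_.smul_apply, smul_eq_mul,
      he.orthonormal]
    simp
  simp only [h1]
  rw [Finset.sum_sub_distrib]
  congr 1
  · -- trace
    have h3 : ∀ i j, ∑ b, M.g x (basisVec i) (e b x) * e b x j = if i = j then 1 else 0 := by
      intro i j
      have := congrArg (fun v : E n => v j) (frame_complete he x (basisVec i))
      simp only [basisVec] at this
      rw [← basisVec] at this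
      have h5 : (∑ k, M.g x (basisVec i) (e k x) • e k x) j =
          ∑ k, M.g x (basisVec i) (e k x) * e k x j := by simp [Finset.sum_apply]
      rw [← h5]
      rw [← frame_complete he x (basisVec i)]
      simp [basisVec, eq_comm]
    have h4 : ∀ b, M.g x (fderiv ℝ (e a) x (e b x)) (e b x) =
        ∑ j, ∑ i, (fderiv ℝ (e a) x (basisVec j)) i * (M.g x (basisVec i) (e b x) * e b x j) := by
      intro b
      have h6 := map_expand ((M.g x).flip (e b x)) (fderiv ℝ (e a) x (e b x))
      simp only [ContinuousLinearMap.flip_apply] at h6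
      rw [h6, Finset.sum_comm]
      refine Finset.sum_congr rfl fun i _ => ?_
      have h7 : (fderiv ℝ (e a) x (e b x)) i = ∑ j, e b x j * (fderiv ℝ (e a) x (basisVec j)) i := by
        conv_lhs => rw [E_expand (e b x)]
        simp [map_sum, Finset.sum_apply]
      rw [h7, Finset.sum_mul]
      refine Finset.sum_congr rfl fun j _ => ?_
      ring
    simp only [h4]
    rw [Finset.sum_comm]
    refine Finset.sum_congr rfl fun j _ => ?_
    rw [Finset.sum_comm]
    simp only [← Finset.mul_sum, h3]
    simp
  · refine Finset.sum_congr rfl fun b _ => ?_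
    have h6 := map_expand ((M.g x).flip (e b x)) (fderiv ℝ (e b) x (e a x))
    simp only [ContinuousLinearMap.flip_apply] at h6
    rw [h6, Finset.sum_eq_single b]
    · rw [dual_diag he]; ring
    · intro i _ hi
      rcases lt_or_gt_of_ne hi with h2 | h2
      · have h8 : (fun y => e b y i) = fun _ => 0 := by
          funext y; exact he.triangular b y i h2
        rw [← fderiv_comp_apply he, h8]
        simp
      · rw [dual_triangular he x h2, mul_zero]
    · simp

end

end Vale.Agent.P219
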