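import Vale.Agent.P219.Approx
import Vale.Agent.P219.Model

open MeasureTheory Set Filter Topology
open scoped ENNReal ContDiff

namespace Vale.Agent.P219

variable {n : ℕ}

theorem modelArea_nonneg (n : ℕ) (κ : ℝ) {r : ℝ} (hr : 0 ≤ r) : 0 ≤ modelArea n κ r := by
  unfold modelArea
  have := sn_nonneg √(-κ) hr
  have := (omega_pos n).le
  positivity

/-- Continuity of the inverse of the model volume. -/
theorem tendsto_radius {ι : Type*} {l : Filter ι} (hn : 1 ≤ n) (κ : ℝ) {ρ : ι → ℝ} {r : ℝ}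
    (hr : 0 ≤ r) (hρ : ∀ i, 0 ≤ ρ i)
    (h : Tendsto (fun i => modelVol n κ (ρ i)) l (𝓝 (modelVol n κ r))) : Tendsto ρ l (𝓝 r) := by
  have hm := modelVol_strictMonoOn n hn κ
  rw [tendsto_order] at h ⊢
  constructor
  · intro a ha
    by_cases h0 : a < 0
    · exact Eventually.of_forall fun i => h0.trans_le (hρ i)
    · have h0 : 0 ≤ a := not_lt.1 h0
      filter_upwards [h.1 _ (hm h0 hr ha)] with i hi
      exact (hm.lt_iff_lt h0 (hρ i)).1 hi
  · intro a ha
    have h0 : 0 ≤ a := hr.trans ha.le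
    filter_upwards [h.2 _ (hm hr h0 ha)] with i hi
    exact (hm.lt_iff_lt (hρ i) h0).1 hi

/-- Limit argument: if for every domain the approximating functions have gradient integrals
asymptotically at least the model area, the isoperimetric inequality holds. -/
theorem isop_of_liminf (M : RiemMetric n) (e : Fin n → E n → E n) (he : TriangularFrame M e)
    (κ : ℝ) (hn : 2 ≤ n)
    (h : ∀ (D : SmoothDomain n) (r A : ℝ), 0 < r →
      ∫ x in D.carrier, volDensity M x = modelVol n κ r →
      (∀ η > 0, ∀ᶠ ε in 𝓝[>] (0 : ℝ),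
        ∫ x, covNorm M x (fderiv ℝ (Feps D ε) x) * volDensity M x ≤ A + η) →
      modelArea n κ r ≤ A) : IsoperimetricIneq M κ := by
  intro D
  have hV : 0 ≤ ∫ x in D.carrier, volDensity M x :=
    integral_nonneg fun x => (volDensity_gt M e he x).le
  obtain ⟨r, hr, hrV⟩ := modelVol_surj n (by omega) κ _ hV
  refine ⟨r, hr, by rw [riemVol_eq M e he, hrV], ?_⟩
  by_cases hr0 : r = 0
  · have : modelArea n κ r = 0 := by
      rw [hr0, modelArea, sn_zero, zero_pow (by omega), mul_zero]
    rw [this]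
    simp
  have hrpos : 0 < r := lt_of_le_of_ne hr (Ne.symm hr0)
  by_cases hA : riemArea M D = ⊤
  · rw [hA]; exact le_top
  have hfin := h D r (riemArea M D).toReal hrpos hrV.symm ?_
  · exact ENNReal.ofReal_le_of_le_toReal hfin
  intro η hη
  filter_upwards [Feps_area M e he D hη, self_mem_nhdsWithin] with ε h1 h2
  have hF1 : ContDiff ℝ 1 (Feps D ε) := (Feps_smooth D ε).of_le (by simp)
  have hnn : ∀ x, 0 ≤ covNorm M x (fderiv ℝ (Feps D ε) x) * volDensity M x := fun x =>
    mul_nonneg (covNorm_nonneg M e he x _) (volDensity_gt M e he x).le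
  have hc : Continuous fun x => covNorm M x (fderiv ℝ (Feps D ε) x) * volDensity M x :=
    (covNorm_fderiv_continuous M e he hF1).mul (volDensity_smooth M e he).continuous
  rw [integral_eq_lintegral_of_nonneg_ae (Eventually.of_forall hnn) hc.aestronglyMeasurable]
  have h3 := ENNReal.toReal_mono (by finiteness) h1
  rw [ENNReal.toReal_add hA (by finiteness), ENNReal.toReal_ofReal hη.le] at h3
  exact h3

/-- The isoperimetric inequality from a functional inequality with an error term. -/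
theorem isop_of_functional (M : RiemMetric n) (e : Fin n → E n → E n) (he : TriangularFrame M e)
    (κ : ℝ) (hn : 2 ≤ n) (C : ℝ → ℝ) (hC : Continuous C)
    (hfun : ∀ F : E n → ℝ, ContDiff ℝ ∞ F → HasCompactSupport F → (∀ x, 0 ≤ F x) →
      (∀ x, F x ≤ 1) → ∀ r > 0, ∫ x, F x * volDensity M x = modelVol n κ r →
      sn √(-κ) r * modelArea n κ r ≤
        sn √(-κ) r * (∫ x, covNorm M x (fderiv ℝ F x) * volDensity M x) +
        C r * ∫ x, (F x - F x * F x ^ (1 / (n : ℝ))) * volDensity M x) :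
    IsoperimetricIneq M κ := by
  apply isop_of_liminf M e he κ hn
  intro D r A hr hrV hA
  have hn1 : 1 ≤ n := by omega
  have hm0 : ∀ ε, 0 ≤ ∫ x, Feps D ε x * volDensity M x := fun ε =>
    integral_nonneg fun x => mul_nonneg (Feps_nonneg D ε x) (volDensity_gt M e he x).le
  choose ρ hρ0 hρ using fun ε => modelVol_surj n hn1 κ _ (hm0 ε)
  have hρt : Tendsto ρ (𝓝[>] 0) (𝓝 r) := by
    apply tendsto_radius hn1 κ hr.le hρ0
    simp only [hρ]
    rw [← hrV]
    exact Feps_mass M e he D
  have herr := Feps_error M e he D (p := 1 / (n : ℝ)) (by positivity)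
  apply le_of_forall_pos_le_add
  intro η hη
  have hsr := sn_pos √(-κ) hr
  have hlim1 : Tendsto (fun ε => sn √(-κ) (ρ ε) * modelArea n κ (ρ ε)) (𝓝[>] 0)
      (𝓝 (sn √(-κ) r * modelArea n κ r)) :=
    (((sn_continuous _).tendsto r).comp hρt).mul (((modelArea_continuous n κ).tendsto r).comp hρt)
  have hlim2 : Tendsto (fun ε => sn √(-κ) (ρ ε) * (A + η) +
      C (ρ ε) * ∫ x, (Feps D ε x - Feps D ε x * Feps D ε x ^ (1 / (n : ℝ))) * volDensity M x)
      (𝓝[>] 0) (𝓝 (sn √(-κ) r * (A + η) + C r * 0)) :=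
    ((((sn_continuous _).tendsto r).comp hρt).mul_const _).add
      (((hC.tendsto r).comp hρt).mul herr)
  have hle : ∀ᶠ ε in 𝓝[>] (0 : ℝ), sn √(-κ) (ρ ε) * modelArea n κ (ρ ε) ≤
      sn √(-κ) (ρ ε) * (A + η) + C (ρ ε) *
        ∫ x, (Feps D ε x - Feps D ε x * Feps D ε x ^ (1 / (n : ℝ))) * volDensity M x := by
    filter_upwards [hA η hη, self_mem_nhdsWithin, hρt.eventually (lt_mem_nhds hr)]
      with ε h1 h2 h3
    have h4 := hfun (Feps D ε) (Feps_smooth D ε) (Feps_compact D h2) (Feps_nonneg D ε)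
      (Feps_le_one D ε) (ρ ε) h3 (hρ ε).symm
    have h5 := mul_le_mul_of_nonneg_left h1 (sn_pos √(-κ) h3).le
    linarith
  have := le_of_tendsto_of_tendsto hlim1 hlim2 hle
  rw [mul_zero, add_zero] at this
  exact le_of_mul_le_mul_left this hsr

end Vale.Agent.P219
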