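import Vale.Agent.P219.Transport1D

namespace Vale.Agent.P219

open MeasureTheory Set Filter Topology

/-- Glue a first coordinate to a point. -/
def cs {k : ℕ} (t : ℝ) (x : Fin k → ℝ) : Fin (k + 1) → ℝ := Fin.cons t x

@[simp] theorem cs_zero {k : ℕ} (t : ℝ) (x : Fin k → ℝ) : cs t x 0 = t := rfl

@[simp] theorem cs_succ {k : ℕ} (t : ℝ) (x : Fin k → ℝ) (i : Fin k) : cs t x i.succ = x i := rfl

theorem cs_eta {k : ℕ} (y : Fin (k + 1) → ℝ) : cs (y 0) (fun i => y i.succ) = y := by
  funext i
  refine Fin.cases rfl (fun j => rfl) i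

theorem continuous_cs {k : ℕ} : Continuous fun p : ℝ × (Fin k → ℝ) => cs p.1 p.2 := by
  refine continuous_pi fun i => ?_
  refine Fin.cases ?_ (fun j => ?_) i
  · simpa using continuous_fst
  · simp only [cs_succ]
    exact (continuous_apply j).comp continuous_snd

theorem continuous_cs_left {k : ℕ} (x : Fin k → ℝ) : Continuous fun t : ℝ => cs t x :=
  continuous_cs.comp (continuous_id.prodMk continuous_const)

theorem continuous_cs_right {k : ℕ} (t : ℝ) : Continuous fun x : Fin k → ℝ => cs t x :=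
  continuous_cs.comp (continuous_const.prodMk continuous_id)

/-- The inclusion of the tail coordinates. -/
noncomputable def csL (k : ℕ) : (Fin k → ℝ) →L[ℝ] (Fin (k + 1) → ℝ) :=
  ContinuousLinearMap.pi fun i => Fin.cases 0 (fun j => ContinuousLinearMap.proj j) i

theorem csL_apply {k : ℕ} (v : Fin k → ℝ) : csL k v = cs 0 v := by
  funext i
  refine Fin.cases ?_ (fun j => ?_) i
  · simp [csL]
  · simp [csL]

theorem cs_add {k : ℕ} (t : ℝ) (x : Fin k → ℝ) : cs t x = cs t 0 + csL k x := by
  rw [csL_apply]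
  funext i
  refine Fin.cases ?_ (fun j => ?_) i <;> simp

theorem hasFDerivAt_cs_right {k : ℕ} (t : ℝ) (x : Fin k → ℝ) :
    HasFDerivAt (fun y : Fin k → ℝ => cs t y) (csL k) x := by
  have h : (fun y : Fin k → ℝ => cs t y) = fun y => cs t 0 + csL k y := by
    funext y; exact cs_add t y
  rw [h]
  exact (csL k).hasFDerivAt.const_add _

theorem cs_add' {k : ℕ} (t : ℝ) (x : Fin k → ℝ) :
    cs t x = cs 0 x + t • (Pi.single 0 1 : Fin (k + 1) → ℝ) := by
  funext i
  refine Fin.cases ?_ (fun j => ?_) i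
  · simp
  · simp [Fin.succ_ne_zero]

theorem hasDerivAt_cs_left {k : ℕ} (x : Fin k → ℝ) (t : ℝ) :
    HasDerivAt (fun s : ℝ => cs s x) (Pi.single 0 1 : Fin (k + 1) → ℝ) t := by
  have h : (fun s : ℝ => cs s x) = fun s => cs 0 x + s • (Pi.single 0 1 : Fin (k + 1) → ℝ) := by
    funext y; exact cs_add' y x
  rw [h]
  have := ((hasDerivAt_id t).smul_const (Pi.single 0 1 : Fin (k + 1) → ℝ)).const_add (cs 0 x)
  simpa using this

theorem contDiff_cs_right {k : ℕ} (t : ℝ) : ContDiff ℝ 1 (fun y : Fin k → ℝ => cs t y) := by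
  have h : (fun y : Fin k → ℝ => cs t y) = fun y => cs t 0 + csL k y := by
    funext y; exact cs_add t y
  rw [h]
  exact contDiff_const.add (csL k).contDiff

theorem isClosedEmbedding_cs_right {k : ℕ} (t : ℝ) :
    IsClosedEmbedding (fun y : Fin k → ℝ => cs t y) := by
  refine Function.LeftInverse.isClosedEmbedding (f := fun y : Fin (k + 1) → ℝ => fun i => y i.succ)
    ?_ (by fun_prop) (continuous_cs_right t)
  intro y
  rfl

theorem isClosedEmbedding_cs_left {k : ℕ} (x : Fin k → ℝ) :
    IsClosedEmbedding (fun t : ℝ => cs t x) := by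
  refine Function.LeftInverse.isClosedEmbedding (f := fun y : Fin (k + 1) → ℝ => y 0)
    ?_ (by fun_prop) (continuous_cs_left x)
  intro y
  rfl

/-- The measurable equivalence `ℝ × ℝᵏ ≃ ℝᵏ⁺¹`. -/
noncomputable def csE (k : ℕ) : (ℝ × (Fin k → ℝ)) ≃ᵐ (Fin (k + 1) → ℝ) :=
  (MeasurableEquiv.piFinSuccAbove (fun _ : Fin (k + 1) => ℝ) 0).symm

theorem csE_apply {k : ℕ} (p : ℝ × (Fin k → ℝ)) : csE k p = cs p.1 p.2 := by
  funext i
  refine Fin.cases ?_ (fun j => ?_) i
  · simp [csE, MeasurableEquiv.piFinSuccAbove, Fin.insertNthEquiv]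
  · simp [csE, MeasurableEquiv.piFinSuccAbove, Fin.insertNthEquiv]

theorem measurePreserving_csE (k : ℕ) : MeasurePreserving (csE k) :=
  (volume_preserving_piFinSuccAbove (fun _ : Fin (k + 1) => ℝ) 0).symm

theorem integrable_cs {k : ℕ} {f : (Fin (k + 1) → ℝ) → ℝ} (hf : Integrable f) :
    Integrable fun p : ℝ × (Fin k → ℝ) => f (cs p.1 p.2) := by
  have := (measurePreserving_csE k).integrable_comp_of_integrable hf
  refine this.congr (Eventually.of_forall fun p => ?_)
  simp only [Function.comp, csE_apply]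

theorem integral_prod_cs {k : ℕ} (f : (Fin (k + 1) → ℝ) → ℝ) :
    ∫ x, f x = ∫ p : ℝ × (Fin k → ℝ), f (cs p.1 p.2) := by
  rw [← (measurePreserving_csE k).integral_comp (csE k).measurableEmbedding]
  simp only [csE_apply]

theorem integral_cs {k : ℕ} {f : (Fin (k + 1) → ℝ) → ℝ} (hf : Integrable f) :
    ∫ x, f x = ∫ t, ∫ x, f (cs t x) := by
  rw [integral_prod_cs, Measure.volume_eq_prod, integral_prod]
  exact integrable_cs hf

theorem integral_cs' {k : ℕ} {f : (Fin (k + 1) → ℝ) → ℝ} (hf : Integrable f) :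
    ∫ x, f x = ∫ x, ∫ t, f (cs t x) := by
  rw [integral_prod_cs, Measure.volume_eq_prod, integral_prod_symm]
  exact integrable_cs hf

/-- Partial integrals of continuous compactly supported functions. -/
theorem slice_cont {k : ℕ} {G : (Fin (k + 1) → ℝ) → ℝ} (hG : Continuous G)
    (hc : HasCompactSupport G) :
    Continuous (fun t => ∫ x, G (cs t x)) ∧ HasCompactSupport (fun t => ∫ x, G (cs t x)) := by
  set s : Set (Fin k → ℝ) := (fun y : Fin (k + 1) → ℝ => fun i => y (Fin.succ i)) '' tsupport G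
  have hs : IsCompact s := hc.isCompact.image (by fun_prop)
  have hzero : ∀ t x, x ∉ s → G (cs t x) = 0 := by
    intro t x hx
    by_contra hne
    exact hx ⟨cs t x, subset_tsupport G hne, rfl⟩
  have heq : (fun t => ∫ x, G (cs t x)) = fun t => ∫ x in s, G (cs t x) := by
    funext t
    rw [setIntegral_eq_integral_of_forall_compl_eq_zero]
    intro x hx
    exact hzero t x hx
  constructor
  · rw [heq]
    exact continuous_parametric_integral_of_continuous (f := fun t x => G (cs t x))
      (hG.comp continuous_cs) hs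
  · have hs0 : IsCompact ((fun y : Fin (k + 1) → ℝ => y 0) '' tsupport G) :=
      hc.isCompact.image (by fun_prop)
    apply HasCompactSupport.intro hs0
    intro t ht
    have : ∀ x, G (cs t x) = 0 := by
      intro x
      by_contra hne
      exact ht ⟨cs t x, subset_tsupport G hne, rfl⟩
    simp [this]

end Vale.Agent.P219
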