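import Vale.Agent.P219.FieldIBP

namespace Vale.Agent.P219

open MeasureTheory Set Filter Topology

/-- The volume constants, defined by slicing: `omr k = ω_k`. -/
noncomputable def omr : ℕ → ℝ
  | 0 => 1
  | (k + 1) => omr k * ∫ y in (-1 : ℝ)..1, √(1 - y ^ 2) ^ k

theorem omr_pos : ∀ k, 0 < omr k
  | 0 => by simp [omr]
  | (k + 1) => by
    rw [omr]
    refine mul_pos (omr_pos k) ?_
    apply intervalIntegral.intervalIntegral_pos_of_pos_on
    · exact (by fun_prop : Continuous fun y : ℝ => √(1 - y ^ 2) ^ k).intervalIntegrable _ _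
    · intro y hy
      have : 0 < 1 - y ^ 2 := by nlinarith [hy.1, hy.2]
      positivity
    · norm_num

/-- The arithmetic-geometric inequality used in the induction step. -/
theorem amgm_step (k : ℕ) (hk : 0 < k) {d e h X : ℝ} (he : 0 < e) (hd : 0 < d) (hh : 0 < h)
    (hX : 0 ≤ X) :
    ((k : ℝ) + 1) / h * (X * e) ^ (1 / ((k : ℝ) + 1)) ≤
      d * e + (k : ℝ) / (h ^ (k + 1) * d) ^ (1 / (k : ℝ)) * X ^ (1 / (k : ℝ)) := by
  have hk' : (0 : ℝ) < k := by exact_mod_cast hk
  have hk1 : (0 : ℝ) < (k : ℝ) + 1 := by positivity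
  set A : ℝ := (h ^ (k + 1) * d) ^ (1 / (k : ℝ)) with hA
  have hApos : 0 < A := by rw [hA]; positivity
  have key := Real.geom_mean_le_arith_mean2_weighted (w₁ := 1 / ((k : ℝ) + 1))
    (w₂ := (k : ℝ) / ((k : ℝ) + 1)) (p₁ := d * e) (p₂ := X ^ (1 / (k : ℝ)) / A)
    (by positivity) (by positivity) (by positivity) (by positivity) (by field_simp; ring)
  have h1 : (d * e) ^ (1 / ((k : ℝ) + 1)) * (X ^ (1 / (k : ℝ)) / A) ^ ((k : ℝ) / ((k : ℝ) + 1)) =
      (X * e) ^ (1 / ((k : ℝ) + 1)) / h := by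
    rw [Real.div_rpow (by positivity) hApos.le, ← Real.rpow_mul hX, hA,
      ← Real.rpow_mul (by positivity)]
    have e1 : 1 / (k : ℝ) * ((k : ℝ) / ((k : ℝ) + 1)) = 1 / ((k : ℝ) + 1) := by field_simp
    rw [e1, Real.mul_rpow hd.le he.le, Real.mul_rpow (by positivity) hd.le,
      Real.mul_rpow hX he.le]
    have e2 : (h ^ (k + 1)) ^ (1 / ((k : ℝ) + 1)) = h := by
      rw [← Real.rpow_natCast, ← Real.rpow_mul hh.le]
      have : ((k + 1 : ℕ) : ℝ) * (1 / ((k : ℝ) + 1)) = 1 := by push_cast; field_simp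
      rw [this, Real.rpow_one]
    rw [e2]
    have hdp : 0 < d ^ (1 / ((k : ℝ) + 1)) := by positivity
    field_simp
  rw [h1] at key
  have h2 : ((k : ℝ) + 1) / h * (X * e) ^ (1 / ((k : ℝ) + 1)) =
      ((k : ℝ) + 1) * ((X * e) ^ (1 / ((k : ℝ) + 1)) / h) := by ring
  rw [h2]
  calc ((k : ℝ) + 1) * ((X * e) ^ (1 / ((k : ℝ) + 1)) / h)
      ≤ ((k : ℝ) + 1) * (1 / ((k : ℝ) + 1) * (d * e) +
        (k : ℝ) / ((k : ℝ) + 1) * (X ^ (1 / (k : ℝ)) / A)) :=
        mul_le_mul_of_nonneg_left key hk1.le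
    _ = d * e + (k : ℝ) / A * X ^ (1 / (k : ℝ)) := by
        field_simp

/-- The functional isoperimetric inequality for triangular systems. -/
def Star (k : ℕ) : Prop :=
  ∀ (S : TriSys k) (F : (Fin k → ℝ) → ℝ), ContDiff ℝ 1 F → HasCompactSupport F →
    (∀ x, 0 ≤ F x) → ∀ R : ℝ, 0 < R → ∫ x, F x * S.w x = omr k * R ^ k →
    k * ∫ x, F x * (F x * S.q x) ^ (1 / (k : ℝ)) * S.w x ≤ R * ∫ x, S.gnorm F x * S.w x

theorem star_zero : Star 0 := by
  intro S F hF hc h0 R hR hm
  simp only [Nat.cast_zero, zero_mul]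
  exact mul_nonneg hR.le (integral_nonneg fun x => mul_nonneg (S.gnorm_nonneg F x) (S.w_pos x).le)

variable {k : ℕ}

theorem slice_zero (S : TriSys (k + 1)) {F : (Fin (k + 1) → ℝ) → ℝ} (hF : Continuous F)
    (hc : HasCompactSupport F) (h0 : ∀ x, 0 ≤ F x) {t : ℝ}
    (ht : ∫ x, F (cs t x) * S.w (cs t x) = 0) (x : Fin k → ℝ) : F (cs t x) = 0 := by
  by_contra hne
  have hcont : Continuous fun x => F (cs t x) * S.w (cs t x) :=
    (hF.comp (continuous_cs_right t)).mul (S.w_c1.continuous.comp (continuous_cs_right t))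
  have hcs : HasCompactSupport fun x => F (cs t x) * S.w (cs t x) :=
    (hc.comp_isClosedEmbedding (isClosedEmbedding_cs_right t)).mul_right
  have := hcont.integral_pos_of_hasCompactSupport_nonneg_nonzero (μ := volume) hcs
    (fun x => mul_nonneg (h0 _) (S.w_pos _).le) (x := x)
    (mul_ne_zero hne (S.w_pos _).ne')
  linarith

/-- The inequality on one slice. -/
theorem slice_ineq (hstar : Star k) (S : TriSys (k + 1)) {F : (Fin (k + 1) → ℝ) → ℝ}
    (hF : ContDiff ℝ 1 F) (hc : HasCompactSupport F) (h0 : ∀ x, 0 ≤ F x) {t : ℝ}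
    (hft : 0 < ∫ x, F (cs t x) * S.w (cs t x)) {h y : ℝ} (hh : 0 < h) (hy : y ∈ Ioo (-1 : ℝ) 1) :
    ((k : ℝ) + 1) * ∫ x, F (cs t x) * (F (cs t x) * S.q (cs t x)) ^ (1 / ((k : ℝ) + 1)) / h *
        S.w (cs t x) ≤
      (∫ x, F (cs t x) * S.w (cs t x)) / (omr k * (h ^ (k + 1) * √(1 - y ^ 2) ^ k)) *
        (∫ x, F (cs t x) * (S.w (cs t x) * S.E 0 (cs t x) 0)) +
      √(1 - y ^ 2) * ∫ x, (S.slice t).gnorm (fun z => F (cs t z)) x * S.w (cs t x) := by
  set f := ∫ x, F (cs t x) * S.w (cs t x) with hf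
  set r := √(1 - y ^ 2) with hr
  have hrpos : 0 < r := by
    rw [hr]; apply Real.sqrt_pos.2; nlinarith [hy.1, hy.2]
  set p := omr k * (h ^ (k + 1) * r ^ k) with hp
  have hppos : 0 < p := by
    rw [hp]; have := omr_pos k; positivity
  set d := f / p with hd
  have hdpos : 0 < d := div_pos hft hppos
  have hFs : ContDiff ℝ 1 fun x : Fin k → ℝ => F (cs t x) := hF.comp (contDiff_cs_right t)
  have hFsc : HasCompactSupport fun x : Fin k → ℝ => F (cs t x) :=
    hc.comp_isClosedEmbedding (isClosedEmbedding_cs_right t)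
  have hwc : Continuous fun x : Fin k → ℝ => S.w (cs t x) :=
    S.w_c1.continuous.comp (continuous_cs_right t)
  have hEc : Continuous fun x : Fin k → ℝ => S.E 0 (cs t x) 0 :=
    (S.comp_c1 0 0).continuous.comp (continuous_cs_right t)
  have hqc : Continuous fun x : Fin k → ℝ => S.q (cs t x) :=
    S.q_cont.comp (continuous_cs_right t)
  have hk1 : (0 : ℝ) < (k : ℝ) + 1 := by positivity
  have hi1 : Integrable fun x : Fin k → ℝ => F (cs t x) * (S.w (cs t x) * S.E 0 (cs t x) 0) :=
    (hFs.continuous.mul (hwc.mul hEc)).integrable_of_hasCompactSupport hFsc.mul_right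
  have hi0 : Integrable fun x : Fin k → ℝ =>
      F (cs t x) * (F (cs t x) * S.q (cs t x)) ^ (1 / ((k : ℝ) + 1)) / h * S.w (cs t x) := by
    apply Continuous.integrable_of_hasCompactSupport
    · refine Continuous.mul (Continuous.div_const (hFs.continuous.mul ?_) _) hwc
      exact (hFs.continuous.mul hqc).rpow_const fun x => Or.inr (by positivity)
    · have : (fun x : Fin k → ℝ =>
        F (cs t x) * (F (cs t x) * S.q (cs t x)) ^ (1 / ((k : ℝ) + 1)) / h * S.w (cs t x)) =
        fun x => F (cs t x) * ((F (cs t x) * S.q (cs t x)) ^ (1 / ((k : ℝ) + 1)) / h *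
          S.w (cs t x)) := by
        funext x; ring
      rw [this]
      exact hFsc.mul_right
  rcases Nat.eq_zero_or_pos k with hk | hk
  · subst hk
    have hg0 : 0 ≤ r * ∫ x, (S.slice t).gnorm (fun z => F (cs t z)) x * S.w (cs t x) :=
      mul_nonneg hrpos.le (integral_nonneg fun x =>
        mul_nonneg ((S.slice t).gnorm_nonneg _ _) (S.w_pos _).le)
    have hun : ∀ g : (Fin 0 → ℝ) → ℝ, ∫ x, g x = g 0 := by
      intro g
      have : (volume : Measure (Fin 0 → ℝ)) = Measure.dirac 0 := by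
        rw [volume_pi]; exact Measure.pi_of_empty _ _
      rw [this]
      simp
    have hp1 : p = h := by simp [hp, omr]
    have hf1 : f = F (cs t 0) * S.w (cs t 0) := by rw [hf, hun]
    have hq1 : S.q (cs t (0 : Fin 0 → ℝ)) = S.w (cs t 0) * S.E 0 (cs t 0) 0 := by
      simp [TriSys.q]
    have : ((0 : ℕ) : ℝ) + 1 = 1 := by norm_num
    rw [hun, hun, this, hq1]
    rw [one_div_one, Real.rpow_one, hd, hp1, hf1]
    have e1 : 1 * (F (cs t 0) * (F (cs t 0) * (S.w (cs t 0) * S.E 0 (cs t 0) 0)) / h *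
        S.w (cs t 0)) =
        F (cs t 0) * S.w (cs t 0) / h * (F (cs t 0) * (S.w (cs t 0) * S.E 0 (cs t 0) 0)) := by
      ring
    rw [e1]
    linarith
  · have hk' : (0 : ℝ) < k := by exact_mod_cast hk
    set A : ℝ := (h ^ (k + 1) * d) ^ (1 / (k : ℝ)) with hA
    have hApos : 0 < A := by rw [hA]; positivity
    have hAk : A ^ k = h ^ (k + 1) * d := by
      rw [hA, ← Real.rpow_natCast, ← Real.rpow_mul (by positivity)]
      have : 1 / (k : ℝ) * (k : ℝ) = 1 := by field_simp
      rw [this, Real.rpow_one]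
    have hRk : ∫ x, F (cs t x) * (S.slice t).w x = omr k * (A * r) ^ k := by
      rw [mul_pow, hAk]
      have e1 : omr k * (h ^ (k + 1) * d * r ^ k) = p * d := by rw [hp]; ring
      rw [e1, hd, mul_div_cancel₀ _ hppos.ne']
      rfl
    have hst := hstar (S.slice t) (fun x => F (cs t x)) hFs hFsc (fun x => h0 _) (A * r)
      (by positivity) hRk
    have hi2 : Integrable fun x : Fin k → ℝ =>
        F (cs t x) * (F (cs t x) * (S.slice t).q x) ^ (1 / (k : ℝ)) * S.w (cs t x) := by
      apply Continuous.integrable_of_hasCompactSupport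
      · refine Continuous.mul (hFs.continuous.mul ?_) hwc
        exact (hFs.continuous.mul (S.slice t).q_cont).rpow_const fun x => Or.inr (by positivity)
      · exact (hFsc.mul_right).mul_right
    -- the pointwise inequality integrated
    have hpt : ((k : ℝ) + 1) *
        (∫ x, F (cs t x) * (F (cs t x) * S.q (cs t x)) ^ (1 / ((k : ℝ) + 1)) / h * S.w (cs t x)) ≤
        d * (∫ x, F (cs t x) * (S.w (cs t x) * S.E 0 (cs t x) 0)) +
        (k : ℝ) / A * ∫ x, F (cs t x) * (F (cs t x) * (S.slice t).q x) ^ (1 / (k : ℝ)) *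
          S.w (cs t x) := by
      rw [← integral_const_mul, ← integral_const_mul, ← integral_const_mul,
        ← integral_add (hi1.const_mul _) (hi2.const_mul _)]
      refine integral_mono (hi0.const_mul _) ((hi1.const_mul _).add (hi2.const_mul _)) fun x => ?_
      have hX : 0 ≤ F (cs t x) * (S.slice t).q x := mul_nonneg (h0 _) ((S.slice t).q_pos x).le
      have key := amgm_step k hk (S.diag 0 (cs t x)) hdpos hh hX
      have hq : F (cs t x) * S.q (cs t x) = F (cs t x) * (S.slice t).q x * S.E 0 (cs t x) 0 := by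
        rw [S.slice_q]; ring
      simp only
      rw [hq]
      have hFw : 0 ≤ F (cs t x) * S.w (cs t x) := mul_nonneg (h0 _) (S.w_pos _).le
      have := mul_le_mul_of_nonneg_left key hFw
      rw [← hA] at this
      calc _ = F (cs t x) * S.w (cs t x) * (((k : ℝ) + 1) / h *
            (F (cs t x) * (S.slice t).q x * S.E 0 (cs t x) 0) ^ (1 / ((k : ℝ) + 1))) := by ring
        _ ≤ _ := this
        _ = _ := by ring
    refine hpt.trans (add_le_add le_rfl ?_)
    have e2 : (k : ℝ) / A * ∫ x, F (cs t x) * (F (cs t x) * (S.slice t).q x) ^ (1 / (k : ℝ)) *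
        S.w (cs t x) = (k * ∫ x, F (cs t x) * (F (cs t x) * (S.slice t).q x) ^ (1 / (k : ℝ)) *
        (S.slice t).w x) / A := by
      have : ∀ x, (S.slice t).w x = S.w (cs t x) := fun x => rfl
      simp only [this]
      ring
    rw [e2, div_le_iff₀ hApos]
    refine hst.trans (le_of_eq ?_)
    have : ∀ x, (S.slice t).w x = S.w (cs t x) := fun x => rfl
    simp only [this]
    ring

/-- The target density on `[-1,1]`. -/
noncomputable def dens (k : ℕ) (h : ℝ → ℝ) (y : ℝ) : ℝ :=
  omr k * (h y ^ (k + 1) * √(1 - y ^ 2) ^ k)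

theorem dens_cont (k : ℕ) {h : ℝ → ℝ} (hh : ContinuousOn h (Icc (-1) 1)) :
    ContinuousOn (dens k h) (Icc (-1) 1) := by
  unfold dens
  fun_prop

theorem dens_pos (k : ℕ) {h : ℝ → ℝ} (hpos : ∀ y ∈ Icc (-1 : ℝ) 1, 0 < h y) :
    ∀ y ∈ Ioo (-1 : ℝ) 1, 0 < dens k h y := by
  intro y hy
  have h1 := hpos y (Ioo_subset_Icc_self hy)
  have h2 := omr_pos k
  have h3 : 0 < 1 - y ^ 2 := by nlinarith [hy.1, hy.2]
  unfold dens
  positivity

/-- The one-step inequality. -/
theorem step (hstar : Star k) (S : TriSys (k + 1)) {F : (Fin (k + 1) → ℝ) → ℝ}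
    (hF : ContDiff ℝ 1 F) (hc : HasCompactSupport F) (h0 : ∀ x, 0 ≤ F x)
    {h : ℝ → ℝ} (hh : ContinuousOn h (Icc (-1) 1)) (hpos : ∀ y ∈ Icc (-1 : ℝ) 1, 0 < h y)
    (hm : ∫ x, F x * S.w x = ∫ y in (-1 : ℝ)..1, dens k h y) :
    ∃ (τ : ℝ → ℝ) (t₀ t₁ : ℝ),
      Transport (fun t => ∫ x, F (cs t x) * S.w (cs t x)) (dens k h) τ t₀ t₁ ∧
      ((k : ℝ) + 1) * (∫ x, F x * (F x * S.q x) ^ (1 / ((k : ℝ) + 1)) / h (τ (x 0)) * S.w x) +
        ∫ x, τ (x 0) * (S.β 0 x * F x * S.w x) ≤ ∫ x, S.gnorm F x * S.w x := by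
  set f : ℝ → ℝ := fun t => ∫ x, F (cs t x) * S.w (cs t x) with hf
  have hFwc : Continuous fun x => F x * S.w x := hF.continuous.mul S.w_c1.continuous
  have hFws : HasCompactSupport fun x => F x * S.w x := hc.mul_right
  obtain ⟨hfc, hfs⟩ := slice_cont hFwc hFws
  have hf0 : ∀ t, 0 ≤ f t := fun t =>
    integral_nonneg fun x => mul_nonneg (h0 _) (S.w_pos _).le
  have hfm : ∫ t, f t = ∫ y in (-1 : ℝ)..1, dens k h y := by
    rw [← hm, integral_cs (hFwc.integrable_of_hasCompactSupport hFws)]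
  have hpc := dens_cont k hh
  have hp0 := dens_pos k hpos
  obtain ⟨τ, t₀, t₁, hT⟩ := exists_transport f (dens k h) hfc hf0 hfs hpc hp0 hfm
  refine ⟨τ, t₀, t₁, hT, ?_⟩
  have hFz : ∀ t, t ∉ Ioo t₀ t₁ → ∀ x, F (cs t x) = 0 := fun t ht x =>
    slice_zero S hF.continuous hc h0 (hT.zero t ht) x
  obtain ⟨hDint, hfield⟩ := first_field S hT hfc hf0 hpc hp0 hF hc h0 hFz
  have hhτ : Continuous fun t => h (τ t) := by
    rw [← continuousOn_univ]
    exact hh.comp hT.cont.continuousOn fun t _ => hT.mem t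
  have hhτpos : ∀ t, 0 < h (τ t) := fun t => hpos _ (hT.mem t)
  -- the three functions on the total space
  set G1 : (Fin (k + 1) → ℝ) → ℝ := fun x => S.gnorm F x * S.w x with hG1
  have hG1c : Continuous G1 := (S.gnorm_cont hF).mul S.w_c1.continuous
  have hG1s : HasCompactSupport G1 := (S.gnorm_supp hc).mul_right
  set G2 : (Fin (k + 1) → ℝ) → ℝ := fun x => τ (x 0) * (fderiv ℝ F x (S.E 0 x) * S.w x) with hG2
  have hG2c : Continuous G2 :=
    (hT.cont.comp (continuous_apply 0)).mul ((S.dE_cont hF 0).mul S.w_c1.continuous)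
  have hG2s : HasCompactSupport G2 := by
    apply HasCompactSupport.mul_left
    apply HasCompactSupport.mul_right
    apply (hc.fderiv ℝ).mono
    intro x hx h
    apply hx
    simp [h]
  set G3 : (Fin (k + 1) → ℝ) → ℝ :=
    fun x => F x * (F x * S.q x) ^ (1 / ((k : ℝ) + 1)) / h (τ (x 0)) * S.w x with hG3
  have hG3c : Continuous G3 := by
    refine Continuous.mul (Continuous.div (hF.continuous.mul ?_)
      (hhτ.comp (continuous_apply 0)) fun x => (hhτpos _).ne') S.w_c1.continuous
    exact (hF.continuous.mul S.q_cont).rpow_const fun x => Or.inr (by positivity)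
  have hG3s : HasCompactSupport G3 := by
    have : G3 = fun x => F x * ((F x * S.q x) ^ (1 / ((k : ℝ) + 1)) / h (τ (x 0)) * S.w x) := by
      funext x; simp only [hG3]; ring
    rw [this]
    exact hc.mul_right
  have hG1i := hG1c.integrable_of_hasCompactSupport hG1s (μ := volume)
  have hG2i := hG2c.integrable_of_hasCompactSupport hG2s (μ := volume)
  have hG3i := hG3c.integrable_of_hasCompactSupport hG3s (μ := volume)
  obtain ⟨hI1c, hI1s⟩ := slice_cont hG1c hG1s
  obtain ⟨hI2c, hI2s⟩ := slice_cont hG2c hG2s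
  obtain ⟨hI3c, hI3s⟩ := slice_cont hG3c hG3s
  set D : ℝ → ℝ := fun t => f t / dens k h (τ t) *
    ∫ x, F (cs t x) * (S.w (cs t x) * S.E 0 (cs t x) 0) with hD
  -- the inequality for every value of the first coordinate
  have hslice : ∀ t, ((k : ℝ) + 1) * (∫ x, G3 (cs t x)) ≤
      (∫ x, G1 (cs t x)) + (∫ x, G2 (cs t x)) + (Ioo t₀ t₁).indicator D t := by
    intro t
    by_cases ht : t ∈ Ioo t₀ t₁
    · rw [indicator_of_mem ht]
      by_cases hft : f t = 0
      · have hz : ∀ x, F (cs t x) = 0 := slice_zero S hF.continuous hc h0 hft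
        have e3 : ∀ x : Fin k → ℝ, G3 (cs t x) = 0 := fun x => by simp [hG3, hz x]
        have e2 : ∀ x : Fin k → ℝ, fderiv ℝ F (cs t x) = 0 := by
          intro x
          have : IsLocalMin F (cs t x) := Eventually.of_forall fun s => by rw [hz x]; exact h0 s
          exact this.fderiv_eq_zero
        have e2' : ∀ x : Fin k → ℝ, G2 (cs t x) = 0 := fun x => by simp [hG2, e2 x]
        have e1 : ∀ x : Fin k → ℝ, 0 ≤ G1 (cs t x) := fun x =>
          mul_nonneg (S.gnorm_nonneg _ _) (S.w_pos _).le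
        have : 0 ≤ ∫ x : Fin k → ℝ, G1 (cs t x) := integral_nonneg e1
        simp only [e3, e2', hD, hft, integral_zero]
        simpa using this
      · have hft' : 0 < f t := lt_of_le_of_ne (hf0 t) (Ne.symm hft)
        have hin := hT.inside t ht
        have key := slice_ineq hstar S hF hc h0 hft' (hhτpos t) hin
        have hlow : -(∫ x, G2 (cs t x)) + √(1 - τ t ^ 2) *
            ∫ x, (S.slice t).gnorm (fun z => F (cs t z)) x * S.w (cs t x) ≤
            ∫ x, G1 (cs t x) := by
          have hFs : ContDiff ℝ 1 fun x : Fin k → ℝ => F (cs t x) := hF.comp (contDiff_cs_right t)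
          have hFsc : HasCompactSupport fun x : Fin k → ℝ => F (cs t x) :=
            hc.comp_isClosedEmbedding (isClosedEmbedding_cs_right t)
          have i1 : Integrable fun x : Fin k → ℝ => G1 (cs t x) :=
            (hG1c.comp (continuous_cs_right t)).integrable_of_hasCompactSupport
              (hG1s.comp_isClosedEmbedding (isClosedEmbedding_cs_right t))
          have i2 : Integrable fun x : Fin k → ℝ => G2 (cs t x) :=
            (hG2c.comp (continuous_cs_right t)).integrable_of_hasCompactSupport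
              (hG2s.comp_isClosedEmbedding (isClosedEmbedding_cs_right t))
          have i3 : Integrable fun x : Fin k → ℝ =>
              (S.slice t).gnorm (fun z => F (cs t z)) x * S.w (cs t x) :=
            (((S.slice t).gnorm_cont hFs).mul
              (S.w_c1.continuous.comp (continuous_cs_right t))).integrable_of_hasCompactSupport
              ((S.slice t).gnorm_supp hFsc).mul_right
          have i2n : Integrable fun x : Fin k → ℝ => -G2 (cs t x) := i2.neg
          have i3n : Integrable fun x : Fin k → ℝ => √(1 - τ t ^ 2) *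
              ((S.slice t).gnorm (fun z => F (cs t z)) x * S.w (cs t x)) := i3.const_mul _
          rw [← integral_neg, ← integral_const_mul, ← integral_add i2n i3n]
          refine integral_mono (i2n.add i3n) i1 fun x => ?_
          have := S.gnorm_lower hF t x (hT.mem t)
          have := mul_le_mul_of_nonneg_right this (S.w_pos (cs t x)).le
          simp only [hG1, hG2, cs_zero]
          calc _ = (-(τ t * fderiv ℝ F (cs t x) (S.E 0 (cs t x))) +
              √(1 - τ t ^ 2) * (S.slice t).gnorm (fun y => F (cs t y)) x) * S.w (cs t x) := by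
                ring
            _ ≤ _ := this
        have e3 : ((k : ℝ) + 1) * (∫ x, G3 (cs t x)) = ((k : ℝ) + 1) *
          ∫ x, F (cs t x) * (F (cs t x) * S.q (cs t x)) ^ (1 / ((k : ℝ) + 1)) / h (τ t) *
            S.w (cs t x) := rfl
        rw [e3]
        have e4 : D t = f t / (omr k * (h (τ t) ^ (k + 1) * √(1 - τ t ^ 2) ^ k)) *
          ∫ x, F (cs t x) * (S.w (cs t x) * S.E 0 (cs t x) 0) := rfl
        rw [e4]
        linarith
    · rw [indicator_of_notMem ht]
      have hz : ∀ x, F (cs t x) = 0 := hFz t ht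
      have e3 : ∀ x : Fin k → ℝ, G3 (cs t x) = 0 := fun x => by simp [hG3, hz x]
      have e2 : ∀ x : Fin k → ℝ, fderiv ℝ F (cs t x) = 0 := by
        intro x
        have : IsLocalMin F (cs t x) := Eventually.of_forall fun s => by rw [hz x]; exact h0 s
        exact this.fderiv_eq_zero
      have e2' : ∀ x : Fin k → ℝ, G2 (cs t x) = 0 := fun x => by simp [hG2, e2 x]
      have e1 : ∀ x : Fin k → ℝ, 0 ≤ G1 (cs t x) := fun x =>
        mul_nonneg (S.gnorm_nonneg _ _) (S.w_pos _).le
      have : 0 ≤ ∫ x : Fin k → ℝ, G1 (cs t x) := integral_nonneg e1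
      simp only [e3, e2', integral_zero]
      simpa using this
  have hDi : Integrable ((Ioo t₀ t₁).indicator D) := by
    rw [integrable_indicator_iff measurableSet_Ioo]
    exact hDint
  have hI1 := hI1c.integrable_of_hasCompactSupport hI1s (μ := volume)
  have hI2 := hI2c.integrable_of_hasCompactSupport hI2s (μ := volume)
  have hI3 := hI3c.integrable_of_hasCompactSupport hI3s (μ := volume)
  have hmain := integral_mono (hI3.const_mul ((k : ℝ) + 1)) ((hI1.add hI2).add hDi) hslice
  have hI12 : Integrable fun t => (∫ x, G1 (cs t x)) + ∫ x, G2 (cs t x) := hI1.add hI2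
  have hsum : ∫ t, ((fun t => ∫ x, G1 (cs t x)) + (fun t => ∫ x, G2 (cs t x)) +
      (Ioo t₀ t₁).indicator D) t =
      (∫ x, G1 x) + (∫ x, G2 x) + ∫ t in Ioo t₀ t₁, D t := by
    rw [integral_cs hG1i, integral_cs hG2i, ← integral_indicator measurableSet_Ioo,
      ← integral_add hI1 hI2, ← integral_add hI12 hDi]
    rfl
  rw [integral_const_mul, ← integral_cs hG3i] at hmain
  have hmain' : ((k : ℝ) + 1) * ∫ x, G3 x ≤
      (∫ x, G1 x) + (∫ x, G2 x) + ∫ t in Ioo t₀ t₁, D t := hmain.trans (le_of_eq hsum)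
  have hfield' : - ∫ x, G2 x = (∫ t in Ioo t₀ t₁, D t) +
      ∫ x, τ (x 0) * (S.β 0 x * F x * S.w x) := hfield
  linarith

end Vale.Agent.P219
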