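import Vale.Agent.P219.Star

namespace Vale.Agent.P219

open MeasureTheory Set Filter Topology

variable {k : ℕ}

theorem omr_succ (k : ℕ) : omr (k + 1) = omr k * ∫ y in (-1 : ℝ)..1, √(1 - y ^ 2) ^ k := rfl

/-- Chebyshev's inequality for the first divergence. -/
theorem cheb (S : TriSys (k + 1)) {F : (Fin (k + 1) → ℝ) → ℝ}
    (hF : ContDiff ℝ 1 F) (hc : HasCompactSupport F) (h0 : ∀ x, 0 ≤ F x)
    {h : ℝ → ℝ} (hh : ContinuousOn h (Icc (-1) 1)) (hpos : ∀ y ∈ Icc (-1 : ℝ) 1, 0 < h y)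
    {τ : ℝ → ℝ} {t₀ t₁ : ℝ}
    (hT : Transport (fun t => ∫ x, F (cs t x) * S.w (cs t x)) (dens k h) τ t₀ t₁) :
    ∃ z, S.β 0 z * (∫ y in (-1 : ℝ)..1, y * dens k h y) ≤
      ∫ x, τ (x 0) * (S.β 0 x * F x * S.w x) := by
  have hFwc : Continuous fun x => F x * S.w x := hF.continuous.mul S.w_c1.continuous
  have hFws : HasCompactSupport fun x => F x * S.w x := hc.mul_right
  obtain ⟨hfc, hfs⟩ := slice_cont hFwc hFws
  have hpush := hT.pushforward hfc (dens_cont k hh) (dens_pos k hpos) (fun y => y) continuousOn_id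
  have hi : Integrable fun x => τ (x 0) * (F x * S.w x) := integrable_mul_left hFwc hFws hT.cont
  have h1 : ∫ x, τ (x 0) * (F x * S.w x) = ∫ y in (-1 : ℝ)..1, y * dens k h y := by
    rw [← hpush, integral_cs hi]
    congr 1
    funext t
    rw [← integral_const_mul]
    simp only [cs_zero]
  -- zero of τ
  obtain ⟨ts, hts, hτs⟩ : ∃ t ∈ Icc t₀ t₁, τ t = 0 := by
    apply intermediate_value_Icc hT.lt.le hT.cont.continuousOn
    rw [hT.left, hT.right]
    norm_num
  refine ⟨cs ts 0, ?_⟩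
  rw [← h1, ← integral_const_mul]
  refine integral_mono (hi.const_mul _) ?_ fun x => ?_
  · refine integrable_mul_left (((S.β_cont 0).mul hF.continuous).mul S.w_c1.continuous) ?_ hT.cont
    exact (hc.mul_left).mul_right
  · have hFw : 0 ≤ F x * S.w x := mul_nonneg (h0 _) (S.w_pos _).le
    have key : 0 ≤ τ (x 0) * (S.β 0 x - S.β 0 (cs ts 0)) := by
      rcases le_total (x 0) ts with hle | hle
      · have a1 : τ (x 0) ≤ 0 := by rw [← hτs]; exact hT.mono hle
        have a2 : S.β 0 x ≤ S.β 0 (cs ts 0) :=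
          S.β_mono 0 x (cs ts 0) (fun i hi => absurd hi (Fin.not_lt_zero i)) (by simpa using hle)
        exact mul_nonneg_of_nonpos_of_nonpos a1 (by linarith)
      · have a1 : 0 ≤ τ (x 0) := by rw [← hτs]; exact hT.mono hle
        have a2 : S.β 0 (cs ts 0) ≤ S.β 0 x :=
          S.β_mono 0 (cs ts 0) x (fun i hi => absurd hi (Fin.not_lt_zero i)) (by simpa using hle)
        exact mul_nonneg a1 (by linarith)
    have := mul_nonneg key hFw
    simp only
    nlinarith

theorem star_succ (hstar : Star k) : Star (k + 1) := by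
  intro S F hF hc h0 R hR hm
  have hmass : ∫ x, F x * S.w x = ∫ y in (-1 : ℝ)..1, dens k (fun _ => R) y := by
    rw [hm, omr_succ]
    unfold dens
    rw [intervalIntegral.integral_const_mul, intervalIntegral.integral_const_mul]
    ring
  have hcont : ContinuousOn (fun _ : ℝ => R) (Icc (-1) 1) := continuousOn_const
  obtain ⟨τ, t₀, t₁, hT, hineq⟩ := step hstar S hF hc h0 (h := fun _ => R) hcont
    (fun _ _ => hR) hmass
  obtain ⟨z, hz⟩ := cheb S hF hc h0 hcont (fun _ _ => hR) hT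
  have hodd : ∫ y in (-1 : ℝ)..1, y * dens k (fun _ => R) y = 0 := by
    have h1 := intervalIntegral.integral_comp_neg (a := -1) (b := 1)
      (fun y => y * dens k (fun _ => R) y)
    have h2 : (fun y => -y * dens k (fun _ => R) (-y)) = fun y => -(y * dens k (fun _ => R) y) := by
      funext y
      simp [dens]
    rw [h2, intervalIntegral.integral_neg, neg_neg] at h1
    linarith
  rw [hodd, mul_zero] at hz
  have e1 : ((k : ℝ) + 1) *
      (∫ x, F x * (F x * S.q x) ^ (1 / ((k : ℝ) + 1)) / R * S.w x) =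
      ((k + 1 : ℕ) : ℝ) * (∫ x, F x * (F x * S.q x) ^ (1 / ((k + 1 : ℕ) : ℝ)) * S.w x) / R := by
    push_cast
    rw [mul_div_assoc, ← integral_div]
    congr 2
    funext x
    ring
  rw [e1] at hineq
  have h3 : ((k + 1 : ℕ) : ℝ) * (∫ x, F x * (F x * S.q x) ^ (1 / ((k + 1 : ℕ) : ℝ)) * S.w x) / R ≤
      ∫ x, S.gnorm F x * S.w x := by linarith
  rw [div_le_iff₀ hR] at h3
  linarith

theorem star_all : ∀ k, Star k
  | 0 => star_zero
  | (k + 1) => star_succ (star_all k)

/-- The constant `c = √(1 + b² s²)` satisfies `|b s| < c`. -/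
theorem abs_lt_c (b s : ℝ) : |b * s| < √(1 + b ^ 2 * s ^ 2) := by
  apply Real.lt_sqrt_of_sq_lt
  rw [sq_abs]
  nlinarith

theorem c_sub_pos (b s : ℝ) {y : ℝ} (hy : y ∈ Icc (-1 : ℝ) 1) :
    0 < √(1 + b ^ 2 * s ^ 2) - b * s * y := by
  have h1 := abs_lt_c b s
  have h2 : b * s * y ≤ |b * s| := by
    calc b * s * y ≤ |b * s * y| := le_abs_self _
      _ = |b * s| * |y| := abs_mul _ _
      _ ≤ |b * s| * 1 := mul_le_mul_of_nonneg_left (abs_le.2 ⟨hy.1, hy.2⟩) (abs_nonneg _)
      _ = |b * s| := mul_one _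
  linarith

/-- The density of the slices of the model ball. -/
noncomputable def hyp (b s : ℝ) (y : ℝ) : ℝ := s / (√(1 + b ^ 2 * s ^ 2) - b * s * y)

theorem hyp_cont (b s : ℝ) : ContinuousOn (hyp b s) (Icc (-1) 1) := by
  unfold hyp
  exact continuousOn_const.div (by fun_prop) fun y hy => (c_sub_pos b s hy).ne'

theorem hyp_pos (b : ℝ) {s : ℝ} (hs : 0 < s) : ∀ y ∈ Icc (-1 : ℝ) 1, 0 < hyp b s y :=
  fun _ hy => div_pos hs (c_sub_pos b s hy)

theorem b_moment (k : ℕ) (b : ℝ) {s : ℝ} (hs : 0 < s) :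
    0 ≤ b * ∫ y in (-1 : ℝ)..1, y * dens k (hyp b s) y := by
  have hcont : ContinuousOn (fun y => y * dens k (hyp b s) y) (Icc (-1) 1) :=
    continuousOn_id.mul (dens_cont k (hyp_cont b s))
  have hint : IntervalIntegrable (fun y => y * dens k (hyp b s) y) volume (-1) 1 := by
    apply ContinuousOn.intervalIntegrable
    rwa [uIcc_of_le (by norm_num : (-1 : ℝ) ≤ 1)]
  have hcont' : ContinuousOn (fun y => -y * dens k (hyp b s) (-y)) (Icc (-1) 1) := by
    refine hcont.comp (f := fun y => -y) continuous_neg.continuousOn ?_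
    intro y hy
    exact ⟨by linarith [hy.2], by linarith [hy.1]⟩
  have hint' : IntervalIntegrable (fun y => -y * dens k (hyp b s) (-y)) volume (-1) 1 := by
    apply ContinuousOn.intervalIntegrable
    rwa [uIcc_of_le (by norm_num : (-1 : ℝ) ≤ 1)]
  have h1 := intervalIntegral.integral_comp_neg (a := -1) (b := 1)
    (fun y => y * dens k (hyp b s) y)
  rw [neg_neg] at h1
  have h2 : 2 * (b * ∫ y in (-1 : ℝ)..1, y * dens k (hyp b s) y) =
      ∫ y in (-1 : ℝ)..1, b * (y * dens k (hyp b s) y + -y * dens k (hyp b s) (-y)) := by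
    rw [intervalIntegral.integral_const_mul, intervalIntegral.integral_add hint hint', h1]
    ring
  have h3 : 0 ≤ ∫ y in (-1 : ℝ)..1, b * (y * dens k (hyp b s) y + -y * dens k (hyp b s) (-y)) := by
    apply intervalIntegral.integral_nonneg (by norm_num)
    intro y hy
    have hy' : -y ∈ Icc (-1 : ℝ) 1 := ⟨by linarith [hy.2], by linarith [hy.1]⟩
    have p1 := c_sub_pos b s hy
    have p2 := c_sub_pos b s hy'
    have e1 : b * (y * dens k (hyp b s) y + -y * dens k (hyp b s) (-y)) =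
        omr k * √(1 - y ^ 2) ^ k * ((b * y) * (hyp b s y ^ (k + 1) - hyp b s (-y) ^ (k + 1))) := by
      simp only [dens, neg_sq]
      ring
    rw [e1]
    refine mul_nonneg (mul_nonneg (omr_pos k).le (by positivity)) ?_
    rcases le_total 0 (b * y) with hb | hb
    · refine mul_nonneg hb (sub_nonneg.2 ?_)
      apply pow_le_pow_left₀ (hyp_pos b hs _ hy').le
      unfold hyp
      apply div_le_div_of_nonneg_left hs.le p1
      nlinarith
    · refine mul_nonneg_of_nonpos_of_nonpos hb (sub_nonpos.2 ?_)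
      apply pow_le_pow_left₀ (hyp_pos b hs _ hy).le
      unfold hyp
      apply div_le_div_of_nonneg_left hs.le p2
      nlinarith
  linarith

/-- The top-level functional inequality, for every curvature parameter `b`. -/
theorem top_ineq (S : TriSys (k + 1)) {F : (Fin (k + 1) → ℝ) → ℝ}
    (hF : ContDiff ℝ 1 F) (hc : HasCompactSupport F) (h0 : ∀ x, 0 ≤ F x)
    {b s : ℝ} (hs : 0 < s) (hβ : ∀ x, (k : ℝ) * b ^ 2 ≤ b * S.β 0 x)
    (hm : ∫ x, F x * S.w x = ∫ y in (-1 : ℝ)..1, dens k (hyp b s) y) :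
    ∃ (τ : ℝ → ℝ) (t₀ t₁ : ℝ),
      Transport (fun t => ∫ x, F (cs t x) * S.w (cs t x)) (dens k (hyp b s)) τ t₀ t₁ ∧
      ((k : ℝ) + 1) * (∫ x, F x * (F x * S.q x) ^ (1 / ((k : ℝ) + 1)) *
        (√(1 + b ^ 2 * s ^ 2) - b * s * τ (x 0)) * S.w x) +
        s * (k * b * ∫ y in (-1 : ℝ)..1, y * dens k (hyp b s) y) ≤
        s * ∫ x, S.gnorm F x * S.w x := by
  obtain ⟨τ, t₀, t₁, hT, hineq⟩ := step (star_all k) S hF hc h0 (hyp_cont b s) (hyp_pos b hs) hm
  obtain ⟨z, hz⟩ := cheb S hF hc h0 (hyp_cont b s) (hyp_pos b hs) hT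
  refine ⟨τ, t₀, t₁, hT, ?_⟩
  set J := ∫ y in (-1 : ℝ)..1, y * dens k (hyp b s) y with hJ
  have hbJ : 0 ≤ b * J := b_moment k b hs
  have hJz : k * b * J ≤ S.β 0 z * J := by
    by_cases hb : b = 0
    · subst hb
      have hodd : J = 0 := by
        have h1 := intervalIntegral.integral_comp_neg (a := -1) (b := 1)
          (fun y => y * dens k (hyp 0 s) y)
        have h2 : (fun y => -y * dens k (hyp 0 s) (-y)) =
            fun y => -(y * dens k (hyp 0 s) y) := by
          funext y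
          simp [dens, hyp]
        rw [h2, intervalIntegral.integral_neg, neg_neg] at h1
        rw [hJ]
        linarith
      rw [hodd]; simp
    · have h1 := hβ z
      have hb2 : 0 < b ^ 2 := by positivity
      have h2 : 0 ≤ (b * S.β 0 z - k * b ^ 2) * (b * J) :=
        mul_nonneg (by linarith) hbJ
      have h3 : (b * S.β 0 z - k * b ^ 2) * (b * J) = b ^ 2 * (S.β 0 z * J - k * b * J) := by ring
      rw [h3] at h2
      have h4 := nonneg_of_mul_nonneg_right h2 hb2
      linarith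
  have e1 : ((k : ℝ) + 1) *
      (∫ x, F x * (F x * S.q x) ^ (1 / ((k : ℝ) + 1)) / hyp b s (τ (x 0)) * S.w x) =
      ((k : ℝ) + 1) * (∫ x, F x * (F x * S.q x) ^ (1 / ((k : ℝ) + 1)) *
        (√(1 + b ^ 2 * s ^ 2) - b * s * τ (x 0)) * S.w x) / s := by
    rw [mul_div_assoc, ← integral_div]
    congr 2
    funext x
    unfold hyp
    field_simp
  rw [e1] at hineq
  have h5 : ((k : ℝ) + 1) * (∫ x, F x * (F x * S.q x) ^ (1 / ((k : ℝ) + 1)) *
      (√(1 + b ^ 2 * s ^ 2) - b * s * τ (x 0)) * S.w x) / s + k * b * J ≤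
      ∫ x, S.gnorm F x * S.w x := by linarith
  have h6 := mul_le_mul_of_nonneg_left h5 hs.le
  have h7 : s * (((k : ℝ) + 1) * (∫ x, F x * (F x * S.q x) ^ (1 / ((k : ℝ) + 1)) *
      (√(1 + b ^ 2 * s ^ 2) - b * s * τ (x 0)) * S.w x) / s + k * b * J) =
      ((k : ℝ) + 1) * (∫ x, F x * (F x * S.q x) ^ (1 / ((k : ℝ) + 1)) *
        (√(1 + b ^ 2 * s ^ 2) - b * s * τ (x 0)) * S.w x) + s * (k * b * J) := by
    field_simp
  rw [h7] at h6
  exact h6

/-- The final functional inequality for orthonormal triangular systems. -/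
theorem final_ineq (S : TriSys (k + 1)) (hq : ∀ x, S.q x = 1) {F : (Fin (k + 1) → ℝ) → ℝ}
    (hF : ContDiff ℝ 1 F) (hc : HasCompactSupport F) (h0 : ∀ x, 0 ≤ F x) (h1 : ∀ x, F x ≤ 1)
    {b s : ℝ} (hs : 0 < s) (hβ : ∀ x, (k : ℝ) * b ^ 2 ≤ b * S.β 0 x)
    (hm : ∫ x, F x * S.w x = ∫ y in (-1 : ℝ)..1, dens k (hyp b s) y) :
    ∫ y in (-1 : ℝ)..1, (((k : ℝ) + 1) * √(1 + b ^ 2 * s ^ 2) - b * s * y) * dens k (hyp b s) y ≤
      s * (∫ x, S.gnorm F x * S.w x) +
      ((k : ℝ) + 1) * (√(1 + b ^ 2 * s ^ 2) + |b * s|) *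
        ∫ x, (F x - F x * F x ^ (1 / ((k : ℝ) + 1))) * S.w x := by
  obtain ⟨τ, t₀, t₁, hT, hineq⟩ := top_ineq S hF hc h0 hs hβ hm
  set c := √(1 + b ^ 2 * s ^ 2) with hcdef
  set J := ∫ y in (-1 : ℝ)..1, y * dens k (hyp b s) y with hJ
  have hFwc : Continuous fun x => F x * S.w x := hF.continuous.mul S.w_c1.continuous
  have hFws : HasCompactSupport fun x => F x * S.w x := hc.mul_right
  obtain ⟨hfc, hfs⟩ := slice_cont hFwc hFws
  have hpush := hT.pushforward hfc (dens_cont k (hyp_cont b s)) (dens_pos k (hyp_pos b hs))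
    (fun y => c - b * s * y) (by fun_prop)
  have hcτ : Continuous fun t => c - b * s * τ t := by
    have := hT.cont
    fun_prop
  have hi : Integrable fun x => (c - b * s * τ (x 0)) * (F x * S.w x) :=
    integrable_mul_left hFwc hFws hcτ
  have e1 : ∫ x, (c - b * s * τ (x 0)) * (F x * S.w x) =
      ∫ y in (-1 : ℝ)..1, (c - b * s * y) * dens k (hyp b s) y := by
    rw [← hpush, integral_cs hi]
    congr 1
    funext t
    rw [← integral_const_mul]
    simp only [cs_zero]
  -- the error term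
  have hpc : Continuous fun x => F x ^ (1 / ((k : ℝ) + 1)) :=
    hF.continuous.rpow_const fun x => Or.inr (by positivity)
  have hGc : Continuous fun x => (F x - F x * F x ^ (1 / ((k : ℝ) + 1))) * S.w x :=
    (hF.continuous.sub (hF.continuous.mul hpc)).mul S.w_c1.continuous
  have hGs : HasCompactSupport fun x => (F x - F x * F x ^ (1 / ((k : ℝ) + 1))) * S.w x :=
    (hc.sub hc.mul_right).mul_right
  have hGi := hGc.integrable_of_hasCompactSupport hGs (μ := volume)
  have hi2 : Integrable fun x => (c - b * s * τ (x 0)) *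
      ((F x - F x * F x ^ (1 / ((k : ℝ) + 1))) * S.w x) := integrable_mul_left hGc hGs hcτ
  have e2 : ∫ x, F x * (F x * S.q x) ^ (1 / ((k : ℝ) + 1)) * (c - b * s * τ (x 0)) * S.w x =
      (∫ x, (c - b * s * τ (x 0)) * (F x * S.w x)) -
      ∫ x, (c - b * s * τ (x 0)) * ((F x - F x * F x ^ (1 / ((k : ℝ) + 1))) * S.w x) := by
    rw [← integral_sub hi hi2]
    congr 1
    funext x
    rw [hq x, mul_one]
    ring
  have e3 : ∫ x, (c - b * s * τ (x 0)) * ((F x - F x * F x ^ (1 / ((k : ℝ) + 1))) * S.w x) ≤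
      (c + |b * s|) * ∫ x, (F x - F x * F x ^ (1 / ((k : ℝ) + 1))) * S.w x := by
    rw [← integral_const_mul]
    refine integral_mono hi2 (hGi.const_mul _) fun x => ?_
    have hle : F x * F x ^ (1 / ((k : ℝ) + 1)) ≤ F x := by
      calc F x * F x ^ (1 / ((k : ℝ) + 1)) ≤ F x * 1 :=
            mul_le_mul_of_nonneg_left (Real.rpow_le_one (h0 x) (h1 x) (by positivity)) (h0 x)
        _ = F x := mul_one _
    refine mul_le_mul_of_nonneg_right ?_ (mul_nonneg (by linarith) (S.w_pos x).le)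
    have hy := hT.mem (x 0)
    have : -(b * s * τ (x 0)) ≤ |b * s| := by
      calc -(b * s * τ (x 0)) ≤ |b * s * τ (x 0)| := neg_le_abs _
        _ = |b * s| * |τ (x 0)| := abs_mul _ _
        _ ≤ |b * s| * 1 := mul_le_mul_of_nonneg_left (abs_le.2 ⟨hy.1, hy.2⟩) (abs_nonneg _)
        _ = |b * s| := mul_one _
    linarith
  have hdc := dens_cont k (hyp_cont b s)
  have hI1 : IntervalIntegrable (fun y => (c - b * s * y) * dens k (hyp b s) y) volume (-1) 1 := by
    apply ContinuousOn.intervalIntegrable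
    rw [uIcc_of_le (by norm_num : (-1 : ℝ) ≤ 1)]
    exact ContinuousOn.mul (by fun_prop) hdc
  have hI2 : IntervalIntegrable (fun y => y * dens k (hyp b s) y) volume (-1) 1 := by
    apply ContinuousOn.intervalIntegrable
    rw [uIcc_of_le (by norm_num : (-1 : ℝ) ≤ 1)]
    exact continuousOn_id.mul hdc
  have e4 : ∫ y in (-1 : ℝ)..1, (((k : ℝ) + 1) * c - b * s * y) * dens k (hyp b s) y =
      ((k : ℝ) + 1) * (∫ y in (-1 : ℝ)..1, (c - b * s * y) * dens k (hyp b s) y) +
      s * (k * b * J) := by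
    rw [hJ, ← intervalIntegral.integral_const_mul, ← intervalIntegral.integral_const_mul,
      ← intervalIntegral.integral_const_mul, ← intervalIntegral.integral_add (hI1.const_mul _)
      ((hI2.const_mul _).const_mul _)]
    congr 1
    funext y
    ring
  rw [e4, ← e1]
  rw [e2] at hineq
  have hk1 : (0 : ℝ) < (k : ℝ) + 1 := by positivity
  have e5 := mul_le_mul_of_nonneg_left e3 hk1.le
  nlinarith

end Vale.Agent.P219
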