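import Mathlib

namespace Vale.Agent.P219

open MeasureTheory Set intervalIntegral Filter Topology

/-- `τ` is the monotone transport of `f dt` on the line to `p dy` on `[-1,1]`, with
active interval `(t₀, t₁)`. -/
structure Transport (f p τ : ℝ → ℝ) (t₀ t₁ : ℝ) : Prop where
  lt : t₀ < t₁
  mono : Monotone τ
  cont : Continuous τ
  mem : ∀ t, τ t ∈ Icc (-1 : ℝ) 1
  zero : ∀ t, t ∉ Ioo t₀ t₁ → f t = 0
  left : τ t₀ = -1
  right : τ t₁ = 1
  inside : ∀ t ∈ Ioo t₀ t₁, τ t ∈ Ioo (-1 : ℝ) 1
  deriv : ∀ t ∈ Ioo t₀ t₁, HasDerivAt τ (f t / p (τ t)) t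

/-- One-dimensional monotone transport of `f dt` on the line to `p dy` on `[-1,1]`. -/
theorem exists_transport (f p : ℝ → ℝ) (hf : Continuous f) (hf0 : ∀ t, 0 ≤ f t)
    (hfc : HasCompactSupport f)
    (hp : ContinuousOn p (Icc (-1) 1)) (hp0 : ∀ y ∈ Ioo (-1 : ℝ) 1, 0 < p y)
    (hm : ∫ t, f t = ∫ y in (-1 : ℝ)..1, p y) :
    ∃ (τ : ℝ → ℝ) (t₀ t₁ : ℝ), Transport f p τ t₀ t₁ := by
  -- the primitive of p
  set K : ℝ → ℝ := fun y => ∫ x in (-1 : ℝ)..y, p x with hK
  set m : ℝ := ∫ y in (-1 : ℝ)..1, p y with hmdef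
  have hpint : IntervalIntegrable p volume (-1) 1 :=
    (hp.mono (by rw [uIcc_of_le (by norm_num : (-1 : ℝ) ≤ 1)])).intervalIntegrable
  have hsub : ∀ {a b : ℝ}, a ∈ Icc (-1 : ℝ) 1 → b ∈ Icc (-1 : ℝ) 1 →
      IntervalIntegrable p volume a b := by
    intro a b ha hb
    refine (hp.mono ?_).intervalIntegrable
    intro x hx
    rw [uIcc, mem_Icc] at hx
    exact ⟨le_trans (le_inf ha.1 hb.1) hx.1, le_trans hx.2 (sup_le ha.2 hb.2)⟩
  have hKc : ContinuousOn K (Icc (-1) 1) := by
    have := intervalIntegral.continuousOn_primitive_interval' hpint (left_mem_uIcc)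
    rwa [uIcc_of_le (by norm_num : (-1 : ℝ) ≤ 1)] at this
  have hKm : StrictMonoOn K (Icc (-1) 1) := by
    intro a ha b hb hab
    have h1 : K b - K a = ∫ x in a..b, p x := by
      simp only [hK]
      rw [intervalIntegral.integral_interval_sub_left]
      · exact hsub ⟨le_rfl, by norm_num⟩ hb
      · exact hsub ⟨le_rfl, by norm_num⟩ ha
    have h2 : 0 < ∫ x in a..b, p x := by
      apply intervalIntegral.intervalIntegral_pos_of_pos_on (hsub ha hb) _ hab
      intro x hx
      exact hp0 x ⟨lt_of_le_of_lt ha.1 hx.1, lt_of_lt_of_le hx.2 hb.2⟩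
    linarith
  have hK0 : K (-1) = 0 := by simp [hK]
  have hK1 : K 1 = m := rfl
  have hm0 : 0 < m := by
    have := hKm (left_mem_Icc.2 (by norm_num : (-1 : ℝ) ≤ 1))
      (right_mem_Icc.2 (by norm_num : (-1 : ℝ) ≤ 1)) (by norm_num)
    rwa [hK0, hK1] at this
  have hKd : ∀ y ∈ Ioo (-1 : ℝ) 1, HasDerivAt K (p y) y := by
    intro y hy
    have hcont : ContinuousAt p y := hp.continuousAt (Icc_mem_nhds hy.1 hy.2)
    refine intervalIntegral.integral_hasDerivAt_right
      (hsub ⟨le_rfl, by norm_num⟩ ⟨hy.1.le, hy.2.le⟩) ?_ hcont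
    exact hp.stronglyMeasurableAtFilter_nhdsWithin measurableSet_Icc y |>.filter_mono
      (by rw [nhdsWithin_eq_nhds.2 (Icc_mem_nhds hy.1 hy.2)])
  -- inverse function
  have hinv : ∀ v : ℝ, ∃ y ∈ Icc (-1 : ℝ) 1, K y = max 0 (min v m) := by
    intro v
    have hv : max 0 (min v m) ∈ Icc (K (-1)) (K 1) := by
      rw [hK0, hK1]
      exact ⟨le_max_left _ _, max_le hm0.le (min_le_right _ _)⟩
    obtain ⟨y, hy, hy2⟩ := intermediate_value_Icc (by norm_num : (-1 : ℝ) ≤ 1) hKc hv
    exact ⟨y, hy, hy2⟩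
  choose g hgI hgK using hinv
  have hgmono : Monotone g := by
    intro a b hab
    by_contra hlt
    push Not at hlt
    have h1 := hKm (hgI b) (hgI a) hlt
    rw [hgK, hgK] at h1
    have h2 : max 0 (min a m) ≤ max 0 (min b m) :=
      max_le_max le_rfl (min_le_min hab le_rfl)
    linarith
  have hgcont : Continuous g := by
    rw [continuous_iff_continuousAt]
    intro v
    have hclamp : Continuous (fun v : ℝ => max 0 (min v m)) := by fun_prop
    rw [ContinuousAt, tendsto_order]
    constructor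
    · intro a ha
      by_cases haI : a < -1
      · exact Eventually.of_forall fun s => lt_of_lt_of_le haI (hgI s).1
      · push Not at haI
        have haI' : a ∈ Icc (-1 : ℝ) 1 := ⟨haI, le_trans ha.le (hgI v).2⟩
        have h1 : K a < max 0 (min v m) := by rw [← hgK v]; exact hKm haI' (hgI v) ha
        have h2 : ∀ᶠ s in 𝓝 v, K a < max 0 (min s m) :=
          (hclamp.tendsto v).eventually (lt_mem_nhds h1)
        filter_upwards [h2] with s hs
        rw [← hgK s] at hs
        exact (hKm.lt_iff_lt haI' (hgI s)).1 hs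
    · intro a ha
      by_cases haI : 1 < a
      · exact Eventually.of_forall fun s => lt_of_le_of_lt (hgI s).2 haI
      · push Not at haI
        have haI' : a ∈ Icc (-1 : ℝ) 1 := ⟨le_trans (hgI v).1 ha.le, haI⟩
        have h1 : max 0 (min v m) < K a := by rw [← hgK v]; exact hKm (hgI v) haI' ha
        have h2 : ∀ᶠ s in 𝓝 v, max 0 (min s m) < K a :=
          (hclamp.tendsto v).eventually (gt_mem_nhds h1)
        filter_upwards [h2] with s hs
        rw [← hgK s] at hs
        exact (hKm.lt_iff_lt (hgI s) haI').1 hs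
  -- the mass function
  obtain ⟨A, B, hAB, hsupp⟩ : ∃ A B : ℝ, A < B ∧ ∀ t, t ∉ Icc A B → f t = 0 := by
    obtain ⟨R, hR⟩ := hfc.isCompact.isBounded.subset_closedBall (0 : ℝ)
    refine ⟨-|R| - 1, |R| + 1, by linarith [abs_nonneg R], fun t ht => ?_⟩
    by_contra hne
    have h1 : t ∈ tsupport f := subset_tsupport f hne
    have h2 := hR h1
    rw [Metric.mem_closedBall, dist_zero_right, Real.norm_eq_abs] at h2
    apply ht
    have := le_abs_self R
    rw [mem_Icc]
    constructor
    · linarith [neg_abs_le t]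
    · linarith [le_abs_self t]
  set M : ℝ → ℝ := fun t => ∫ s in A..t, f s with hM
  have hMd : ∀ t, HasDerivAt M (f t) t := fun t =>
    intervalIntegral.integral_hasDerivAt_right (hf.intervalIntegrable _ _)
      (hf.stronglyMeasurableAtFilter _ _) hf.continuousAt
  have hMc : Continuous M := continuous_iff_continuousAt.2 fun t => (hMd t).continuousAt
  have hMm : Monotone M := monotone_of_hasDerivAt_nonneg hMd hf0
  have hMA : M A = 0 := by simp [hM]
  have hMB : M B = m := by
    have h1 : ∫ t, f t = ∫ t in A..B, f t := by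
      rw [intervalIntegral.integral_of_le hAB.le, ← integral_Icc_eq_integral_Ioc]
      rw [setIntegral_eq_integral_of_forall_compl_eq_zero]
      intro x hx
      exact hsupp x hx
    rw [← hm, h1]
  have hMleft : ∀ t ≤ A, M t = 0 := by
    intro t ht
    simp only [hM]
    rw [intervalIntegral.integral_symm, neg_eq_zero]
    rw [intervalIntegral.integral_of_le ht]
    rw [MeasureTheory.integral_Ioc_eq_integral_Ioo]
    apply setIntegral_eq_zero_of_forall_eq_zero
    intro x hx
    exact hsupp x fun hx' => absurd hx.2 (not_lt.2 hx'.1)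
  have hMright : ∀ t, B ≤ t → M t = m := by
    intro t ht
    have h1 : M t - M B = ∫ x in B..t, f x := by
      simp only [hM]
      rw [intervalIntegral.integral_interval_sub_left] <;> exact hf.intervalIntegrable _ _
    have h2 : ∫ x in B..t, f x = 0 := by
      rw [intervalIntegral.integral_of_le ht]
      apply setIntegral_eq_zero_of_forall_eq_zero
      intro x hx
      exact hsupp x fun hx' => absurd hx.1 (not_lt.2 hx'.2)
    linarith [hMB]
  have hM0 : ∀ t, 0 ≤ M t := by
    intro t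
    rcases le_total t A with h | h
    · rw [hMleft t h]
    · rw [← hMA]; exact hMm h
  have hMlem : ∀ t, M t ≤ m := by
    intro t
    rcases le_total t B with h | h
    · rw [← hMB]; exact hMm h
    · rw [hMright t h]
  have hKτ : ∀ t, K (g (M t)) = M t := by
    intro t
    rw [hgK, min_eq_left (hMlem t), max_eq_right (hM0 t)]
  have hfz : ∀ t, (M t = 0 ∨ M t = m) → f t = 0 := by
    intro t ht
    rcases ht with h | h
    · have : IsLocalMin M t := Eventually.of_forall fun s => by rw [h]; exact hM0 s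
      exact this.hasDerivAt_eq_zero (hMd t)
    · have : IsLocalMax M t := Eventually.of_forall fun s => by rw [h]; exact hMlem s
      exact this.hasDerivAt_eq_zero (hMd t)
  -- endpoints
  have hS0 : IsCompact {t | t ∈ Icc A B ∧ M t = 0} := by
    have : {t | t ∈ Icc A B ∧ M t = 0} = Icc A B ∩ M ⁻¹' {0} := rfl
    rw [this]
    exact isCompact_Icc.inter_right (isClosed_singleton.preimage hMc)
  have hS1 : IsCompact {t | t ∈ Icc A B ∧ M t = m} := by
    have : {t | t ∈ Icc A B ∧ M t = m} = Icc A B ∩ M ⁻¹' {m} := rfl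
    rw [this]
    exact isCompact_Icc.inter_right (isClosed_singleton.preimage hMc)
  obtain ⟨t₀, ht₀, ht₀max⟩ := hS0.exists_isGreatest ⟨A, left_mem_Icc.2 hAB.le, hMA⟩
  obtain ⟨t₁, ht₁, ht₁min⟩ := hS1.exists_isLeast ⟨B, right_mem_Icc.2 hAB.le, hMB⟩
  have h01 : t₀ < t₁ := by
    by_contra hle
    push Not at hle
    have := hMm hle
    rw [ht₀.2, ht₁.2] at this
    linarith
  have hinside : ∀ t ∈ Ioo t₀ t₁, 0 < M t ∧ M t < m := by
    intro t ht
    have htI : t ∈ Icc A B := ⟨le_trans ht₀.1.1 ht.1.le, le_trans ht.2.le ht₁.1.2⟩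
    constructor
    · apply lt_of_le_of_ne (hM0 t)
      intro h
      exact absurd (ht₀max ⟨htI, h.symm⟩) (not_le.2 ht.1)
    · apply lt_of_le_of_ne (hMlem t)
      intro h
      exact absurd (ht₁min ⟨htI, h⟩) (not_le.2 ht.2)
  have hKinj := hKm.injOn
  suffices h : ∀ t ∈ Ioo t₀ t₁, (g ∘ M) t ∈ Ioo (-1 : ℝ) 1 ∧
      HasDerivAt (g ∘ M) (f t / p ((g ∘ M) t)) t by
    refine ⟨g ∘ M, t₀, t₁, h01, hgmono.comp hMm, hgcont.comp hMc, fun t => hgI _, ?_, ?_, ?_,
      fun t ht => (h t ht).1, fun t ht => (h t ht).2⟩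
    · intro t ht
      apply hfz
      rw [mem_Ioo, not_and_or, not_lt, not_lt] at ht
      rcases ht with h | h
      · left
        apply le_antisymm _ (hM0 t)
        rw [← ht₀.2]; exact hMm h
      · right
        apply le_antisymm (hMlem t)
        rw [← ht₁.2]; exact hMm h
    · apply hKinj (hgI _) (left_mem_Icc.2 (by norm_num))
      rw [hKτ, ht₀.2, hK0]
    · apply hKinj (hgI _) (right_mem_Icc.2 (by norm_num))
      rw [hKτ, ht₁.2]
  intro t ht
  obtain ⟨h1, h2⟩ := hinside t ht
  have hτI : g (M t) ∈ Ioo (-1 : ℝ) 1 := by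
    constructor
    · apply lt_of_le_of_ne (hgI _).1
      intro h
      have := hKτ t
      rw [← h, hK0] at this
      linarith
    · apply lt_of_le_of_ne (hgI _).2
      intro h
      have := hKτ t
      rw [h, hK1] at this
      linarith
  refine ⟨hτI, ?_⟩
  have hgd : HasDerivAt g (p (g (M t)))⁻¹ (M t) := by
    apply HasDerivAt.of_local_left_inverse hgcont.continuousAt (hKd _ hτI) (hp0 _ hτI).ne'
    filter_upwards [Ioo_mem_nhds h1 h2] with v hv
    rw [hgK, min_eq_left hv.2.le, max_eq_right hv.1.le]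
  have := hgd.comp t (hMd t)
  rw [div_eq_inv_mul]
  exact this

/-- Change of variables along the transport. -/
theorem Transport.pushforward {f p τ : ℝ → ℝ} {t₀ t₁ : ℝ} (hT : Transport f p τ t₀ t₁)
    (hf : Continuous f) (hp : ContinuousOn p (Icc (-1) 1)) (hp0 : ∀ y ∈ Ioo (-1 : ℝ) 1, 0 < p y)
    (G : ℝ → ℝ) (hG : ContinuousOn G (Icc (-1) 1)) :
    ∫ t, G (τ t) * f t = ∫ y in (-1 : ℝ)..1, G y * p y := by
  have hGτ : Continuous fun t => G (τ t) := by
    rw [← continuousOn_univ]
    exact hG.comp hT.cont.continuousOn fun t _ => hT.mem t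
  have h1 : ∫ t, G (τ t) * f t = ∫ t in t₀..t₁, G (τ t) * f t := by
    rw [intervalIntegral.integral_of_le hT.lt.le, MeasureTheory.integral_Ioc_eq_integral_Ioo]
    rw [setIntegral_eq_integral_of_forall_compl_eq_zero]
    intro x hx
    rw [hT.zero x hx, mul_zero]
  have himg : τ '' uIcc t₀ t₁ ⊆ Icc (-1) 1 := by
    rintro _ ⟨t, _, rfl⟩
    exact hT.mem t
  have h2 := intervalIntegral.integral_comp_mul_deriv''' (a := t₀) (b := t₁) (f := τ)
    (f' := fun t => f t / p (τ t)) (g := fun y => G y * p y) hT.cont.continuousOn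
    (by
      intro x hx
      rw [min_eq_left hT.lt.le, max_eq_right hT.lt.le] at hx
      exact (hT.deriv x hx).hasDerivWithinAt)
    ((hG.mul hp).mono (by
      rintro _ ⟨t, _, rfl⟩
      exact hT.mem t))
    (((hG.mul hp).integrableOn_Icc).mono_set himg)
    (by
      rw [uIcc_of_le hT.lt.le, integrableOn_Icc_iff_integrableOn_Ioo]
      have h3 : IntegrableOn (fun t => G (τ t) * f t) (Ioo t₀ t₁) :=
        ((hGτ.mul hf).integrableOn_Icc).mono_set Ioo_subset_Icc_self
      refine h3.congr_fun ?_ measurableSet_Ioo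
      intro t ht
      have := (hp0 _ (hT.inside t ht)).ne'
      simp only [Function.comp]
      field_simp)
  rw [h1, ← hT.left, ← hT.right, ← h2]
  rw [intervalIntegral.integral_of_le hT.lt.le, intervalIntegral.integral_of_le hT.lt.le,
    MeasureTheory.integral_Ioc_eq_integral_Ioo, MeasureTheory.integral_Ioc_eq_integral_Ioo]
  apply setIntegral_congr_fun measurableSet_Ioo
  intro t ht
  have := (hp0 _ (hT.inside t ht)).ne'
  simp only [Function.comp]
  field_simp

/-- Integration by parts against the transport. -/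
theorem Transport.ibp {f p τ : ℝ → ℝ} {t₀ t₁ : ℝ} (hT : Transport f p τ t₀ t₁)
    (hf0 : ∀ t, 0 ≤ f t) (hp0 : ∀ y ∈ Ioo (-1 : ℝ) 1, 0 < p y)
    {u u' : ℝ → ℝ} (hu : ∀ t, HasDerivAt u (u' t) t) (hu' : Continuous u')
    (hu0 : ∀ t, 0 ≤ u t) (huz : ∀ t, t ∉ Ioo t₀ t₁ → u t = 0) :
    IntegrableOn (fun t => f t / p (τ t) * u t) (Ioo t₀ t₁) ∧
    ∫ t in Ioo t₀ t₁, f t / p (τ t) * u t = - ∫ t, τ t * u' t := by
  have hτ'0 : ∀ t ∈ Ioo t₀ t₁, 0 ≤ f t / p (τ t) := fun t ht =>
    div_nonneg (hf0 t) (hp0 _ (hT.inside t ht)).le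
  have hτint : IntegrableOn (fun t => f t / p (τ t)) (Ioc t₀ t₁) :=
    intervalIntegral.integrableOn_deriv_of_nonneg hT.cont.continuousOn hT.deriv hτ'0
  have huc : Continuous u := continuous_iff_continuousAt.2 fun t => (hu t).continuousAt
  have hτint' : IntervalIntegrable (fun t => f t / p (τ t)) volume t₀ t₁ := by
    rwa [intervalIntegrable_iff_integrableOn_Ioc_of_le hT.lt.le]
  have hmul : IntervalIntegrable (fun t => f t / p (τ t) * u t) volume t₀ t₁ :=
    hτint'.mul_continuousOn huc.continuousOn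
  have h1 : IntegrableOn (fun t => f t / p (τ t) * u t) (Ioo t₀ t₁) := by
    rw [intervalIntegrable_iff_integrableOn_Ioc_of_le hT.lt.le] at hmul
    exact hmul.mono_set Ioo_subset_Ioc_self
  refine ⟨h1, ?_⟩
  have hbp := intervalIntegral.integral_deriv_mul_eq_sub_of_hasDeriv_right (a := t₀) (b := t₁)
    (u := τ) (v := u) (u' := fun t => f t / p (τ t)) (v' := u')
    hT.cont.continuousOn huc.continuousOn
    (by
      intro x hx
      rw [min_eq_left hT.lt.le, max_eq_right hT.lt.le] at hx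
      exact (hT.deriv x hx).hasDerivWithinAt)
    (fun x _ => (hu x).hasDerivWithinAt) hτint' (hu'.intervalIntegrable _ _)
  have hmul2 : IntervalIntegrable (fun t => τ t * u' t) volume t₀ t₁ :=
    (hT.cont.mul hu').intervalIntegrable _ _
  rw [huz t₀ (by simp), huz t₁ (by simp), mul_zero, mul_zero, sub_zero,
    intervalIntegral.integral_add hmul hmul2] at hbp
  have hu'z : ∀ t, t ∉ Ioo t₀ t₁ → u' t = 0 := by
    intro t ht
    have : IsLocalMin u t := Eventually.of_forall fun s => by rw [huz t ht]; exact hu0 s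
    exact this.hasDerivAt_eq_zero (hu t)
  have h2 : ∫ t, τ t * u' t = ∫ t in t₀..t₁, τ t * u' t := by
    rw [intervalIntegral.integral_of_le hT.lt.le, MeasureTheory.integral_Ioc_eq_integral_Ioo]
    rw [setIntegral_eq_integral_of_forall_compl_eq_zero]
    intro x hx
    rw [hu'z x hx, mul_zero]
  have h3 : ∫ t in t₀..t₁, f t / p (τ t) * u t = ∫ t in Ioo t₀ t₁, f t / p (τ t) * u t := by
    rw [intervalIntegral.integral_of_le hT.lt.le, MeasureTheory.integral_Ioc_eq_integral_Ioo]
  rw [h2, ← h3]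
  linarith

end Vale.Agent.P219
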