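import Vale.Agent.P219.Slices

namespace Vale.Agent.P219

open MeasureTheory Set Filter Topology

/-- A triangular system of `C¹` vector fields on `ℝⁿ` with weight `w` and divergences `β`
which are monotone along the flag of coordinates. -/
structure TriSys (n : ℕ) where
  E : Fin n → (Fin n → ℝ) → (Fin n → ℝ)
  w : (Fin n → ℝ) → ℝ
  β : Fin n → (Fin n → ℝ) → ℝ
  E_c1 : ∀ a, ContDiff ℝ 1 (E a)
  w_c1 : ContDiff ℝ 1 w
  w_pos : ∀ x, 0 < w x
  tri : ∀ a i x, i < a → E a x i = 0
  diag : ∀ a x, 0 < E a x a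
  div : ∀ a x, ∑ i, fderiv ℝ (fun y => w y * E a y i) x (Pi.single i 1) = w x * β a x
  β_mono : ∀ a x y, (∀ i < a, x i = y i) → x a ≤ y a → β a x ≤ β a y

namespace TriSys

variable {n k : ℕ}

/-- The product of the weight and the diagonal entries. -/
noncomputable def q (S : TriSys n) (x : Fin n → ℝ) : ℝ := S.w x * ∏ a, S.E a x a

/-- The norm of the gradient in the frame. -/
noncomputable def gnorm (S : TriSys n) (F : (Fin n → ℝ) → ℝ) (x : Fin n → ℝ) : ℝ :=
  √(∑ a, (fderiv ℝ F x (S.E a x)) ^ 2)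

theorem comp_c1 (S : TriSys n) (a i : Fin n) : ContDiff ℝ 1 fun x => S.E a x i := by
  have := S.E_c1 a
  rw [contDiff_pi] at this
  exact this i

theorem V_c1 (S : TriSys n) (a i : Fin n) : ContDiff ℝ 1 fun x => S.w x * S.E a x i :=
  S.w_c1.mul (S.comp_c1 a i)

theorem q_cont (S : TriSys n) : Continuous S.q := by
  unfold q
  exact S.w_c1.continuous.mul (continuous_finsetProd _ fun a _ => (S.comp_c1 a a).continuous)

theorem q_pos (S : TriSys n) (x : Fin n → ℝ) : 0 < S.q x :=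
  mul_pos (S.w_pos x) (Finset.prod_pos fun a _ => S.diag a x)

theorem β_cont (S : TriSys n) (a : Fin n) : Continuous (S.β a) := by
  have h : S.β a = fun x =>
      (∑ i, fderiv ℝ (fun y => S.w y * S.E a y i) x (Pi.single i 1)) / S.w x := by
    funext x
    rw [S.div a x, mul_div_cancel_left₀ _ (S.w_pos x).ne']
  rw [h]
  refine Continuous.div ?_ S.w_c1.continuous fun x => (S.w_pos x).ne'
  refine continuous_finsetSum _ fun i _ => ?_
  exact ((S.V_c1 a i).continuous_fderiv (by norm_num)).clm_apply continuous_const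

theorem dE_cont (S : TriSys n) {F : (Fin n → ℝ) → ℝ} (hF : ContDiff ℝ 1 F) (a : Fin n) :
    Continuous fun x => fderiv ℝ F x (S.E a x) :=
  (hF.continuous_fderiv (by norm_num)).clm_apply (S.E_c1 a).continuous

theorem gnorm_cont (S : TriSys n) {F : (Fin n → ℝ) → ℝ} (hF : ContDiff ℝ 1 F) :
    Continuous (S.gnorm F) := by
  unfold gnorm
  exact (continuous_finsetSum _ fun a _ => (S.dE_cont hF a).pow 2).sqrt

theorem gnorm_supp (S : TriSys n) {F : (Fin n → ℝ) → ℝ} (hc : HasCompactSupport F) :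
    HasCompactSupport (S.gnorm F) := by
  apply (hc.fderiv ℝ).mono'
  intro x hx
  apply subset_tsupport
  intro h
  apply hx
  simp [gnorm, h]

theorem gnorm_nonneg (S : TriSys n) (F : (Fin n → ℝ) → ℝ) (x : Fin n → ℝ) : 0 ≤ S.gnorm F x :=
  Real.sqrt_nonneg _

/-- The slice of a triangular system at a value of the first coordinate. -/
noncomputable def slice (S : TriSys (k + 1)) (t : ℝ) : TriSys k where
  E a x i := S.E a.succ (cs t x) i.succ
  w x := S.w (cs t x)
  β a x := S.β a.succ (cs t x)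
  E_c1 a := by
    rw [contDiff_pi]
    intro i
    exact (S.comp_c1 a.succ i.succ).comp (contDiff_cs_right t)
  w_c1 := S.w_c1.comp (contDiff_cs_right t)
  w_pos x := S.w_pos _
  tri a i x hi := S.tri _ _ _ (Fin.succ_lt_succ_iff.2 hi)
  diag a x := S.diag _ _
  div a x := by
    rw [← S.div a.succ (cs t x), Fin.sum_univ_succ]
    have h0 : (fun y => S.w y * S.E a.succ y 0) = fun _ => 0 := by
      funext y
      rw [S.tri a.succ 0 y (Fin.succ_pos a), mul_zero]
    rw [h0]
    simp only [fderiv_fun_const, Pi.zero_apply, zero_apply, zero_add]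
    refine Finset.sum_congr rfl fun i _ => ?_
    have h1 : HasFDerivAt (fun y : Fin k → ℝ => S.w (cs t y) * S.E a.succ (cs t y) i.succ)
        ((fderiv ℝ (fun y => S.w y * S.E a.succ y i.succ) (cs t x)).comp (csL k)) x := by
      have h2 := (((S.V_c1 a.succ i.succ).differentiable (by norm_num)) (cs t x)).hasFDerivAt
      exact h2.comp x (hasFDerivAt_cs_right t x)
    rw [h1.fderiv, ContinuousLinearMap.comp_apply, csL_apply]
    congr 1
    funext j
    refine Fin.cases ?_ (fun j => ?_) j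
    · simp [Fin.succ_ne_zero, eq_comm]
    · simp [Pi.single_apply]
  β_mono a x y hxy hle := by
    apply S.β_mono
    · intro i hi
      refine Fin.cases ?_ (fun j => ?_) i hi
      · intro _; rfl
      · intro hj
        simp only [cs_succ]
        exact hxy j (Fin.succ_lt_succ_iff.1 hj)
    · simpa using hle

theorem slice_q (S : TriSys (k + 1)) (t : ℝ) (x : Fin k → ℝ) :
    S.q (cs t x) = S.E 0 (cs t x) 0 * (S.slice t).q x := by
  simp only [q, slice, Fin.prod_univ_succ]
  ring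

theorem slice_deriv (S : TriSys (k + 1)) {F : (Fin (k + 1) → ℝ) → ℝ} (hF : ContDiff ℝ 1 F)
    (t : ℝ) (x : Fin k → ℝ) (a : Fin k) :
    fderiv ℝ (fun y => F (cs t y)) x ((S.slice t).E a x) =
      fderiv ℝ F (cs t x) (S.E a.succ (cs t x)) := by
  have h1 : HasFDerivAt (fun y : Fin k → ℝ => F (cs t y))
      ((fderiv ℝ F (cs t x)).comp (csL k)) x :=
    ((hF.differentiable (by norm_num)) (cs t x)).hasFDerivAt.comp x (hasFDerivAt_cs_right t x)
  rw [h1.fderiv, ContinuousLinearMap.comp_apply, csL_apply]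
  congr 1
  funext j
  refine Fin.cases ?_ (fun j => ?_) j
  · simp [S.tri a.succ 0 _ (Fin.succ_pos a)]
  · simp [slice]

theorem gnorm_sq (S : TriSys (k + 1)) {F : (Fin (k + 1) → ℝ) → ℝ} (hF : ContDiff ℝ 1 F)
    (t : ℝ) (x : Fin k → ℝ) :
    S.gnorm F (cs t x) = √((fderiv ℝ F (cs t x) (S.E 0 (cs t x))) ^ 2 +
      ((S.slice t).gnorm (fun y => F (cs t y)) x) ^ 2) := by
  unfold gnorm
  rw [Real.sq_sqrt (Finset.sum_nonneg fun a _ => sq_nonneg _), Fin.sum_univ_succ]
  congr 2
  refine Finset.sum_congr rfl fun a _ => ?_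
  rw [slice_deriv S hF]

theorem cauchy2 (A B y : ℝ) (hy : y ∈ Icc (-1 : ℝ) 1) :
    -(y * A) + √(1 - y ^ 2) * B ≤ √(A ^ 2 + B ^ 2) := by
  have h1 : 0 ≤ 1 - y ^ 2 := by nlinarith [hy.1, hy.2]
  apply Real.le_sqrt_of_sq_le
  have h2 := Real.sq_sqrt h1
  nlinarith [sq_nonneg (√(1 - y ^ 2) * A + y * B)]

/-- Pointwise lower bound for the gradient norm. -/
theorem gnorm_lower (S : TriSys (k + 1)) {F : (Fin (k + 1) → ℝ) → ℝ} (hF : ContDiff ℝ 1 F)
    (t : ℝ) (x : Fin k → ℝ) {y : ℝ} (hy : y ∈ Icc (-1 : ℝ) 1) :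
    -(y * fderiv ℝ F (cs t x) (S.E 0 (cs t x))) +
      √(1 - y ^ 2) * (S.slice t).gnorm (fun y => F (cs t y)) x ≤ S.gnorm F (cs t x) := by
  rw [gnorm_sq S hF]
  exact cauchy2 _ _ _ hy

end TriSys

end Vale.Agent.P219
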